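import Vale.Agent.P188.H269.Dexp

/-!
A qualitative Baker-Campbell-Hausdorff theorem in a nilpotent algebra: if `a` is an ideal of the
Lie algebra `g` then `exp v * exp w = exp (v + w + z)` with `z` in the span of `[g, a]`, for `v` in
`g` and `w` in `a`.
-/

open Finset

namespace Vale.Agent.P188.H269

open Vale.Agent.P188.H796

section

variable {A : Type*} [NormedRing A] [NormedAlgebra ℝ A] [FiniteDimensional ℝ A]

/-- a vector is in a subspace if all functionals vanishing on the subspace vanish on it -/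
theorem mem_of_functionals (U : Submodule ℝ A) {x : A}
    (h : ∀ φ : A →L[ℝ] ℝ, (∀ y ∈ U, φ y = 0) → φ x = 0) : x ∈ U := by
  by_contra hx
  obtain ⟨φ, hφ, hU⟩ := Submodule.exists_dual_map_eq_bot_of_notMem hx inferInstance
  apply hφ
  refine h (LinearMap.toContinuousLinearMap φ) fun y hy => ?_
  have h1 : φ y ∈ U.map φ := Submodule.mem_map_of_mem hy
  rw [hU] at h1
  exact h1

theorem deriv_mem (U : Submodule ℝ A) {Z : ℝ → A} {W : A} {s : ℝ} (hZ : HasDerivAt Z W s)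
    (h : ∀ t, Z t ∈ U) : W ∈ U := by
  refine mem_of_functionals U fun φ hφ => ?_
  have h1 : HasDerivAt (fun t => φ (Z t)) (φ W) s := φ.hasFDerivAt.comp_hasDerivAt s hZ
  have h2 : (fun t => φ (Z t)) = fun _ => 0 := funext fun t => hφ _ (h t)
  rw [h2] at h1
  exact h1.unique (hasDerivAt_const s (0 : ℝ))

theorem sub_mem_of_deriv (U : Submodule ℝ A) {Z W : ℝ → A} (hZ : ∀ s, HasDerivAt Z (W s) s)
    (h : ∀ s, W s ∈ U) (s t : ℝ) : Z s - Z t ∈ U := by
  refine mem_of_functionals U fun φ hφ => ?_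
  have h1 : ∀ r, HasDerivAt (fun t => φ (Z t)) 0 r := by
    intro r
    have h2 : HasDerivAt (fun t => φ (Z t)) (φ (W r)) r := φ.hasFDerivAt.comp_hasDerivAt r (hZ r)
    rwa [hφ _ (h r)] at h2
  have h3 : φ (Z s) = φ (Z t) :=
    is_const_of_deriv_eq_zero (fun r => (h1 r).differentiableAt) (fun r => (h1 r).deriv) s t
  rw [map_sub, h3, sub_self]

/-- a nilpotent subalgebra -/
structure NilJ (J : Submodule ℝ A) (m : ℕ) : Prop where
  pow : J ^ m = ⊥
  mul : ∀ a ∈ J, ∀ b ∈ J, a * b ∈ J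
  pos : 0 < m

variable {J : Submodule ℝ A} {m : ℕ}

omit [FiniteDimensional ℝ A] in
theorem NilJ.pow_succ_le (h : NilJ J m) {i : ℕ} (hi : 1 ≤ i) : J ^ (i + 1) ≤ J ^ i := by
  obtain ⟨i, rfl⟩ : ∃ k, i = k + 1 := ⟨i - 1, by omega⟩
  rw [pow_succ, pow_succ, mul_assoc]
  refine mul_le_mul' le_rfl ?_
  rw [Submodule.mul_le]
  exact h.mul

omit [FiniteDimensional ℝ A] in
theorem NilJ.pow_le (h : NilJ J m) {i j : ℕ} (hi : 1 ≤ i) (hij : i ≤ j) : J ^ j ≤ J ^ i := by
  induction j, hij using Nat.le_induction with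
  | base => exact le_rfl
  | succ j hj ih => exact (h.pow_succ_le (hi.trans hj)).trans ih

omit [FiniteDimensional ℝ A] in
theorem NilJ.pow_eq_bot (h : NilJ J m) {n : ℕ} (hn : m ≤ n) : J ^ n = ⊥ := by
  rw [eq_bot_iff, ← h.pow]; exact h.pow_le h.pos hn

omit [FiniteDimensional ℝ A] in
theorem mul_mem_pow {a b : A} {i j : ℕ} (ha : a ∈ J ^ i) (hb : b ∈ J ^ j) : a * b ∈ J ^ (i + j) := by
  rw [pow_add]; exact Submodule.mul_mem_mul ha hb

omit [FiniteDimensional ℝ A] in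
theorem pow_mem_powJ {a : A} (ha : a ∈ J) (n : ℕ) : a ^ n ∈ J ^ n := Submodule.pow_mem_pow J ha n

omit [FiniteDimensional ℝ A] in
theorem NilJ.nil (h : NilJ J m) {a : A} (ha : a ∈ J) : a ^ m = 0 := by
  have h1 := pow_mem_powJ ha m
  rwa [h.pow, Submodule.mem_bot] at h1

omit [FiniteDimensional ℝ A] in
theorem NilJ.pow_mem (h : NilJ J m) {a : A} (ha : a ∈ J) {n : ℕ} (hn : 1 ≤ n) : a ^ n ∈ J := by
  have h1 := h.pow_le le_rfl hn (pow_mem_powJ ha n)
  rwa [pow_one] at h1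

omit [FiniteDimensional ℝ A] in
theorem adz_mem_pow {Z W : A} {i : ℕ} (hZ : Z ∈ J) (hW : W ∈ J ^ i) : adz Z W ∈ J ^ (i + 1) := by
  rw [adz_apply]
  refine Submodule.sub_mem _ ?_ ?_
  · rw [pow_succ']; exact Submodule.mul_mem_mul hZ hW
  · rw [pow_succ]; exact Submodule.mul_mem_mul hW hZ

omit [FiniteDimensional ℝ A] in
theorem adz_pow_mem_pow {Z W : A} {i : ℕ} (hZ : Z ∈ J) (hW : W ∈ J ^ i) (k : ℕ) :
    (adz Z ^ k) W ∈ J ^ (i + k) := by
  induction k with
  | zero => simpa using hW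
  | succ k ih =>
    rw [pow_succ', Module.End.mul_apply, ← add_assoc]
    exact adz_mem_pow hZ ih

omit [FiniteDimensional ℝ A] in
theorem NilJ.vanish (h : NilJ J m) {Z W : A} (hZ : Z ∈ J) (hW : W ∈ J) (j k : ℕ)
    (hjk : m ≤ j + k + 1) : Z ^ j * (adz Z ^ k) W = 0 := by
  have h1 : Z ^ j * (adz Z ^ k) W ∈ J ^ (j + (1 + k)) :=
    mul_mem_pow (pow_mem_powJ hZ j) (adz_pow_mem_pow hZ (by rwa [pow_one]) k)
  rwa [h.pow_eq_bot (by omega), Submodule.mem_bot] at h1

omit [FiniteDimensional ℝ A] in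
theorem NilJ.ex_sub_one (h : NilJ J m) {v : A} (hv : v ∈ J) : ex m v - 1 ∈ J := by
  have hpos := h.pos
  obtain ⟨n, rfl⟩ : ∃ k, m = k + 1 := ⟨m - 1, by omega⟩
  unfold ex
  rw [sum_range_succ']
  simp only [Nat.factorial_zero, Nat.cast_one, inv_one, pow_zero, one_smul, add_sub_cancel_right]
  exact Submodule.sum_mem _ fun k _ => J.smul_mem _ (h.pow_mem hv (by omega))

omit [FiniteDimensional ℝ A] in
theorem NilJ.lg_mem (h : NilJ J m) {u : A} (hu : u - 1 ∈ J) : lg m u ∈ J := by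
  unfold lg
  refine Submodule.sum_mem _ fun k _ => ?_
  rcases Nat.eq_zero_or_pos k with hk | hk
  · rw [hk, be_zero, zero_smul]; exact J.zero_mem
  · exact J.smul_mem _ (h.pow_mem hu hk)

omit [FiniteDimensional ℝ A] in
theorem NilJ.mul_sub_one (h : NilJ J m) {u v : A} (hu : u - 1 ∈ J) (hv : v - 1 ∈ J) :
    u * v - 1 ∈ J := by
  have e : u * v - 1 = (u - 1) * (v - 1) + (u - 1) + (v - 1) := by noncomm_ring
  rw [e]
  exact J.add_mem (J.add_mem (h.mul _ hu _ hv) hu) hv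

omit [FiniteDimensional ℝ A] in
/-- the leading term of `Th` -/
theorem Th_eq (n : ℕ) (Z W : A) : Th (n + 1) Z W =
    W + adz Z (∑ k ∈ range n, ((-1 : ℝ) ^ (k + 1) * ((k + 2).factorial : ℝ)⁻¹) •
      (adz Z ^ k) W) := by
  unfold Th
  rw [sum_range_succ', add_comm]
  congr 1
  · simp
  · rw [map_sum]
    refine sum_congr rfl fun k _ => ?_
    rw [map_smul, pow_succ' (adz Z), Module.End.mul_apply]

/-- **BCH.** -/
theorem NilJ.bch (h : NilJ J m) (g a : Submodule ℝ A) (hgJ : g ≤ J) (hag : a ≤ g)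
    (hga : ∀ x ∈ g, ∀ y ∈ a, x * y - y * x ∈ a)
    (d : Submodule ℝ A) (hd : ∀ x ∈ g, ∀ y ∈ a, x * y - y * x ∈ d)
    {v w : A} (hv : v ∈ g) (hw : w ∈ a) :
    ∃ z ∈ d, z ∈ a ∧ ex m v * ex m w = ex m (v + w + z) := by
  have hm := h.pos
  have hvJ := hgJ hv
  have hwJ := hgJ (hag hw)
  have hvm := h.nil hvJ
  have hwm := h.nil hwJ
  set F : ℝ → A := fun s => ex m v * ex m (s • w) with hF
  have hF' : ∀ s, HasDerivAt F (F s * w) s := by
    intro s
    have h1 := (hasDerivAt_ex hwm s).const_mul (ex m v)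
    rw [← mul_assoc] at h1
    exact h1
  have hFJ : ∀ s, F s - 1 ∈ J := fun s =>
    h.mul_sub_one (h.ex_sub_one hvJ) (h.ex_sub_one (J.smul_mem s hwJ))
  set Z : ℝ → A := fun s => lg m (F s) with hZ
  have hZJ : ∀ s, Z s ∈ J := fun s => h.lg_mem (hFJ s)
  have hexZ : ∀ s, ex m (Z s) = F s := fun s => ex_lg hm (h.nil (hFJ s))
  have hZd : ∀ s, ∃ W, HasDerivAt Z W s := by
    intro s
    refine ⟨_, HasDerivAt.fun_sum (u := range m) (A := fun k t => be k • (F t - 1) ^ k)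
      fun k _ => (hasDerivAt_powc ((hF' s).sub_const 1) k).fun_const_smul (be k)⟩
  choose W hW using hZd
  have hWJ : ∀ s, W s ∈ J := fun s => deriv_mem J (hW s) hZJ
  -- the differential equation
  have hode : ∀ s, Th m (Z s) (W s) = w := by
    intro s
    have h1 := hasDerivAt_exc m (hW s) (h.vanish (hZJ s) (hWJ s))
    have h2 : (fun t => ex m (Z t)) = F := funext hexZ
    rw [h2] at h1
    have h3 := h1.unique (hF' s)
    rw [← hexZ s] at h3
    have h4 := congrArg (fun y => ex m (-(Z s)) * y) h3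
    simp only [← mul_assoc, ex_neg_mul hm (h.nil (hZJ s)), one_mul] at h4
    exact h4
  obtain ⟨n, rfl⟩ : ∃ k, m = k + 1 := ⟨m - 1, by omega⟩
  have hWeq : ∀ s, W s = w - adz (Z s) (∑ k ∈ range n,
      ((-1 : ℝ) ^ (k + 1) * ((k + 2).factorial : ℝ)⁻¹) • (adz (Z s) ^ k) (W s)) := by
    intro s
    have h1 := hode s
    rw [Th_eq] at h1
    exact eq_sub_of_add_eq h1
  have hZ0 : Z 0 = v := by
    simp only [hZ, hF]
    rw [ex_zero_smul hm, mul_one, lg_ex hm hvm]
  -- brackets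
  have hbr : ∀ i, 1 ≤ i → ∀ x ∈ g ⊔ J ^ i, ∀ y ∈ a ⊔ J ^ i, adz x y ∈ a ⊔ J ^ (i + 1) := by
    intro i hi x hx y hy
    obtain ⟨x1, hx1, x2, hx2, rfl⟩ := Submodule.mem_sup.1 hx
    obtain ⟨y1, hy1, y2, hy2, rfl⟩ := Submodule.mem_sup.1 hy
    have e : adz (x1 + x2) (y1 + y2) = (x1 * y1 - y1 * x1) +
        ((x1 * y2 - y2 * x1) + (x2 * (y1 + y2) - (y1 + y2) * x2)) := by
      rw [adz_apply]; noncomm_ring
    rw [e]
    refine Submodule.add_mem _ (Submodule.mem_sup_left (hga _ hx1 _ hy1))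
      (Submodule.mem_sup_right ?_)
    have hx1J : x1 ∈ J := hgJ hx1
    have hyJ : y1 + y2 ∈ J := J.add_mem (hgJ (hag hy1)) (by
      have := h.pow_le le_rfl hi hy2
      rwa [pow_one] at this)
    refine Submodule.add_mem _ (Submodule.sub_mem _ ?_ ?_) (Submodule.sub_mem _ ?_ ?_)
    · rw [pow_succ']; exact Submodule.mul_mem_mul hx1J hy2
    · rw [pow_succ]; exact Submodule.mul_mem_mul hy2 hx1J
    · rw [pow_succ]; exact Submodule.mul_mem_mul hx2 hyJ
    · rw [pow_succ']; exact Submodule.mul_mem_mul hyJ hx2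
  have key : ∀ i, 1 ≤ i → ∀ s, Z s ∈ g ⊔ J ^ i ∧ W s ∈ a ⊔ J ^ i := by
    intro i hi
    induction i, hi using Nat.le_induction with
    | base =>
      intro s
      rw [pow_one]
      exact ⟨Submodule.mem_sup_right (hZJ s), Submodule.mem_sup_right (hWJ s)⟩
    | succ i hi ih =>
      have hmono : a ⊔ J ^ (i + 1) ≤ a ⊔ J ^ i := sup_le_sup_left (h.pow_succ_le hi) _
      have h1 : ∀ s, W s ∈ a ⊔ J ^ (i + 1) := by
        intro s
        obtain ⟨hz, hw'⟩ := ih s
        rw [hWeq s]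
        refine Submodule.sub_mem _ (Submodule.mem_sup_left hw) ?_
        have h2 : ∀ k, (adz (Z s) ^ k) (W s) ∈ a ⊔ J ^ i := by
          intro k
          induction k with
          | zero => simpa using hw'
          | succ k ihk =>
            rw [pow_succ', Module.End.mul_apply]
            exact hmono (hbr i hi _ hz _ ihk)
        exact hbr i hi _ hz _ (Submodule.sum_mem _ fun k _ => Submodule.smul_mem _ _ (h2 k))
      intro s
      refine ⟨?_, h1 s⟩
      have h2 := sub_mem_of_deriv _ hW h1 s 0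
      rw [hZ0] at h2
      have h3 : Z s = v + (Z s - v) := by abel
      rw [h3]
      exact Submodule.add_mem _ (Submodule.mem_sup_left hv) (sup_le_sup_right hag _ h2)
  have hZg : ∀ s, Z s ∈ g := by
    intro s
    have h1 := (key (n + 1) (by omega) s).1
    rwa [h.pow, sup_bot_eq] at h1
  have hWa : ∀ s, W s ∈ a := by
    intro s
    have h1 := (key (n + 1) (by omega) s).2
    rwa [h.pow, sup_bot_eq] at h1
  have hpow : ∀ s k, (adz (Z s) ^ k) (W s) ∈ a := by
    intro s k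
    induction k with
    | zero => simpa using hWa s
    | succ k ihk =>
      rw [pow_succ', Module.End.mul_apply, adz_apply]
      exact hga _ (hZg s) _ ihk
  have hWd : ∀ s, W s - w ∈ d ⊓ a := by
    intro s
    have hsum : (∑ k ∈ range n, ((-1 : ℝ) ^ (k + 1) * ((k + 2).factorial : ℝ)⁻¹) •
        (adz (Z s) ^ k) (W s)) ∈ a := Submodule.sum_mem _ fun k _ => a.smul_mem _ (hpow s k)
    have h1 : W s - w = - adz (Z s) (∑ k ∈ range n,
      ((-1 : ℝ) ^ (k + 1) * ((k + 2).factorial : ℝ)⁻¹) • (adz (Z s) ^ k) (W s)) := by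
      conv_lhs => rw [hWeq s]
      abel
    rw [h1, adz_apply]
    exact Submodule.neg_mem _ ⟨hd _ (hZg s) _ hsum, hga _ (hZg s) _ hsum⟩
  have hfin : (Z 1 - (1 : ℝ) • w) - (Z 0 - (0 : ℝ) • w) ∈ d ⊓ a := by
    refine sub_mem_of_deriv (Z := fun s => Z s - s • w) (W := fun s => W s - w) (d ⊓ a) ?_ hWd 1 0
    intro s
    have h1 : HasDerivAt (fun s : ℝ => s • w) w s := by
      simpa using (hasDerivAt_id s).smul_const w
    exact (hW s).fun_sub h1
  rw [hZ0, one_smul, zero_smul, sub_zero] at hfin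
  refine ⟨Z 1 - w - v, hfin.1, hfin.2, ?_⟩
  have h1 : v + w + (Z 1 - w - v) = Z 1 := by abel
  rw [h1, hexZ]
  simp only [hF, one_smul]

end

end Vale.Agent.P188.H269
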