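import Vale.Agent.P188.H269.Semi

/-!
The Cartan group, part 1: groups with a nilpotent exponential subgroup, abstractly.
-/

namespace Vale.Agent.P188.H269

open Module
open scoped commutatorElement

universe u v

section agree

/-- comparison of two automorphisms which agree modulo a subspace, general form -/
theorem mem_of_agree' {V : Type v} [AddCommGroup V] [Module ℝ V] [FiniteDimensional ℝ V]
    {T T' S S' : Module.End ℝ V} (h : T' * T = 1)
    (A I : Submodule ℝ V) (hIT : ∀ x ∈ I, T x ∈ I) (hIT' : ∀ x ∈ I, T' x ∈ I)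
    (hAS : ∀ x ∈ A, S x ∈ A) (hAS' : ∀ x ∈ A, S' x ∈ A)
    (hS : ∀ x ∈ A, S x - T x ∈ I) (hS' : ∀ x ∈ A, S' x - T' x ∈ I) {r0 : ℝ}
    (hI : ∀ x ∈ A, ∃ y ∈ Wt T T' r0, x - y ∈ I) {r : ℝ} (hr : r ≠ r0) {x : V} (hx : x ∈ A)
    (hxr : x ∈ Wt S S' r) : x ∈ I := by
  classical
  let q : Module.End ℝ (V ⧸ I) := I.mapQ I T hIT
  let q' : Module.End ℝ (V ⧸ I) := I.mapQ I T' hIT'
  have hq : q' * q = 1 := by
    apply Submodule.linearMap_qext
    ext y
    have := congrArg (fun B : Module.End ℝ V => B y) h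
    simp only [Module.End.mul_apply, Module.End.one_apply] at this
    simp [q, q', this]
  -- the class of `x` has modulus `r`
  have h1 : I.mkQ x ∈ Wt q q' r := by
    let f : A →ₗ[ℝ] V ⧸ I := I.mkQ ∘ₗ A.subtype
    have hf1 : f ⟨x, hx⟩ ∈ Gr q r := by
      refine Gr_map (T := S.restrict hAS) f ?_ (Gr_restrict A hAS hx hxr.1)
      intro y
      change I.mkQ (S y) = q (I.mkQ y)
      have h2 : I.mkQ (S y) = I.mkQ (T y) := by
        rw [← sub_eq_zero, ← map_sub]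
        exact (Submodule.Quotient.mk_eq_zero I).2 (hS y y.2)
      rw [h2]; rfl
    have hf2 : f ⟨x, hx⟩ ∈ Gr q' (-r) := by
      refine Gr_map (T := S'.restrict hAS') f ?_ (Gr_restrict A hAS' hx hxr.2)
      intro y
      change I.mkQ (S' y) = q' (I.mkQ y)
      have h2 : I.mkQ (S' y) = I.mkQ (T' y) := by
        rw [← sub_eq_zero, ← map_sub]
        exact (Submodule.Quotient.mk_eq_zero I).2 (hS' y y.2)
      rw [h2]; rfl
    exact ⟨hf1, hf2⟩
  have h3 : I.mkQ x ∈ Wt q q' r0 := by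
    obtain ⟨y, hy, hxy⟩ := hI x hx
    have h4 : I.mkQ x = I.mkQ y := by
      rw [← sub_eq_zero, ← map_sub]
      exact (Submodule.Quotient.mk_eq_zero I).2 hxy
    rw [h4]
    exact Wt_map I.mkQ (fun y => rfl) (fun y => rfl) hy
  have h5 : I.mkQ x = 0 := by
    rcases lt_or_gt_of_ne hr with hlt | hgt
    · exact indep_lt hq hlt h1.1 h3.2
    · exact indep_lt hq hgt h3.1 h1.2
  exact (Submodule.Quotient.mk_eq_zero I).1 h5

theorem Wt_disjoint {V : Type v} [AddCommGroup V] [Module ℝ V] [FiniteDimensional ℝ V]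
    {T T' : Module.End ℝ V} (h : T' * T = 1) {r s : ℝ} (hrs : r ≠ s) {x : V}
    (hx : x ∈ Wt T T' r) (hx' : x ∈ Wt T T' s) : x = 0 := by
  rcases lt_or_gt_of_ne hrs with hlt | hgt
  · exact indep_lt h hlt hx.1 hx'.2
  · exact indep_lt h hgt hx'.1 hx.2

end agree

section exps

variable {S : Type u} [Group S]
variable {V : Type v} [LieRing V] [LieAlgebra ℝ V] [FiniteDimensional ℝ V]

/-- A group `S` with a normal subgroup `E '' V`, the exponential image of a nilpotent Lie algebra. -/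
structure ExpS (ρ : S →* Module.End ℝ V) (E : V → S) : Prop where
  zero : E 0 = 1
  neg : ∀ v, E (-v) = (E v)⁻¹
  inj : Function.Injective E
  conj : ∀ s v, s * E v * s⁻¹ = E (ρ s v)
  mul_ideal : ∀ (I : LieIdeal ℝ V) (v w : V), w ∈ I →
    ∃ z ∈ (⁅(⊤ : LieIdeal ℝ V), I⁆ : LieIdeal ℝ V), E v * E w = E (v + w + z)
  mul_sub : ∀ (h : LieSubalgebra ℝ V) (v w : V), v ∈ h → w ∈ h → ∃ z ∈ h, E v * E w = E z
  comm : ∀ a b : S, ∃ v, ⁅a, b⁆ = E v
  lie : ∀ s, ∀ x y : V, ρ s ⁅x, y⁆ = ⁅ρ s x, ρ s y⁆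
  ad : ∀ (v : V) (U U' : Submodule ℝ V), U' ≤ U → (∀ x ∈ U, ⁅v, x⁆ ∈ U') →
    ∀ x ∈ U, ρ (E v) x - x ∈ U'
  nil : LieModule.IsNilpotent V V

variable {ρ : S →* Module.End ℝ V} {E : V → S}

/-- the normal subgroup -/
def ExpS.N (H : ExpS ρ E) : Subgroup S where
  carrier := Set.range E
  one_mem' := ⟨0, H.zero⟩
  mul_mem' := by
    rintro _ _ ⟨a, rfl⟩ ⟨b, rfl⟩
    obtain ⟨z, _, hz⟩ := H.mul_sub ⊤ a b (LieSubalgebra.mem_top a) (LieSubalgebra.mem_top b)
    exact ⟨z, hz.symm⟩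
  inv_mem' := by
    rintro _ ⟨a, rfl⟩
    exact ⟨-a, H.neg a⟩

theorem ExpS.mem_N (H : ExpS ρ E) {s : S} : s ∈ H.N ↔ ∃ v, E v = s := Iff.rfl

theorem ExpS.normal (H : ExpS ρ E) : H.N.Normal := by
  constructor
  rintro _ ⟨v, rfl⟩ s
  exact ⟨ρ s v, (H.conj s v).symm⟩

theorem ExpS.lrep (H : ExpS ρ E) : LRep H.N ρ where
  comm a b := by
    obtain ⟨v, hv⟩ := H.comm a b
    exact ⟨v, hv.symm⟩
  lie := H.lie
  unip := by
    rintro _ ⟨v, rfl⟩ I x hx
    refine H.ad v I.toSubmodule (⁅(⊤ : LieIdeal ℝ V), I⁆ : LieIdeal ℝ V).toSubmodule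
      (LieSubmodule.lie_le_right _ _) (fun y hy => ?_) x hx
    exact LieSubmodule.lie_mem_lie (LieSubmodule.mem_top v) hy
  nil := H.nil

theorem ExpS.conj' (H : ExpS ρ E) (s : S) (v : V) : s * E v = E (ρ s v) * s := by
  rw [← H.conj]; group

theorem ExpS.conj_inv (H : ExpS ρ E) (s : S) (v : V) : s⁻¹ * E v * s = E (ρ s⁻¹ v) := by
  have := H.conj s⁻¹ v
  rwa [inv_inv] at this

theorem ExpS.mul_ideal' (H : ExpS ρ E) (I : LieIdeal ℝ V) (v w : V) (hw : w ∈ I) :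
    ∃ z ∈ (⁅(⊤ : LieIdeal ℝ V), I⁆ : LieIdeal ℝ V), E w * E v = E (v + w + z) := by
  obtain ⟨z, hz, he⟩ := H.mul_ideal I (-v) (-w) (neg_mem hw)
  refine ⟨-z, neg_mem hz, ?_⟩
  have h1 := congrArg (fun g : S => g⁻¹) he
  simp only [mul_inv_rev] at h1
  rw [← H.neg, ← H.neg, ← H.neg, neg_neg, neg_neg] at h1
  rw [h1]
  congr 1; abel

/-- ideals give subgroups -/
theorem ExpS.mul_mem_ideal (H : ExpS ρ E) (I : LieIdeal ℝ V) {v w : V} (hv : v ∈ I) (hw : w ∈ I) :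
    ∃ z ∈ I, E v * E w = E z := by
  obtain ⟨z, hz, he⟩ := H.mul_sub (LieIdeal.toLieSubalgebra ℝ V I) v w hv hw
  exact ⟨z, hz, he⟩

/-- the iterated commutators of an ideal with `V` -/
def dn (I : LieIdeal ℝ V) : ℕ → LieIdeal ℝ V
  | 0 => I
  | k + 1 => ⁅(⊤ : LieIdeal ℝ V), dn I k⁆

omit [FiniteDimensional ℝ V] in
theorem dn_zero (I : LieIdeal ℝ V) : dn I 0 = I := rfl
omit [FiniteDimensional ℝ V] in
theorem dn_succ (I : LieIdeal ℝ V) (k : ℕ) : dn I (k + 1) = ⁅(⊤ : LieIdeal ℝ V), dn I k⁆ := rfl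

omit [FiniteDimensional ℝ V] in
theorem dn_le_lcs (I : LieIdeal ℝ V) (k : ℕ) : dn I k ≤ LieModule.lowerCentralSeries ℝ V V k := by
  induction k with
  | zero => rw [LieModule.lowerCentralSeries_zero]; exact le_top
  | succ k ih =>
    rw [dn_succ, LieModule.lowerCentralSeries_succ]
    exact LieSubmodule.mono_lie_right _ ih

omit [FiniteDimensional ℝ V] in
theorem dn_succ_le (I : LieIdeal ℝ V) (k : ℕ) : dn I (k + 1) ≤ dn I k :=
  LieSubmodule.lie_le_right _ _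

omit [FiniteDimensional ℝ V] in
theorem dn_le (I : LieIdeal ℝ V) (k : ℕ) : dn I k ≤ I := by
  induction k with
  | zero => exact le_rfl
  | succ k ih => exact (dn_succ_le I k).trans ih

omit [FiniteDimensional ℝ V] in
theorem exists_dn_eq_bot (hnil : LieModule.IsNilpotent V V) : ∃ k, ∀ I : LieIdeal ℝ V,
    dn I k = ⊥ := by
  obtain ⟨k, hk⟩ := hnil.nilpotent ℝ
  exact ⟨k, fun I => by rw [eq_bot_iff, ← hk]; exact dn_le_lcs I k⟩

theorem ExpS.dn_inv (H : ExpS ρ E) {I : LieIdeal ℝ V} (hI : ∀ s, ∀ x ∈ I, ρ s x ∈ I) (k : ℕ) :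
    ∀ s, ∀ x ∈ dn I k, ρ s x ∈ dn I k := by
  induction k with
  | zero => exact hI
  | succ k ih =>
    intro s
    rw [dn_succ]
    exact lie_inv (H.lie s) (fun _ _ => LieSubmodule.mem_top _) (ih s)

/-- elements congruent modulo an ideal -/
theorem ExpS.exists_right (H : ExpS ρ E) (I : LieIdeal ℝ V) (v u : V) (hu : u - v ∈ I) :
    ∃ y ∈ I, E u = E v * E y := by
  obtain ⟨K, hK⟩ := exists_dn_eq_bot H.nil
  have key : ∀ (j k : ℕ), j + k = K → ∀ v u : V, u - v ∈ dn I k →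
      ∃ y ∈ dn I k, E u = E v * E y := by
    intro j
    induction j with
    | zero =>
      intro k hk v u hu
      have hkK : k = K := by omega
      subst hkK
      rw [hK I, LieSubmodule.mem_bot, sub_eq_zero] at hu
      exact ⟨0, zero_mem _, by rw [hu, H.zero, mul_one]⟩
    | succ j ih =>
      intro k hk v u hu
      obtain ⟨z, hz, he⟩ := H.mul_ideal (dn I k) v (u - v) hu
      have h1 : u - (v + (u - v) + z) ∈ dn I (k + 1) := by
        have e1 : u - (v + (u - v) + z) = -z := by abel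
        rw [e1, dn_succ]
        exact neg_mem hz
      obtain ⟨y, hy, hey⟩ := ih (k + 1) (by omega) _ _ h1
      rw [← he, mul_assoc] at hey
      obtain ⟨y', hy', hey'⟩ := H.mul_mem_ideal (dn I k) hu (dn_succ_le I k hy)
      exact ⟨y', hy', by rw [hey, hey']⟩
  exact key K 0 (by omega) v u hu

theorem ExpS.exists_left (H : ExpS ρ E) (I : LieIdeal ℝ V) (v u : V) (hu : u - v ∈ I) :
    ∃ y ∈ I, E u = E y * E v := by
  obtain ⟨y, hy, he⟩ := H.exists_right I (-v) (-u) (by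
    have : -u - -v = -(u - v) := by abel
    rw [this]; exact neg_mem hu)
  refine ⟨-y, neg_mem hy, ?_⟩
  have h1 := congrArg (fun g : S => g⁻¹) he
  simp only [mul_inv_rev] at h1
  rwa [← H.neg, ← H.neg, ← H.neg, neg_neg, neg_neg] at h1

end exps

end Vale.Agent.P188.H269
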