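import Vale.Agent.P188.H269.Cartan1

/-!
The Cartan group, part 2: the group `C = {s | s t s⁻¹ ∈ t E(h)}`, `h` the neutral part of `t`.
-/

namespace Vale.Agent.P188.H269

open Module
open scoped commutatorElement

universe u v

section cartan

variable {S : Type u} [Group S]
variable {V : Type v} [LieRing V] [LieAlgebra ℝ V] [FiniteDimensional ℝ V]
variable {ρ : S →* Module.End ℝ V} {E : V → S}

/-- modulus spaces of an element -/
def W (ρ : S →* Module.End ℝ V) (t : S) (r : ℝ) : Submodule ℝ V := Wt (ρ t) (ρ t⁻¹) r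

theorem W_map (ρ : S →* Module.End ℝ V) (t s : S) {r : ℝ} {x : V} (hx : x ∈ W ρ t r) :
    ρ s x ∈ W ρ (s * t * s⁻¹) r := by
  refine Wt_map (ρ s) ?_ ?_ hx
  · intro y
    rw [← Module.End.mul_apply, ← Module.End.mul_apply, ← map_mul, ← map_mul]
    congr 2; group
  · intro y
    rw [← Module.End.mul_apply, ← Module.End.mul_apply, ← map_mul, ← map_mul]
    congr 2; group

theorem W_self (ρ : S →* Module.End ℝ V) (t : S) {r : ℝ} {x : V} (hx : x ∈ W ρ t r) :
    ρ t x ∈ W ρ t r := Wt_self (rho_inv_mul ρ t) hx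

theorem W_inv (ρ : S →* Module.End ℝ V) (t : S) {r : ℝ} {x : V} (hx : x ∈ W ρ t r) :
    ρ t⁻¹ x ∈ W ρ t r := by
  have h1 := Wt_self (T := ρ t⁻¹) (T' := ρ t) (rho_mul_inv ρ t) (Wt_symm hx)
  have h2 := Wt_symm h1
  rwa [neg_neg] at h2

theorem ExpS.lie_W (H : ExpS ρ E) (t : S) {r s : ℝ} {x y : V} (hx : x ∈ W ρ t r)
    (hy : y ∈ W ρ t s) : ⁅x, y⁆ ∈ W ρ t (r + s) :=
  lie_mem_Wt (H.lie t) (H.lie t⁻¹) hx hy

/-- the neutral subalgebra -/
def ExpS.h (H : ExpS ρ E) (t : S) : LieSubalgebra ℝ V :=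
  { W ρ t 0 with
    lie_mem' := by
      intro x y hx hy
      have := H.lie_W t (r := 0) (s := 0) hx hy
      rwa [add_zero] at this }

theorem ExpS.mem_h (H : ExpS ρ E) {t : S} {x : V} : x ∈ H.h t ↔ x ∈ W ρ t 0 := Iff.rfl

/-- invariance of subspaces under the exponential -/
theorem ExpS.E_inv (H : ExpS ρ E) (v : V) (U : Submodule ℝ V) (hU : ∀ x ∈ U, ⁅v, x⁆ ∈ U) :
    ∀ x ∈ U, ρ (E v) x ∈ U := by
  intro x hx
  have h1 := H.ad v U U le_rfl hU x hx
  have h2 := U.add_mem h1 hx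
  rwa [sub_add_cancel] at h2

/-- multiplication of `t` by a neutral element does not change the modulus spaces -/
theorem ExpS.W_mul_le (H : ExpS ρ E) (t : S) {v : V} (hv : v ∈ H.h t) (r : ℝ) :
    W ρ t r ≤ W ρ (t * E v) r := by
  classical
  set s : S := t * E v with hs
  let U : ℕ → Submodule ℝ V := fun k =>
    W ρ t r ⊓ (LieModule.lowerCentralSeries ℝ V V k).toSubmodule
  have hlcs : ∀ (g : S) (k : ℕ), ∀ x ∈ LieModule.lowerCentralSeries ℝ V V k,
      ρ g x ∈ LieModule.lowerCentralSeries ℝ V V k := by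
    intro g k
    induction k with
    | zero => intro x _; rw [LieModule.lowerCentralSeries_zero]; exact LieSubmodule.mem_top _
    | succ k ih =>
      rw [LieModule.lowerCentralSeries_succ]
      exact lie_inv (H.lie g) (fun x _ => LieSubmodule.mem_top _) ih
  have hUt : ∀ k, ∀ x ∈ U k, ρ t x ∈ U k := fun k x hx => ⟨W_self ρ t hx.1, hlcs t k x hx.2⟩
  have hUt' : ∀ k, ∀ x ∈ U k, ρ t⁻¹ x ∈ U k := fun k x hx => ⟨W_inv ρ t hx.1, hlcs t⁻¹ k x hx.2⟩
  have hUle : ∀ k, U (k + 1) ≤ U k := fun k =>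
    inf_le_inf_left _ (by
      intro x hx
      have hx' : x ∈ LieModule.lowerCentralSeries ℝ V V (k + 1) := hx
      rw [LieModule.lowerCentralSeries_succ] at hx'
      exact LieSubmodule.lie_le_right _ _ hx')
  have hUad : ∀ w ∈ H.h t, ∀ k, ∀ x ∈ U k, ρ (E w) x - x ∈ U (k + 1) := by
    intro w hw k x hx
    refine H.ad w (U k) (U (k + 1)) (hUle k) ?_ x hx
    intro y hy
    refine ⟨?_, ?_⟩
    · have := H.lie_W t (r := 0) (s := r) hw hy.1
      rwa [zero_add] at this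
    · change ⁅w, y⁆ ∈ LieModule.lowerCentralSeries ℝ V V (k + 1)
      rw [LieModule.lowerCentralSeries_succ]
      exact LieSubmodule.lie_mem_lie (LieSubmodule.mem_top w) hy.2
  have hUE : ∀ w ∈ H.h t, ∀ k, ∀ x ∈ U k, ρ (E w) x ∈ U k := by
    intro w hw k x hx
    have h1 := (U k).add_mem (hUle k (hUad w hw k x hx)) hx
    rwa [sub_add_cancel] at h1
  have hv' : -v ∈ H.h t := neg_mem hv
  have hs1 : ∀ x, ρ s x = ρ t (ρ (E v) x) := fun x => by
    rw [hs, map_mul, Module.End.mul_apply]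
  have hs2 : ∀ x, ρ s⁻¹ x = ρ (E (-v)) (ρ t⁻¹ x) := fun x => by
    rw [hs, mul_inv_rev, map_mul, Module.End.mul_apply, H.neg]
  have hUs : ∀ k, ∀ x ∈ U k, ρ s x ∈ U k := fun k x hx => by
    rw [hs1]; exact hUt k _ (hUE v hv k x hx)
  have hUs' : ∀ k, ∀ x ∈ U k, ρ s⁻¹ x ∈ U k := fun k x hx => by
    rw [hs2]; exact hUE _ hv' k _ (hUt' k x hx)
  obtain ⟨K, hK⟩ := H.nil.nilpotent ℝ
  have key : ∀ j k, j + k = K → U k ≤ W ρ s r := by
    intro j
    induction j with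
    | zero =>
      intro k hk x hx
      have hkK : k = K := by omega
      subst hkK
      have h1 : x ∈ LieModule.lowerCentralSeries ℝ V V k := hx.2
      rw [hK, LieSubmodule.mem_bot] at h1
      rw [h1]; exact Submodule.zero_mem _
    | succ j ih =>
      intro k hk x hx
      have hIH := ih (k + 1) (by omega)
      obtain ⟨f, hf, hfU, hsum⟩ := exists_decomp1 (rho_inv_mul ρ s) (rho_mul_inv ρ s) (U k)
        (hUs k) (hUs' k) hx
      rw [← hsum]
      refine Submodule.sum_mem _ fun r' _ => ?_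
      by_cases hr' : r' = r
      · subst hr'; exact hf r'
      · have h1 : f r' ∈ U (k + 1) := by
          refine mem_of_agree' (rho_inv_mul ρ t) (U k) (U (k + 1)) (hUt (k + 1)) (hUt' (k + 1))
            (hUs k) (hUs' k) ?_ ?_ (r0 := r) ?_ hr' (hfU r') (hf r')
          · intro y hy
            rw [hs1, ← map_sub]
            exact hUt (k + 1) _ (hUad v hv k y hy)
          · intro y hy
            rw [hs2]
            exact hUad _ hv' k _ (hUt' k y hy)
          · intro y hy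
            exact ⟨y, hy.1, by rw [sub_self]; exact Submodule.zero_mem _⟩
        have h2 := Wt_disjoint (rho_inv_mul ρ s) hr' (hf r') (hIH h1)
        rw [h2]; exact Submodule.zero_mem _
  intro x hx
  exact key K 0 (by omega) ⟨hx, by
    change x ∈ LieModule.lowerCentralSeries ℝ V V 0
    rw [LieModule.lowerCentralSeries_zero]; exact LieSubmodule.mem_top _⟩

/-- comparison of two decompositions -/
theorem W_eq_of_le (ρ : S →* Module.End ℝ V) (t s : S) (h : ∀ r, W ρ t r ≤ W ρ s r) (r : ℝ) :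
    W ρ s r = W ρ t r := by
  refine le_antisymm ?_ (h r)
  intro x hx
  refine Wt_inf_iSup (rho_inv_mul ρ s) (fun r => W ρ t r) h hx ?_
  have := iSup_Wt_eq_top (rho_inv_mul ρ t) (rho_mul_inv ρ t)
  change x ∈ ⨆ r, Wt (ρ t) (ρ t⁻¹) r
  rw [this]; trivial

theorem ExpS.W_mul (H : ExpS ρ E) (t : S) {v : V} (hv : v ∈ H.h t) (r : ℝ) :
    W ρ (t * E v) r = W ρ t r := W_eq_of_le ρ t _ (H.W_mul_le t hv) r

/-- the defining property of the Cartan group implies invariance of the modulus spaces -/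
theorem ExpS.W_inv_of (H : ExpS ρ E) (t : S) {s : S} {v : V} (hv : v ∈ H.h t)
    (hs : s * t * s⁻¹ = t * E v) (r : ℝ) : ∀ x ∈ W ρ t r, ρ s x ∈ W ρ t r := by
  intro x hx
  have h1 := W_map ρ t s hx
  rwa [hs, H.W_mul t hv] at h1

theorem inv_of_inv (ρ : S →* Module.End ℝ V) (U : Submodule ℝ V) (s : S)
    (h : ∀ x ∈ U, ρ s x ∈ U) : ∀ x ∈ U, ρ s⁻¹ x ∈ U := by
  intro x hx
  have hinj : Function.Injective ((ρ s).restrict h) := by
    intro a b hab
    have h1 : ρ s a = ρ s b := congrArg Subtype.val hab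
    have h2 := congrArg (fun y => ρ s⁻¹ y) h1
    simp only [← Module.End.mul_apply, rho_inv_mul, Module.End.one_apply] at h2
    exact Subtype.ext h2
  have hsurj := LinearMap.surjective_of_injective hinj
  obtain ⟨y, hy⟩ := hsurj ⟨x, hx⟩
  have h1 : ρ s y = x := congrArg Subtype.val hy
  rw [← h1, ← Module.End.mul_apply, rho_inv_mul, Module.End.one_apply]
  exact y.2

/-- the Cartan group of `t` -/
def ExpS.C (H : ExpS ρ E) (t : S) : Subgroup S where
  carrier := {s | ∃ v ∈ H.h t, s * t * s⁻¹ = t * E v}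
  one_mem' := ⟨0, zero_mem _, by rw [H.zero]; group⟩
  mul_mem' := by
    rintro a b ⟨v, hv, ha⟩ ⟨w, hw, hb⟩
    have hw' : ρ a w ∈ H.h t := H.W_inv_of t hv ha 0 w hw
    obtain ⟨z, hz, hez⟩ := H.mul_sub (H.h t) v (ρ a w) hv hw'
    refine ⟨z, hz, ?_⟩
    have e1 : a * b * t * (a * b)⁻¹ = a * (b * t * b⁻¹) * a⁻¹ := by group
    rw [e1, hb, ← hez, ← H.conj a w]
    have e2 : a * (t * E w) * a⁻¹ = (a * t * a⁻¹) * (a * E w * a⁻¹) := by group
    rw [e2, ha]; group
  inv_mem' := by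
    rintro a ⟨v, hv, ha⟩
    have hv' : ρ a⁻¹ v ∈ H.h t := inv_of_inv ρ (W ρ t 0) a (H.W_inv_of t hv ha 0) v hv
    refine ⟨-(ρ a⁻¹ v), neg_mem hv', ?_⟩
    rw [H.neg, ← H.conj_inv]
    have e1 : a * t = t * E v * a := by rw [← ha]; group
    have e2 : a⁻¹ * t * E v = t * a⁻¹ := by
      have : a⁻¹ * (t * E v * a) = t := by rw [← e1]; group
      calc a⁻¹ * t * E v = (a⁻¹ * (t * E v * a)) * a⁻¹ := by group
        _ = t * a⁻¹ := by rw [this]
    rw [inv_inv, mul_inv_rev, mul_inv_rev, inv_inv]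
    have e3 : a⁻¹ * t = t * a⁻¹ * (E v)⁻¹ := by rw [← e2]; group
    rw [e3]; group

theorem ExpS.mem_C (H : ExpS ρ E) {t s : S} :
    s ∈ H.C t ↔ ∃ v ∈ H.h t, s * t * s⁻¹ = t * E v := Iff.rfl

theorem ExpS.t_mem_C (H : ExpS ρ E) (t : S) : t ∈ H.C t :=
  ⟨0, zero_mem _, by rw [H.zero]; group⟩

/-- the Cartan group preserves the modulus spaces -/
theorem ExpS.C_inv (H : ExpS ρ E) {t s : S} (hs : s ∈ H.C t) (r : ℝ) :
    ∀ x ∈ W ρ t r, ρ s x ∈ W ρ t r := by
  obtain ⟨v, hv, h⟩ := hs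
  exact H.W_inv_of t hv h r

theorem ExpS.E_mem_C (H : ExpS ρ E) {t : S} {v : V} (hv : v ∈ H.h t) : E v ∈ H.C t := by
  have h1 : ρ t⁻¹ v ∈ H.h t := W_inv ρ t hv
  obtain ⟨z, hz, hez⟩ := H.mul_sub (H.h t) (ρ t⁻¹ v) (-v) h1 (neg_mem hv)
  refine ⟨z, hz, ?_⟩
  rw [← hez, ← H.conj_inv, H.neg]; group

end cartan

end Vale.Agent.P188.H269
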