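import Vale.Agent.P188.H269.Cartan2

/-!
The Cartan group, part 3: `S = E(e) C` and `C ∩ E(V) = E(h)`.
-/

namespace Vale.Agent.P188.H269

open Module
open scoped commutatorElement

universe u v

section cartan

variable {S : Type u} [Group S]
variable {V : Type v} [LieRing V] [LieAlgebra ℝ V] [FiniteDimensional ℝ V]
variable {ρ : S →* Module.End ℝ V} {E : V → S}

/-- fixed vectors are neutral -/
theorem mem_W_zero_of_fixed (ρ : S →* Module.End ℝ V) (t : S) {x : V} (hx : ρ t⁻¹ x = x) :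
    x ∈ W ρ t 0 := by
  have hx' : ρ t x = x := by
    have := congrArg (fun y => ρ t y) hx
    simp only [← Module.End.mul_apply, rho_mul_inv, Module.End.one_apply] at this
    exact this.symm
  have key : ∀ T : Module.End ℝ V, T x = x → x ∈ Gr T 0 := by
    intro T hT φ ε hε
    have hn : ∀ n : ℕ, (T ^ n) x = x := by
      intro n
      induction n with
      | zero => simp
      | succ n ih => rw [pow_succ, Module.End.mul_apply, hT, ih]
    refine ⟨|φ x|, fun n => ?_⟩
    rw [hn]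
    refine le_mul_of_one_le_right (abs_nonneg _) (Real.one_le_exp ?_)
    have : (0 : ℝ) ≤ n := Nat.cast_nonneg n
    positivity
  exact ⟨key _ hx', by rw [neg_zero]; exact key _ hx⟩

/-- solving `w - t⁻¹ w = y` for non-neutral `y` in an invariant subspace -/
theorem exists_solve (ρ : S →* Module.End ℝ V) (t : S) (A : Submodule ℝ V)
    (hA : ∀ x ∈ A, ρ t x ∈ A) (hA' : ∀ x ∈ A, ρ t⁻¹ x ∈ A) {y : V} (hy : y ∈ A) :
    ∃ y0 ∈ A, y0 ∈ W ρ t 0 ∧ ∃ w ∈ A, w - ρ t⁻¹ w = y - y0 := by
  classical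
  obtain ⟨f, hf, hfA, hsum⟩ := exists_decomp1 (rho_inv_mul ρ t) (rho_mul_inv ρ t) A hA hA' hy
  -- solve on each modulus space
  have hsolve : ∀ r : ℝ, r ≠ 0 → ∃ w ∈ A, w - ρ t⁻¹ w = f r := by
    intro r hr
    let U : Submodule ℝ V := A ⊓ W ρ t r
    have hU : ∀ x ∈ U, (LinearMap.id - ρ t⁻¹ : Module.End ℝ V) x ∈ U := by
      intro x hx
      rw [LinearMap.sub_apply, LinearMap.id_apply]
      exact ⟨A.sub_mem hx.1 (hA' x hx.1), Submodule.sub_mem _ hx.2 (W_inv ρ t hx.2)⟩
    have hinj : Function.Injective ((LinearMap.id - ρ t⁻¹ : Module.End ℝ V).restrict hU) := by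
      rw [← LinearMap.ker_eq_bot, LinearMap.ker_eq_bot']
      intro x hx
      have h1 : (x : V) - ρ t⁻¹ x = 0 := congrArg Subtype.val hx
      have h2 : ρ t⁻¹ (x : V) = x := (sub_eq_zero.1 h1).symm
      have h3 := mem_W_zero_of_fixed ρ t h2
      exact Subtype.ext (Wt_disjoint (rho_inv_mul ρ t) hr x.2.2 h3)
    obtain ⟨w, hw⟩ := LinearMap.surjective_of_injective hinj ⟨f r, hfA r, hf r⟩
    exact ⟨w, w.2.1, congrArg Subtype.val hw⟩
  have hsolve' : ∀ r : ℝ, ∃ w ∈ A, r ≠ 0 → w - ρ t⁻¹ w = f r := by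
    intro r
    by_cases hr : r = 0
    · exact ⟨0, A.zero_mem, fun h => absurd hr h⟩
    · obtain ⟨w, hw, h⟩ := hsolve r hr
      exact ⟨w, hw, fun _ => h⟩
  choose w hw hw' using hsolve'
  refine ⟨f 0, hfA 0, hf 0, ∑ r ∈ f.support.erase 0, w r, Submodule.sum_mem _ fun r _ => hw r, ?_⟩
  rw [map_sum, ← Finset.sum_sub_distrib]
  have h1 : ∑ r ∈ f.support.erase 0, (w r - ρ t⁻¹ (w r)) = ∑ r ∈ f.support.erase 0, f r :=
    Finset.sum_congr rfl fun r hr => hw' r (Finset.ne_of_mem_erase hr)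
  rw [h1, ← hsum, Finsupp.sum]
  by_cases h0 : (0 : ℝ) ∈ f.support
  · rw [← Finset.add_sum_erase _ _ h0]; abel
  · rw [Finset.erase_eq_of_notMem h0, Finsupp.notMem_support_iff.1 h0, sub_zero]

/-- `V = h + e` -/
theorem exists_neutral_add (ρ : S →* Module.End ℝ V) (t : S) (x : V) :
    ∃ x0 ∈ W ρ t 0, x - x0 ∈ eId ρ t := by
  classical
  obtain ⟨f, hf, _, hsum⟩ := exists_decomp1 (rho_inv_mul ρ t) (rho_mul_inv ρ t) ⊤
    (fun _ _ => trivial) (fun _ _ => trivial) (Submodule.mem_top : x ∈ (⊤ : Submodule ℝ V))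
  refine ⟨f 0, hf 0, ?_⟩
  have h1 : x - f 0 = ∑ r ∈ f.support.erase 0, f r := by
    rw [← hsum, Finsupp.sum]
    by_cases h0 : (0 : ℝ) ∈ f.support
    · rw [← Finset.add_sum_erase _ _ h0]; abel
    · rw [Finset.erase_eq_of_notMem h0, Finsupp.notMem_support_iff.1 h0, sub_zero]
  rw [h1]
  change _ ∈ (eId ρ t).toSubmodule
  exact Submodule.sum_mem _ fun r hr => Wt_le_eI (Finset.ne_of_mem_erase hr) (hf r)

/-- **`S = E(e) C`.** -/
theorem ExpS.exists_mul_mem_C (H : ExpS ρ E) (t s : S) : ∃ x ∈ eId ρ t, E x * s ∈ H.C t := by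
  classical
  set e := eId ρ t with he
  have heinv : ∀ g, ∀ x ∈ e, ρ g x ∈ e := H.lrep.eId_inv t
  have key : ∀ k : ℕ, ∃ x ∈ e, ∃ v ∈ H.h t, ∃ y ∈ dn e k,
      (E x * s) * t * (E x * s)⁻¹ = t * E v * E y := by
    intro k
    induction k with
    | zero =>
      obtain ⟨u, hu⟩ := H.comm t⁻¹ s
      obtain ⟨v, hv, hvu⟩ := exists_neutral_add ρ t u
      obtain ⟨y, hy, hey⟩ := H.exists_right e v u hvu
      refine ⟨0, zero_mem _, v, hv, y, hy, ?_⟩
      rw [H.zero, mul_assoc t, ← hey, ← hu, commutatorElement_def]; group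
    | succ k ih =>
      obtain ⟨x, hx, v, hv, y, hy, hxy⟩ := ih
      have hdinv := H.dn_inv heinv k
      obtain ⟨y0, hy0, hy0h, w, hw, hwy⟩ := exists_solve ρ t (dn e k).toSubmodule
        (hdinv t) (hdinv t⁻¹) hy
      -- the conjugated factor
      set a : V := ρ (E (-v)) (ρ t⁻¹ w) with ha
      have hta : ρ t⁻¹ w ∈ dn e k := hdinv t⁻¹ w hw
      have ha1 : a - ρ t⁻¹ w ∈ dn e (k + 1) := by
        rw [dn_succ]
        exact H.lrep.unip (E (-v)) ⟨-v, rfl⟩ (dn e k) _ hta
      have ha2 : a ∈ dn e k := by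
        have := add_mem (dn_succ_le e k ha1) hta
        rwa [sub_add_cancel] at this
      -- product of the three factors
      obtain ⟨z1, hz1, he1⟩ := H.mul_ideal (dn e k) a y hy
      have hz1' : z1 ∈ dn e (k + 1) := hz1
      obtain ⟨z2, hz2, he2⟩ := H.mul_ideal (dn e k) (a + y + z1) (-w) (neg_mem hw)
      have hz2' : z2 ∈ dn e (k + 1) := hz2
      have h3 : (a + y + z1 + -w + z2) - y0 ∈ dn e (k + 1) := by
        have e1 : (a + y + z1 + -w + z2) - y0 =
            (a - ρ t⁻¹ w) + (z1 + z2) + ((y - y0) - (w - ρ t⁻¹ w)) := by abel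
        rw [e1, hwy, sub_self, add_zero]
        exact add_mem ha1 (add_mem hz1' hz2')
      obtain ⟨y', hy', hey'⟩ := H.exists_right (dn e (k + 1)) y0 _ h3
      obtain ⟨v', hv', hev'⟩ := H.mul_sub (H.h t) v y0 hv hy0h
      obtain ⟨x', hx', hex'⟩ := H.mul_mem_ideal e (dn_le e k hw) hx
      refine ⟨x', hx', v', hv', y', hy', ?_⟩
      have e4 : (E w * E x * s) * t * (E w * E x * s)⁻¹ =
          E w * ((E x * s) * t * (E x * s)⁻¹) * (E w)⁻¹ := by group
      rw [← hex', e4, hxy, ← hev']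
      have e5 : E w * (t * E v * E y) * (E w)⁻¹ =
          t * E v * (((t * E v)⁻¹ * E w * (t * E v)) * E y * (E w)⁻¹) := by group
      have e6 : (t * E v)⁻¹ * E w * (t * E v) = E a := by
        rw [H.conj_inv, mul_inv_rev, map_mul, Module.End.mul_apply, ← H.neg]
      rw [e5, e6, he1, ← H.neg, he2, hey']
      group
  obtain ⟨k, hk⟩ := exists_dn_eq_bot H.nil
  obtain ⟨x, hx, v, hv, y, hy, hxy⟩ := key k
  rw [hk e, LieSubmodule.mem_bot] at hy
  subst hy
  rw [H.zero, mul_one] at hxy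
  exact ⟨x, hx, v, hv, hxy⟩

/-- **`C ∩ E(V) = E(h)`.** -/
theorem ExpS.E_mem_C_iff (H : ExpS ρ E) (t : S) (x : V) : E x ∈ H.C t ↔ x ∈ H.h t := by
  classical
  refine ⟨fun hx => ?_, fun hx => H.E_mem_C hx⟩
  have htop : ∀ g, ∀ x ∈ (⊤ : LieIdeal ℝ V), ρ g x ∈ (⊤ : LieIdeal ℝ V) :=
    fun _ _ _ => LieSubmodule.mem_top _
  have key : ∀ k : ℕ, ∃ n ∈ H.h t, ∃ y ∈ dn (⊤ : LieIdeal ℝ V) k, E x = E y * E n := by
    intro k
    induction k with
    | zero => exact ⟨0, zero_mem _, x, LieSubmodule.mem_top _, by rw [H.zero, mul_one]⟩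
    | succ k ih =>
      obtain ⟨n, hn, y, hy, hxy⟩ := ih
      set I : LieIdeal ℝ V := dn (⊤ : LieIdeal ℝ V) k with hI
      have hIinv := H.dn_inv htop k
      have hI'inv := H.dn_inv htop (k + 1)
      have hyC : E y ∈ H.C t := by
        have h1 : E y = E x * (E n)⁻¹ := by rw [hxy]; group
        rw [h1]
        exact (H.C t).mul_mem hx ((H.C t).inv_mem (H.E_mem_C hn))
      obtain ⟨v, hv, hvy⟩ := hyC
      -- `t⁻¹ E(y) t E(-y) = E v`
      obtain ⟨z, hz, hez⟩ := H.mul_ideal I (ρ t⁻¹ y) (-y) (neg_mem hy)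
      have hz' : z ∈ dn (⊤ : LieIdeal ℝ V) (k + 1) := hz
      have h2 : v = ρ t⁻¹ y + -y + z := by
        apply H.inj
        rw [← hez, ← H.conj_inv, H.neg]
        have : E v = t⁻¹ * (E y * t * (E y)⁻¹) := by rw [hvy]; group
        rw [this]; group
      -- decompose `y`
      obtain ⟨f, hf, hfI, hsum⟩ := exists_decomp1 (rho_inv_mul ρ t) (rho_mul_inv ρ t)
        I.toSubmodule (hIinv t) (hIinv t⁻¹) hy
      obtain ⟨g, hg, hgI, hgsum⟩ := exists_decomp1 (rho_inv_mul ρ t) (rho_mul_inv ρ t)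
        (dn (⊤ : LieIdeal ℝ V) (k + 1)).toSubmodule (hI'inv t) (hI'inv t⁻¹) hz'
      -- components
      have hcomp : ∀ r : ℝ, r ≠ 0 → f r ∈ dn (⊤ : LieIdeal ℝ V) (k + 1) := by
        intro r hr
        -- `t⁻¹ f r - f r + g r = 0`
        let F : ℝ →₀ V := f.mapRange (ρ t⁻¹) (map_zero _) - f + g - Finsupp.single 0 v
        have hF : ∀ s, F s ∈ Wt (ρ t) (ρ t⁻¹) s := by
          intro s
          simp only [F, Finsupp.sub_apply, Finsupp.add_apply, Finsupp.mapRange_apply]
          refine Submodule.sub_mem _ (Submodule.add_mem _ (Submodule.sub_mem _ ?_ (hf s)) (hg s)) ?_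
          · exact W_inv ρ t (hf s)
          · by_cases hs : s = 0
            · subst hs; rw [Finsupp.single_eq_same]; exact hv
            · rw [Finsupp.single_eq_of_ne hs]; exact Submodule.zero_mem _
        have hFsum : (F.sum fun _ y => y) = 0 := by
          have hs1 : ((f.mapRange (ρ t⁻¹) (map_zero _)).sum fun _ y => y) = ρ t⁻¹ y := by
            rw [Finsupp.sum_mapRange_index (by intros; rfl), ← hsum, Finsupp.sum, Finsupp.sum,
              map_sum]
          simp only [F]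
          rw [Finsupp.sum_sub_index (by intros; rfl), Finsupp.sum_add_index' (by intros; rfl)
            (by intros; rfl), Finsupp.sum_sub_index (by intros; rfl), hs1, hsum, hgsum,
            Finsupp.sum_single_index rfl, h2]
          abel
        have hF0 := Wt_finsupp_eq_zero (rho_inv_mul ρ t) F hF hFsum
        have hFr : F r = 0 := by rw [hF0]; rfl
        simp only [F, Finsupp.sub_apply, Finsupp.add_apply, Finsupp.mapRange_apply] at hFr
        rw [Finsupp.single_eq_of_ne hr, sub_zero] at hFr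
        have h3 : f r - ρ t⁻¹ (f r) = g r := by
          have : ρ t⁻¹ (f r) - f r + g r = 0 := hFr
          have h4 : g r = -(ρ t⁻¹ (f r) - f r) := eq_neg_of_add_eq_zero_right this
          rw [h4]; abel
        -- solve inside the smaller ideal
        obtain ⟨y0, hy0, hy0h, w, hw, hwy⟩ := exists_solve ρ t
          (dn (⊤ : LieIdeal ℝ V) (k + 1)).toSubmodule (hI'inv t) (hI'inv t⁻¹) (hgI r)
        -- use the component of modulus `r` of `w`
        obtain ⟨f', hf', hfI', hsum'⟩ := exists_decomp1 (rho_inv_mul ρ t) (rho_mul_inv ρ t)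
          (dn (⊤ : LieIdeal ℝ V) (k + 1)).toSubmodule (hI'inv t) (hI'inv t⁻¹) hw
        let F' : ℝ →₀ V := f' - f'.mapRange (ρ t⁻¹) (map_zero _) - Finsupp.single r (g r) +
          Finsupp.single 0 y0
        have hF' : ∀ s, F' s ∈ Wt (ρ t) (ρ t⁻¹) s := by
          intro s
          simp only [F', Finsupp.sub_apply, Finsupp.add_apply, Finsupp.mapRange_apply]
          refine Submodule.add_mem _ (Submodule.sub_mem _ (Submodule.sub_mem _ (hf' s)
            (W_inv ρ t (hf' s))) ?_) ?_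
          · by_cases hs : s = r
            · subst hs; rw [Finsupp.single_eq_same]; exact hg s
            · rw [Finsupp.single_eq_of_ne hs]; exact Submodule.zero_mem _
          · by_cases hs : s = 0
            · subst hs; rw [Finsupp.single_eq_same]; exact hy0h
            · rw [Finsupp.single_eq_of_ne hs]; exact Submodule.zero_mem _
        have hFsum' : (F'.sum fun _ y => y) = 0 := by
          have hs1 : ((f'.mapRange (ρ t⁻¹) (map_zero _)).sum fun _ y => y) = ρ t⁻¹ w := by
            rw [Finsupp.sum_mapRange_index (by intros; rfl), ← hsum', Finsupp.sum, Finsupp.sum,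
              map_sum]
          simp only [F']
          rw [Finsupp.sum_add_index' (by intros; rfl) (by intros; rfl),
            Finsupp.sum_sub_index (by intros; rfl), Finsupp.sum_sub_index (by intros; rfl), hs1,
            hsum', Finsupp.sum_single_index rfl, Finsupp.sum_single_index rfl, hwy]
          abel
        have hF0' := Wt_finsupp_eq_zero (rho_inv_mul ρ t) F' hF' hFsum'
        have hFr' : F' r = 0 := by rw [hF0']; rfl
        simp only [F', Finsupp.sub_apply, Finsupp.add_apply, Finsupp.mapRange_apply,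
          Finsupp.single_eq_same] at hFr'
        rw [Finsupp.single_eq_of_ne hr, add_zero] at hFr'
        have h5 : f' r - ρ t⁻¹ (f' r) = f r - ρ t⁻¹ (f r) := by
          rw [h3]; exact sub_eq_zero.1 hFr'
        have h6 : ρ t⁻¹ (f r - f' r) = f r - f' r := by
          rw [map_sub]
          have : f' r = f r - ρ t⁻¹ (f r) + ρ t⁻¹ (f' r) := by rw [← h5]; abel
          conv_rhs => rw [this]
          abel
        have h7 : f r - f' r = 0 := Wt_disjoint (rho_inv_mul ρ t) hr
          (Submodule.sub_mem _ (hf r) (hf' r)) (mem_W_zero_of_fixed ρ t h6)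
        rw [sub_eq_zero.1 h7]
        exact hfI' r
      -- conclude
      have h8 : y - f 0 ∈ dn (⊤ : LieIdeal ℝ V) (k + 1) := by
        have h1 : y - f 0 = ∑ r ∈ f.support.erase 0, f r := by
          rw [← hsum, Finsupp.sum]
          by_cases h0 : (0 : ℝ) ∈ f.support
          · rw [← Finset.add_sum_erase _ _ h0]; abel
          · rw [Finset.erase_eq_of_notMem h0, Finsupp.notMem_support_iff.1 h0, sub_zero]
        rw [h1]
        change _ ∈ (dn (⊤ : LieIdeal ℝ V) (k + 1)).toSubmodule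
        exact Submodule.sum_mem _ fun r hr => hcomp r (Finset.ne_of_mem_erase hr)
      obtain ⟨y', hy', hey'⟩ := H.exists_left _ (f 0) y h8
      obtain ⟨n', hn', hen'⟩ := H.mul_sub (H.h t) (f 0) n (hf 0) hn
      refine ⟨n', hn', y', hy', ?_⟩
      rw [hxy, hey', mul_assoc, hen']
  obtain ⟨k, hk⟩ := exists_dn_eq_bot H.nil
  obtain ⟨n, hn, y, hy, hxy⟩ := key k
  rw [hk, LieSubmodule.mem_bot] at hy
  rw [hy, H.zero, one_mul] at hxy
  rw [H.inj hxy]
  exact hn

end cartan

end Vale.Agent.P188.H269
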