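import Vale.Agent.P188.H269.Cartan3

/-!
The Cartan group, part 4: weights of the Cartan group on the modulus spaces.
-/

namespace Vale.Agent.P188.H269

open Module
open scoped commutatorElement

universe u v w

section restrict

/-- weights of a subgroup are restrictions of weights -/
theorem exists_weight_restrict {G : Type u} [Group G] {G' : Type w} [Group G']
    {V : Type v} [AddCommGroup V] [Module ℝ V] [FiniteDimensional ℝ V]
    {N : Subgroup G} [hNn : N.Normal] (hcomm : ∀ a b : G, ⁅a, b⁆ ∈ N)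
    (ρ : G →* Module.End ℝ V) (hU : UnipOn N ρ) (σ : G' →* G)
    (D : Submodule ℝ V) (hD : ∀ g, ∀ x ∈ D, ρ g x ∈ D) {A : Submodule ℝ V} (hAD : A ≤ D)
    {l : V →ₗ[ℝ] ℂ} {χ : G' → ℂ} (h : EigOn (ρ.comp σ) A l χ) :
    ∃ b ∈ Wts ρ D, ∀ g, Real.log ‖χ g‖ = b (σ g) := by
  classical
  generalize hn : finrank ℝ D = n
  induction n using Nat.strong_induction_on generalizing D A with
  | _ n ih =>
  by_cases hD0 : D = ⊥
  · obtain ⟨x, hx, hx0⟩ := h.ne
    have h1 : x ∈ D := hAD hx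
    rw [hD0, Submodule.mem_bot] at h1
    rw [h1, map_zero] at hx0
    exact absurd rfl hx0
  · obtain ⟨l0, χ0, h0, _⟩ := exists_eigOn hcomm ρ hU D ⊥ hD (by
      intro g x hx
      rw [Submodule.mem_bot] at hx ⊢
      rw [hx, map_zero]) (bot_lt_iff_ne_bot.2 hD0)
    by_cases hcase : ∃ x ∈ A ⊓ (D ⊓ LinearMap.ker l0), l x ≠ 0
    · have h' : EigOn (ρ.comp σ) (A ⊓ (D ⊓ LinearMap.ker l0)) l χ := by
        refine ⟨?_, hcase, ?_⟩
        · intro g x hx
          exact ⟨h.inv g x hx.1, h0.ker_inv (σ g) x hx.2⟩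
        · intro g x hx
          exact h.eig g x hx.1
      obtain ⟨b, ⟨A', hA', l', χ', hE, hb'⟩, hb⟩ := ih _
        (hn ▸ Submodule.finrank_lt_finrank_of_lt h0.ker_lt) (D ⊓ LinearMap.ker l0) h0.ker_inv
        inf_le_right h' rfl
      exact ⟨b, ⟨A', hA'.trans inf_le_left, l', χ', hE, hb'⟩, hb⟩
    · push Not at hcase
      refine ⟨fun g => Real.log ‖χ0 g‖, ⟨D, le_rfl, l0, χ0, h0, fun _ => rfl⟩, fun g => ?_⟩
      obtain ⟨x, hx, hx0⟩ := h.ne
      obtain ⟨y, hyA, hy, hly⟩ := h.exists_comp g hx hx0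
      have hl0y : l0 y ≠ 0 := by
        intro hcon
        apply hx0
        rw [← hly]
        exact hcase y ⟨hyA, hAD hyA, hcon⟩
      have hy' : y ∈ Wt (ρ (σ g)) (ρ (σ g)⁻¹) (Real.log ‖χ g‖) := by
        have := hy
        simp only [MonoidHom.comp_apply, map_inv] at this
        exact this
      exact (h0.log_eq (hAD hyA) hy' hl0y).symm

/-- adapted seminorms, with the hypothesis on weights only inside `A` -/
theorem exists_adapted' {G : Type u} [Group G] {V : Type v} [AddCommGroup V] [Module ℝ V]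
    [FiniteDimensional ℝ V]
    {N : Subgroup G} [hNn : N.Normal] (hcomm : ∀ a b : G, ⁅a, b⁆ ∈ N)
    (ρ : G →* Module.End ℝ V) (hU : UnipOn N ρ) (b : G → ℝ)
    (S : Finset G) {ε : ℝ} (hε : 0 < ε) (A : Submodule ℝ V) (hA : ∀ g, ∀ x ∈ A, ρ g x ∈ A)
    (hb : ∀ A' ≤ A, ∀ l χ, EigOn ρ A' l χ → ∀ g, Real.log ‖χ g‖ = b g) :
    ∃ q : Seminorm ℝ V, (∀ x ∈ A, q x = 0 ↔ x = 0) ∧
      ∀ g ∈ S, ∀ x ∈ A, q (ρ g x) ≤ Real.exp (b g + ε) * q x := by
  classical
  generalize hn : finrank ℝ A = n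
  induction n using Nat.strong_induction_on generalizing A with
  | _ n ih =>
  rcases (bot_le : (⊥ : Submodule ℝ V) ≤ A).eq_or_lt with heq | hlt
  · refine ⟨0, fun x hx => ?_, fun g _ x _ => by simp⟩
    rw [← heq, Submodule.mem_bot] at hx
    exact ⟨fun _ => hx, fun _ => rfl⟩
  · obtain ⟨l, χ, hl, _⟩ := exists_eigOn hcomm ρ hU A ⊥ hA (by
      intro g x hx
      rw [Submodule.mem_bot] at hx ⊢
      rw [hx, map_zero]) hlt
    obtain ⟨q', hq'0, hq'⟩ := ih _ (hn ▸ Submodule.finrank_lt_finrank_of_lt hl.ker_lt)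
      (A ⊓ LinearMap.ker l) hl.ker_inv
      (fun A' hA' l' χ' h' => hb A' (hA'.trans inf_le_left) l' χ' h') rfl
    -- a linear section
    obtain ⟨σ, hσA, hσ⟩ : ∃ σ : ℂ →ₗ[ℝ] V, (∀ x ∈ A, σ (l x) ∈ A) ∧
        ∀ x ∈ A, l (σ (l x)) = l x := by
      let lA : A →ₗ[ℝ] ℂ := l ∘ₗ A.subtype
      obtain ⟨s, hs⟩ := LinearMap.exists_rightInverse_of_surjective lA.rangeRestrict
        (LinearMap.range_rangeRestrict lA)
      obtain ⟨σ, hσ⟩ := LinearMap.exists_extend (A.subtype ∘ₗ s)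
      have hval : ∀ x (hx : x ∈ A), σ (l x) = (s ⟨l x, ⟨⟨x, hx⟩, rfl⟩⟩ : A) := by
        intro x hx
        exact congrArg (fun m : (LinearMap.range lA) →ₗ[ℝ] V => m ⟨l x, ⟨⟨x, hx⟩, rfl⟩⟩) hσ
      refine ⟨σ, ?_, ?_⟩
      · intro x hx
        rw [hval x hx]; exact Submodule.coe_mem _
      · intro x hx
        rw [hval x hx]
        have h1 := congrArg (fun m : (LinearMap.range lA) →ₗ[ℝ] (LinearMap.range lA) =>
          (m ⟨l x, ⟨⟨x, hx⟩, rfl⟩⟩ : ℂ)) hs
        exact h1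
    -- constants
    have hK : ∀ g : G, ∃ K : ℝ, 0 ≤ K ∧ ∀ z : ℂ,
        Real.exp (b g + ε) * q' (σ z) + q' (ρ g (σ z)) ≤ K * ‖z‖ := by
      intro g
      obtain ⟨K1, h1, hK1⟩ := seminorm_bound (q'.comp σ)
      obtain ⟨K2, h2, hK2⟩ := seminorm_bound (q'.comp (ρ g ∘ₗ σ))
      refine ⟨Real.exp (b g + ε) * K1 + K2, by positivity, fun z => ?_⟩
      rw [add_mul, mul_assoc]
      exact add_le_add (mul_le_mul_of_nonneg_left (hK1 z) (Real.exp_pos _).le) (hK2 z)
    choose K hK0 hK using hK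
    have hE : 0 < Real.exp ε - 1 := by
      have := Real.add_one_lt_exp hε.ne'
      linarith
    set M : ℝ := ∑ g ∈ S, K g / (Real.exp (b g) * (Real.exp ε - 1)) + 1 with hM
    have hterm : ∀ g, 0 ≤ K g / (Real.exp (b g) * (Real.exp ε - 1)) := fun g =>
      div_nonneg (hK0 g) (mul_nonneg (Real.exp_pos _).le hE.le)
    have hM0 : 0 < M := by
      have := Finset.sum_nonneg fun g (_ : g ∈ S) => hterm g
      linarith
    have hMg : ∀ g ∈ S, K g + M * Real.exp (b g) ≤ M * Real.exp (b g + ε) := by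
      intro g hg
      have h1 : K g / (Real.exp (b g) * (Real.exp ε - 1)) ≤ M := by
        have := Finset.single_le_sum (f := fun g => K g / (Real.exp (b g) * (Real.exp ε - 1)))
          (fun g _ => hterm g) hg
        linarith
      rw [div_le_iff₀ (mul_pos (Real.exp_pos _) hE)] at h1
      rw [Real.exp_add]
      nlinarith
    let M' : NNReal := ⟨M, hM0.le⟩
    let q : Seminorm ℝ V := q' + M' • (normSeminorm ℝ ℂ).comp l
    have hq : ∀ x, q x = q' x + M * ‖l x‖ := fun x => rfl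
    refine ⟨q, ?_, ?_⟩
    · intro x hx
      rw [hq]
      constructor
      · intro h0
        have h1 : 0 ≤ q' x := apply_nonneg _ _
        have h2 : 0 ≤ M * ‖l x‖ := by positivity
        have h3 : M * ‖l x‖ = 0 := by linarith
        have h4 : l x = 0 := by
          rcases mul_eq_zero.1 h3 with h5 | h5
          · exact absurd h5 hM0.ne'
          · exact norm_eq_zero.1 h5
        exact (hq'0 x ⟨hx, h4⟩).1 (by linarith)
      · intro hx0
        rw [hx0, map_zero, map_zero, norm_zero, mul_zero, add_zero]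
    · intro g hg x hx
      rw [hq, hq]
      have ha : x - σ (l x) ∈ A ⊓ LinearMap.ker l :=
        ⟨A.sub_mem hx (hσA x hx), by
          change l (x - σ (l x)) = 0
          rw [map_sub, hσ x hx, sub_self]⟩
      have h1 : q' (ρ g x) ≤ Real.exp (b g + ε) * q' x + K g * ‖l x‖ := by
        have e1 : ρ g x = ρ g (x - σ (l x)) + ρ g (σ (l x)) := by rw [← map_add, sub_add_cancel]
        have h2 : q' (x - σ (l x)) ≤ q' x + q' (σ (l x)) := map_sub_le_add q' _ _
        calc q' (ρ g x) ≤ q' (ρ g (x - σ (l x))) + q' (ρ g (σ (l x))) := by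
              rw [e1]; exact map_add_le_add q' _ _
          _ ≤ Real.exp (b g + ε) * q' (x - σ (l x)) + q' (ρ g (σ (l x))) :=
              add_le_add (hq' g hg _ ha) le_rfl
          _ ≤ Real.exp (b g + ε) * (q' x + q' (σ (l x))) + q' (ρ g (σ (l x))) :=
              add_le_add (mul_le_mul_of_nonneg_left h2 (Real.exp_pos _).le) le_rfl
          _ = Real.exp (b g + ε) * q' x +
              (Real.exp (b g + ε) * q' (σ (l x)) + q' (ρ g (σ (l x)))) := by ring
          _ ≤ _ := add_le_add le_rfl (hK g (l x))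
      have h3 : ‖l (ρ g x)‖ = Real.exp (b g) * ‖l x‖ := by
        rw [hl.eig g x hx, norm_mul]
        congr 1
        rw [← hb A le_rfl l χ hl g, Real.exp_log (norm_pos_iff.2 (hl.ne_zero g))]
      rw [h3]
      have h4 := mul_le_mul_of_nonneg_right (hMg g hg) (norm_nonneg (l x))
      nlinarith

/-- an isotypic invariant subspace is contained in the modulus space of every element -/
theorem le_W_of_isotypic {G : Type u} [Group G] {V : Type v} [AddCommGroup V] [Module ℝ V]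
    [FiniteDimensional ℝ V]
    {N : Subgroup G} [hNn : N.Normal] (hcomm : ∀ a b : G, ⁅a, b⁆ ∈ N)
    (ρ : G →* Module.End ℝ V) (hU : UnipOn N ρ) (b : G → ℝ)
    (A : Submodule ℝ V) (hA : ∀ g, ∀ x ∈ A, ρ g x ∈ A)
    (hb : ∀ A' ≤ A, ∀ l χ, EigOn ρ A' l χ → ∀ g, Real.log ‖χ g‖ = b g) (g : G) :
    A ≤ Wt (ρ g) (ρ g⁻¹) (b g) := by
  classical
  generalize hn : finrank ℝ A = n
  induction n using Nat.strong_induction_on generalizing A with
  | _ n ih =>
  rcases (bot_le : (⊥ : Submodule ℝ V) ≤ A).eq_or_lt with heq | hlt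
  · rw [← heq]; exact bot_le
  · obtain ⟨l, χ, hl, _⟩ := exists_eigOn hcomm ρ hU A ⊥ hA (by
      intro g x hx
      rw [Submodule.mem_bot] at hx ⊢
      rw [hx, map_zero]) hlt
    have hIH := ih _ (hn ▸ Submodule.finrank_lt_finrank_of_lt hl.ker_lt)
      (A ⊓ LinearMap.ker l) hl.ker_inv
      (fun A' hA' l' χ' h' => hb A' (hA'.trans inf_le_left) l' χ' h') rfl
    intro x hx
    obtain ⟨f, hf, hfA, hsum⟩ := exists_decomp ρ A hA g hx
    rw [← hsum]
    refine Submodule.sum_mem _ fun s _ => ?_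
    by_cases hs : s = b g
    · rw [← hs]; exact hf s
    · have hl0 : l (f s) = 0 := by
        by_contra hne
        have h1 := hl.log_eq (hfA s) (hf s) hne
        rw [hb A le_rfl l χ hl g] at h1
        exact hs h1.symm
      have h2 := hIH ⟨hfA s, hl0⟩
      have h3 := Wt_disjoint (rho_inv_mul ρ g) hs (hf s) h2
      rw [h3]; exact Submodule.zero_mem _

end restrict

section cartan

variable {S : Type u} [Group S]
variable {V : Type v} [LieRing V] [LieAlgebra ℝ V] [FiniteDimensional ℝ V]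
variable {ρ : S →* Module.End ℝ V} {E : V → S}

/-- the representation of the Cartan group -/
def ExpS.ρC (H : ExpS ρ E) (t : S) : H.C t →* Module.End ℝ V := ρ.comp (H.C t).subtype

theorem ExpS.ρC_apply (H : ExpS ρ E) (t : S) (c : H.C t) : H.ρC t c = ρ (c : S) := rfl

theorem ExpS.NC_normal (H : ExpS ρ E) (t : S) : (H.N.comap (H.C t).subtype).Normal := by
  have := H.normal
  infer_instance

theorem ExpS.NC_comm (H : ExpS ρ E) (t : S) (a b : H.C t) :
    ⁅a, b⁆ ∈ H.N.comap (H.C t).subtype := by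
  have := H.lrep.comm (a : S) (b : S)
  rw [Subgroup.mem_comap]
  rw [map_commutatorElement]
  exact this

theorem ExpS.NC_unip (H : ExpS ρ E) (t : S) : UnipOn (H.N.comap (H.C t).subtype) (H.ρC t) := by
  obtain ⟨U, d, h0, hd, h⟩ := H.lrep.unipOn
  exact ⟨U, d, h0, hd, fun n hn j x hx => h (n : S) hn j x hx⟩

theorem ExpS.WC_inv (H : ExpS ρ E) (t : S) (r : ℝ) :
    ∀ c : H.C t, ∀ x ∈ W ρ t r, H.ρC t c x ∈ W ρ t r := fun c x hx => H.C_inv c.2 r x hx

/-- all weights of `C` on a modulus space are equal -/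
theorem ExpS.weight_eq (H : ExpS ρ E) {t : S} (hs : Sep ρ t) {b : S → ℝ} (hb : b ∈ Wts ρ ⊤)
    {A : Submodule ℝ V} (hA : A ≤ W ρ t (b t)) {l : V →ₗ[ℝ] ℂ} {χ : H.C t → ℂ}
    (h : EigOn (H.ρC t) A l χ) (c : H.C t) : Real.log ‖χ c‖ = b c := by
  have := H.normal
  obtain ⟨b', hb', hlog⟩ := exists_weight_restrict H.lrep.comm ρ H.lrep.unipOn
    (H.C t).subtype ⊤ (fun _ _ _ => trivial) le_top h
  have h1 : Real.log ‖χ ⟨t, H.t_mem_C t⟩‖ = b t := by
    obtain ⟨x, hx, hx0⟩ := h.ne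
    refine h.log_eq hx ?_ hx0
    exact hA hx
  have h2 := hlog ⟨t, H.t_mem_C t⟩
  rw [h1] at h2
  have h3 : b = b' := hs.2 b hb b' hb' h2
  rw [hlog c, ← h3]; rfl

/-- every nonzero modulus space belongs to a weight -/
theorem ExpS.exists_weight (H : ExpS ρ E) (t : S) {r : ℝ} (hr : W ρ t r ≠ ⊥) :
    ∃ b ∈ Wts ρ ⊤, b t = r := by
  have := H.normal
  have := H.NC_normal t
  obtain ⟨l, χ, hl, _⟩ := exists_eigOn (H.NC_comm t) (H.ρC t) (H.NC_unip t) (W ρ t r) ⊥
    (H.WC_inv t r) (by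
      intro g x hx
      rw [Submodule.mem_bot] at hx ⊢
      rw [hx, map_zero]) (bot_lt_iff_ne_bot.2 hr)
  obtain ⟨b', hb', hlog⟩ := exists_weight_restrict H.lrep.comm ρ H.lrep.unipOn
    (H.C t).subtype ⊤ (fun _ _ _ => trivial) le_top hl
  refine ⟨b', hb', ?_⟩
  have h1 : Real.log ‖χ ⟨t, H.t_mem_C t⟩‖ = r := by
    obtain ⟨x, hx, hx0⟩ := hl.ne
    exact hl.log_eq hx hx hx0
  rw [← h1, hlog]; rfl

/-- adapted seminorms for the Cartan group on the modulus spaces -/
theorem ExpS.exists_seminorm (H : ExpS ρ E) {t : S} (hs : Sep ρ t) {b : S → ℝ}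
    (hb : b ∈ Wts ρ ⊤) (Sg : Finset (H.C t)) {ε : ℝ} (hε : 0 < ε) :
    ∃ q : Seminorm ℝ V, (∀ x ∈ W ρ t (b t), q x = 0 ↔ x = 0) ∧
      ∀ c ∈ Sg, ∀ x ∈ W ρ t (b t), q (ρ (c : S) x) ≤ Real.exp (b c + ε) * q x := by
  have := H.NC_normal t
  exact exists_adapted' (H.NC_comm t) (H.ρC t) (H.NC_unip t) (fun c => b c) Sg hε
    (W ρ t (b t)) (H.WC_inv t _) (fun A' hA' l χ h c => H.weight_eq hs hb hA' h c)

/-- the modulus spaces of `t` are contained in those of the elements of the Cartan group -/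
theorem ExpS.W_le (H : ExpS ρ E) {t : S} (hs : Sep ρ t) {b : S → ℝ} (hb : b ∈ Wts ρ ⊤)
    {c : S} (hc : c ∈ H.C t) : W ρ t (b t) ≤ W ρ c (b c) := by
  have := H.NC_normal t
  have h1 := le_W_of_isotypic (H.NC_comm t) (H.ρC t) (H.NC_unip t) (fun c => b c)
    (W ρ t (b t)) (H.WC_inv t _) (fun A' hA' l χ h c => H.weight_eq hs hb hA' h c) ⟨c, hc⟩
  exact h1

/-- `c` is generic: no nonzero weight vanishes on `c` -/
def Generic (ρ : S →* Module.End ℝ V) (c : S) : Prop := ∀ b ∈ Wts ρ ⊤, b c = 0 → b = 0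

theorem Sep.generic {t : S} (hs : Sep ρ t) : Generic ρ t := hs.1

theorem ExpS.W_zero_eq (H : ExpS ρ E) {t : S} (hs : Sep ρ t) {c : S} (hc : c ∈ H.C t)
    (hg : Generic ρ c) : W ρ c 0 = W ρ t 0 := by
  classical
  have hle : W ρ t 0 ≤ W ρ c 0 := by
    by_cases h0 : W ρ t 0 = ⊥
    · rw [h0]; exact bot_le
    · obtain ⟨b, hb, hbt⟩ := H.exists_weight t h0
      have hb0 : b = 0 := hs.1 b hb hbt
      have h1 := H.W_le hs hb hc
      rw [hbt, hb0] at h1
      exact h1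
  refine le_antisymm ?_ hle
  intro x hx
  obtain ⟨f, hf, _, hsum⟩ := exists_decomp1 (rho_inv_mul ρ t) (rho_mul_inv ρ t) ⊤
    (fun _ _ => trivial) (fun _ _ => trivial) (Submodule.mem_top : x ∈ (⊤ : Submodule ℝ V))
  have h1 : x - f 0 = ∑ r ∈ f.support.erase 0, f r := by
    rw [← hsum, Finsupp.sum]
    by_cases h0 : (0 : ℝ) ∈ f.support
    · rw [← Finset.add_sum_erase _ _ h0]; abel
    · rw [Finset.erase_eq_of_notMem h0, Finsupp.notMem_support_iff.1 h0, sub_zero]
  let p : ℝ → Submodule ℝ V := fun s => if s = 0 then ⊥ else W ρ c s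
  have hp : ∀ s, p s ≤ Wt (ρ c) (ρ c⁻¹) s := by
    intro s
    by_cases hs : s = 0
    · simp only [p, if_pos hs]; exact bot_le
    · simp only [p, if_neg hs]; exact le_rfl
  have h2 : x - f 0 ∈ ⨆ s, p s := by
    rw [h1]
    refine Submodule.sum_mem _ fun r hr => ?_
    by_cases hfr : f r = 0
    · rw [hfr]; exact Submodule.zero_mem _
    · have hne : W ρ t r ≠ ⊥ := by
        intro hbot
        have : f r ∈ W ρ t r := hf r
        rw [hbot, Submodule.mem_bot] at this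
        exact hfr this
      obtain ⟨b, hb, hbt⟩ := H.exists_weight t hne
      have hbc : b c ≠ 0 := by
        intro hcon
        have hb0 := hg b hb hcon
        rw [hb0] at hbt
        exact Finset.ne_of_mem_erase hr hbt.symm
      have h3 := H.W_le hs hb hc
      rw [hbt] at h3
      refine Submodule.mem_iSup_of_mem (b c) ?_
      simp only [p, if_neg hbc]
      exact h3 (hf r)
  have h3 : x - f 0 ∈ Wt (ρ c) (ρ c⁻¹) 0 := Submodule.sub_mem _ hx (hle (hf 0))
  have h4 := Wt_inf_iSup (rho_inv_mul ρ c) p hp h3 h2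
  simp only [p, if_true, Submodule.mem_bot] at h4
  rw [sub_eq_zero.1 h4]
  exact hf 0

/-- commutators in the Cartan group are neutral -/
theorem ExpS.comm_mem (H : ExpS ρ E) {t a b : S} (ha : a ∈ H.C t) (hb : b ∈ H.C t) :
    ∃ v ∈ H.h t, ⁅a, b⁆ = E v := by
  obtain ⟨v, hv⟩ := H.comm a b
  refine ⟨v, ?_, hv⟩
  rw [← H.E_mem_C_iff t, ← hv, commutatorElement_def]
  exact (H.C t).mul_mem ((H.C t).mul_mem ((H.C t).mul_mem ha hb) ((H.C t).inv_mem ha))
    ((H.C t).inv_mem hb)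

/-- **one Cartan group for all generic directions** -/
theorem ExpS.C_eq (H : ExpS ρ E) {t : S} (hs : Sep ρ t) {c : S} (hc : c ∈ H.C t)
    (hg : Generic ρ c) : H.C c = H.C t := by
  have hW := H.W_zero_eq hs hc hg
  have key : ∀ {t c : S}, W ρ c 0 = W ρ t 0 → c ∈ H.C t → H.C t ≤ H.C c := by
    intro t c hW hc s hsC
    obtain ⟨v, hv, hcomm⟩ := H.comm_mem ((H.C t).inv_mem hc) hsC
    refine ⟨v, ?_, ?_⟩
    · rw [H.mem_h, hW]; exact hv
    · rw [← hcomm, commutatorElement_def]; group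
  have h1 := key hW hc
  exact le_antisymm (key hW.symm (h1 (H.t_mem_C t))) h1

end cartan

end Vale.Agent.P188.H269
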