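import Vale.Agent.P188.H796.Le

/-!
The derivative of the exponential in a nilpotent algebra.
-/

open Finset

namespace Vale.Agent.P188.H269

open Vale.Agent.P188.H796

/-- hockey stick identity for commuting elements -/
theorem sum_geom_comm {B : Type*} [Ring B] {x y : B} (h : Commute x y) (n : ℕ) :
    ∑ i ∈ range n, x ^ i * (x - y) ^ (n - 1 - i) =
      ∑ k ∈ range n, (n.choose (k + 1)) • (x ^ (n - 1 - k) * (-y) ^ k) := by
  induction n with
  | zero => simp
  | succ n ih =>
    have h1 : ∑ i ∈ range (n + 1), x ^ i * (x - y) ^ (n + 1 - 1 - i) =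
        (x - y) ^ n + x * ∑ i ∈ range n, x ^ i * (x - y) ^ (n - 1 - i) := by
      rw [sum_range_succ', mul_sum, add_comm]
      congr 1
      · simp
      · refine sum_congr rfl fun i _ => ?_
        rw [pow_succ', mul_assoc]
        congr 3
        omega
    have h2 : (x - y) ^ n = ∑ k ∈ range (n + 1), (n.choose k) • (x ^ (n - k) * (-y) ^ k) := by
      have hc : Commute (-y) x := (h.symm).neg_left
      rw [sub_eq_add_neg, add_comm, hc.add_pow]
      refine sum_congr rfl fun k _ => ?_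
      rw [(hc.pow_pow k (n - k)).eq, nsmul_eq_mul, Nat.cast_comm]
    rw [h1, ih, h2, mul_sum]
    have h3 : ∑ k ∈ range n, x * (n.choose (k + 1)) • (x ^ (n - 1 - k) * (-y) ^ k) =
        ∑ k ∈ range (n + 1), (n.choose (k + 1)) • (x ^ (n - k) * (-y) ^ k) := by
      rw [sum_range_succ, Nat.choose_succ_self, zero_smul, add_zero]
      refine sum_congr rfl fun k hk => ?_
      rw [mem_range] at hk
      rw [mul_smul_comm, ← mul_assoc, ← pow_succ']
      congr 3
      omega
    rw [h3, ← sum_add_distrib]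
    refine sum_congr rfl fun k _ => ?_
    rw [← add_smul, ← Nat.choose_succ_succ]
    simp

section

variable {A : Type*} [NormedRing A] [NormedAlgebra ℝ A]

/-- the bracket with `Z` -/
noncomputable def adz (Z : A) : Module.End ℝ A := LinearMap.mulLeft ℝ Z - LinearMap.mulRight ℝ Z

theorem adz_apply (Z W : A) : adz Z W = Z * W - W * Z := by
  simp [adz]

theorem commute_left_adz (Z : A) : Commute (LinearMap.mulLeft ℝ Z) (adz Z) := by
  unfold adz
  refine Commute.sub_right (Commute.refl _) ?_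
  exact LinearMap.commute_mulLeft_right Z Z

theorem mulLeft_pow (Z : A) (n : ℕ) : (LinearMap.mulLeft ℝ Z ^ n : Module.End ℝ A) =
    LinearMap.mulLeft ℝ (Z ^ n) := by
  rw [LinearMap.pow_mulLeft]

/-- derivative of a power -/
theorem sum_pow_eq (Z W : A) (n : ℕ) :
    ∑ i ∈ range n, Z ^ i * W * Z ^ (n - 1 - i) =
      ∑ k ∈ range n, ((n.choose (k + 1) : ℝ) * (-1) ^ k) • (Z ^ (n - 1 - k) * (adz Z ^ k) W) := by
  have h := sum_geom_comm (commute_left_adz Z) n
  have h1 := congrArg (fun f : Module.End ℝ A => f W) h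
  simp only [LinearMap.sum_apply, Module.End.mul_apply, LinearMap.smul_apply] at h1
  have h2 : (LinearMap.mulLeft ℝ Z - adz Z : Module.End ℝ A) = LinearMap.mulRight ℝ Z := by
    unfold adz; abel
  rw [h2] at h1
  simp only [LinearMap.pow_mulLeft, LinearMap.pow_mulRight, LinearMap.mulLeft_apply,
    LinearMap.mulRight_apply] at h1
  have h3 : ∑ i ∈ range n, Z ^ i * W * Z ^ (n - 1 - i) =
      ∑ i ∈ range n, Z ^ i * (W * Z ^ (n - 1 - i)) := sum_congr rfl fun i _ => mul_assoc _ _ _
  rw [h3, h1]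
  refine sum_congr rfl fun k _ => ?_
  rw [← Nat.cast_smul_eq_nsmul ℝ, neg_pow]
  have h4 : ((((-1 : Module.End ℝ A)) ^ k * adz Z ^ k) W) = ((-1 : ℝ) ^ k) • (adz Z ^ k) W := by
    rcases Nat.even_or_odd k with hk | hk
    · rw [hk.neg_one_pow, hk.neg_one_pow, one_mul, one_smul]
    · rw [hk.neg_one_pow, hk.neg_one_pow, neg_mul, one_mul, LinearMap.neg_apply, neg_smul,
        one_smul]
  rw [h4, mul_smul_comm, smul_smul]

/-- the series `(1 - exp (-ad Z)) / ad Z`, applied to `W` -/
noncomputable def Th (m : ℕ) (Z W : A) : A :=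
  ∑ k ∈ range m, ((-1 : ℝ) ^ k * ((k + 1).factorial : ℝ)⁻¹) • (adz Z ^ k) W

theorem sum_dexp (m : ℕ) (Z W : A)
    (hv : ∀ j k, m ≤ j + k + 1 → Z ^ j * (adz Z ^ k) W = 0) :
    ∑ n ∈ range m, ((n.factorial : ℝ)⁻¹) • ∑ i ∈ range n, Z ^ i * W * Z ^ (n - 1 - i) =
      ex m Z * Th m Z W := by
  classical
  let T : ℕ → ℕ → A := fun j k =>
    (((j.factorial : ℝ)⁻¹) * ((-1 : ℝ) ^ k * ((k + 1).factorial : ℝ)⁻¹)) • (Z ^ j * (adz Z ^ k) W)
  have hT0 : ∀ j k, m ≤ j + k + 1 → T j k = 0 := by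
    intro j k hjk
    simp only [T, hv j k hjk, smul_zero]
  have hL : ∑ n ∈ range m, ((n.factorial : ℝ)⁻¹) • ∑ i ∈ range n, Z ^ i * W * Z ^ (n - 1 - i) =
      ∑ n ∈ range m, ∑ k ∈ range n, T (n - 1 - k) k := by
    refine sum_congr rfl fun n _ => ?_
    rw [sum_pow_eq, smul_sum]
    refine sum_congr rfl fun k hk => ?_
    rw [mem_range] at hk
    rw [smul_smul]
    simp only [T]
    congr 1
    have h1 : (n.choose (k + 1) : ℝ) = n.factorial / ((k + 1).factorial * (n - 1 - k).factorial) := by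
      rw [Nat.cast_choose ℝ (by omega : k + 1 ≤ n)]
      have : n - (k + 1) = n - 1 - k := by omega
      rw [this]
    rw [h1]
    have h2 : (n.factorial : ℝ) ≠ 0 := by positivity
    have h3 : ((k + 1).factorial : ℝ) ≠ 0 := by positivity
    have h4 : ((n - 1 - k).factorial : ℝ) ≠ 0 := by positivity
    field_simp
  have hR : ex m Z * Th m Z W = ∑ k ∈ range m, ∑ j ∈ range m, T j k := by
    unfold ex Th
    rw [sum_mul_sum, sum_comm]
    refine sum_congr rfl fun k _ => sum_congr rfl fun j _ => ?_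
    simp only [T]
    rw [smul_mul_smul_comm]
  rw [hL, hR]
  have hR' : ∀ k ∈ range m, ∑ j ∈ range m, T j k = ∑ j ∈ range (m - 1 - k), T j k := by
    intro k _
    symm
    apply sum_subset
    · intro j hj
      rw [mem_range] at hj ⊢
      omega
    · intro j _ hj
      rw [mem_range] at hj
      exact hT0 j k (by omega)
  rw [sum_congr rfl hR', Finset.sum_sigma', Finset.sum_sigma']
  refine Finset.sum_bij' (fun p _ => ⟨p.2, p.1 - 1 - p.2⟩) (fun p _ => ⟨p.1 + p.2 + 1, p.1⟩)
    ?_ ?_ ?_ ?_ ?_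
  · rintro ⟨n, k⟩ h
    simp only [mem_sigma, mem_range] at h ⊢
    omega
  · rintro ⟨k, j⟩ h
    simp only [mem_sigma, mem_range] at h ⊢
    omega
  · rintro ⟨n, k⟩ h
    simp only [mem_sigma, mem_range] at h
    have : k + (n - 1 - k) + 1 = n := by omega
    simp only [this]
  · rintro ⟨k, j⟩ h
    have : k + j + 1 - 1 - k = j := by omega
    simp only [this]
  · rintro ⟨n, k⟩ _
    rfl

/-- power rule -/
theorem hasDerivAt_powc {Z : ℝ → A} {W : A} {s : ℝ} (hZ : HasDerivAt Z W s) (n : ℕ) :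
    HasDerivAt (fun t => Z t ^ n) (∑ i ∈ range n, Z s ^ i * W * Z s ^ (n - 1 - i)) s := by
  induction n with
  | zero => simpa using hasDerivAt_const s (1 : A)
  | succ n ih =>
    have h1 := ih.fun_mul hZ
    have h2 : (∑ i ∈ range n, Z s ^ i * W * Z s ^ (n - 1 - i)) * Z s + Z s ^ n * W =
        ∑ i ∈ range (n + 1), Z s ^ i * W * Z s ^ (n + 1 - 1 - i) := by
      rw [sum_range_succ, sum_mul]
      congr 1
      · refine sum_congr rfl fun i hi => ?_
        rw [mem_range] at hi
        rw [mul_assoc, ← pow_succ]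
        congr 2
        omega
      · simp
    rw [h2] at h1
    simpa only [pow_succ] using h1

/-- derivative of the exponential -/
theorem hasDerivAt_exc (m : ℕ) {Z : ℝ → A} {W : A} {s : ℝ} (hZ : HasDerivAt Z W s)
    (hv : ∀ j k, m ≤ j + k + 1 → Z s ^ j * (adz (Z s) ^ k) W = 0) :
    HasDerivAt (fun t => ex m (Z t)) (ex m (Z s) * Th m (Z s) W) s := by
  rw [← sum_dexp m (Z s) W hv]
  unfold ex
  exact HasDerivAt.fun_sum fun n _ => (hasDerivAt_powc hZ n).fun_const_smul _

end

end Vale.Agent.P188.H269
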