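import Vale.Agent.P188.H269.EChart2

/-!
# P188, route A, block (D1): addition in the chart modulo commutators
-/

set_option linter.all false

open MeasureTheory Measure Set Filter Topology
open scoped ENNReal commutatorElement

namespace Vale.Agent.P188.H269

open Vale.Agent.P188.H796 Vale.Agent.P188.H615 Vale.Agent.P188.H131 Vale.Agent.P188.H382
open Vale.Agent.P188.H235
open Vale.Agent.P188.Z1 (RModel Conc)

section add

variable {Γ : Type} [Group Γ] {k : ℕ} {η : Γ →* Multiplicative (Fin k → ℤ)} {d n : ℕ}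
  {D : MB η.ker d n}

theorem ER_add (e : LieIdeal ℝ D.R.V) {v w : D.R.V} (hv : v ∈ e.toSubmodule)
    (hw : w ∈ e.toSubmodule) :
    (D.ex v * D.ex w)⁻¹ * D.ex (v + w) ∈ (⁅ER e, ER e⁆ : Subgroup D.S) := by
  have he := ideal_lie e
  have hg : (⁅ER e, ER e⁆ : Subgroup D.S) = ERi e 1 := (lcs_ER e 1)
  rw [hg]
  set Z : D.R.V := D.R.Lo (D.R.Ex v * D.R.Ex w) with hZ
  have hEZ : D.R.Ex Z = D.R.Ex v * D.R.Ex w := D.R.Ex_Lo _
  have h1 : Z - v - w ∈ gam D.R e.toSubmodule 1 :=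
    Lo_Ex_mul_Ex' D.R le_rfl (gam_succ_le he 0) (fun x hx y hy => lie_mem_gam (i := 0) hx hy) hv hw
  have h2 : v + w - Z ∈ gam D.R e.toSubmodule 1 := by
    have h := Submodule.neg_mem _ h1
    have h3 : -(Z - v - w) = v + w - Z := by abel
    rwa [h3] at h
  have hZe : Z ∈ e.toSubmodule := by
    have h3 := Submodule.sub_mem _ (Submodule.add_mem _ hv hw) (gam_le he 1 h2)
    rwa [sub_sub_cancel] at h3
  have h4 := Lo_Ex_inv_mul' D.R (gam_le he 1) (gam_succ_le he 1)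
    (fun x hx y hy => lie_mem_gam (i := 1) hx hy) hZe h2
  rw [add_sub_cancel] at h4
  have h5 : D.R.Lo ((D.R.Ex Z)⁻¹ * D.R.Ex (v + w)) ∈ gam D.R e.toSubmodule 1 := by
    have h := Submodule.add_mem _ (gam_succ_le he 1 h4) h2
    rwa [sub_add_cancel] at h
  refine mem_ERi.2 ⟨_, h5, ?_⟩
  rw [ec_ex_inN, ec_ex_inN, ec_ex_inN, ec_ex_inN, D.R.Ex_Lo, hEZ, ← map_mul, ← map_inv, ← map_mul]

end add

section chart

variable {Γ : Type} [Group Γ] {k : ℕ} {η : Γ →* Multiplicative (Fin k → ℤ)} {d n : ℕ}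
  {D : MB η.ker d n} {hη : Function.Surjective η} {F : Set Γ} {t : D.S}
  {M : RModel D.S Γ D.R.V k} {B : M.NatBox}

theorem ec_add (hC : Conc D hη F t M) : ∀ v ∈ M.e, ∀ w ∈ M.e,
    (M.ex v * M.ex w)⁻¹ * M.ex (v + w) ∈ (⁅M.E, M.E⁆ : Subgroup D.S) := by
  intro v hv w hw
  rw [hC.E_eq, hC.ex_eq]
  exact ER_add (eId D.AdE t) ((ec_mem_iff hC v).1 hv) ((ec_mem_iff hC w).1 hw)

/-- **(D1)** the chart of the exponential radical -/
theorem exists_echart (h : BoxData D hη F t M B) : ∃ m, Nonempty (EChart M B m) :=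
  exists_echart_of h (ec_add h.conc)

end chart

end Vale.Agent.P188.H269
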