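import Vale.Agent.P188.H235.EBox
import Vale.Agent.P188.H382.AsmA2
import Vale.Agent.P188.H131.HaarE

/-!
# P188, route A, block (D1): the chart of the exponential radical

Fields `meas`, `mem`, `neg`, `right`, `cont` of `EChart`, for `P x = M.ex (L x)`, where
`L : (Fin m → ℝ) ≃ₗ[ℝ] M.e`.
-/

set_option linter.all false

open MeasureTheory Measure Set Filter Topology
open scoped ENNReal

namespace Vale.Agent.P188.H269

open Vale.Agent.P188.H796 Vale.Agent.P188.H615 Vale.Agent.P188.H131 Vale.Agent.P188.H382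
open Vale.Agent.P188.Z1 (RModel Conc)

section gen

variable {N : Type} [Group N] {d n : ℕ} {D : MB N d n} {A : Type} [NormedRing A]
  [NormedAlgebra ℝ A] [FiniteDimensional ℝ A] {R : RD D A}

theorem gen_contL {e : Submodule ℝ R.V} {m : ℕ} (L : (Fin m → ℝ) ≃ₗ[ℝ] e) :
    Continuous (fun x : Fin m → ℝ => ((L x : e) : R.V)) :=
  LinearMap.continuous_of_finiteDimensional (e.subtype ∘ₗ L.toLinearMap)

/-- right translation in a linear chart preserves the volume -/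
theorem gen_right [MeasurableSpace A] [BorelSpace A] {e : Submodule ℝ R.V}
    (he : ∀ x ∈ e, ∀ y ∈ e, ⁅x, y⁆ ∈ e) {m : ℕ} (L : (Fin m → ℝ) ≃ₗ[ℝ] e) (v : e) :
    ∃ T : (Fin m → ℝ) → (Fin m → ℝ), MeasurePreserving T volume volume ∧
      ∀ x, R.Ex ((L (T x) : e) : R.V) = R.Ex ((L x : e) : R.V) * R.Ex (v : R.V) := by
  let Lc : (Fin m → ℝ) ≃L[ℝ] e := L.toContinuousLinearEquiv
  have hx0 : R.Ex (v : R.V) ∈ ExS R e he := by rw [mem_ExS, R.Lo_Ex]; exact v.2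
  haveI : (Measure.map Lc volume).IsAddHaarMeasure := Lc.isAddHaarMeasure_map volume
  have h1 := mp_RT he (Measure.map Lc volume) ⟨R.Ex (v : R.V), hx0⟩
  have hL : MeasurePreserving (Lc : (Fin m → ℝ) → e) volume (Measure.map Lc volume) :=
    ⟨Lc.continuous.measurable, rfl⟩
  have hL' : MeasurePreserving (Lc.symm : e → (Fin m → ℝ)) (Measure.map Lc volume) volume := by
    refine ⟨Lc.symm.continuous.measurable, ?_⟩
    rw [Measure.map_map Lc.symm.continuous.measurable Lc.continuous.measurable]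
    have : (Lc.symm : e → (Fin m → ℝ)) ∘ (Lc : (Fin m → ℝ) → e) = id := by
      funext x; simp
    rw [this, Measure.map_id]
  refine ⟨Lc.symm ∘ RT he ⟨R.Ex (v : R.V), hx0⟩ ∘ Lc, hL'.comp (h1.comp hL), fun x => ?_⟩
  have h2 : L ((Lc.symm ∘ RT he ⟨R.Ex (v : R.V), hx0⟩ ∘ Lc) x) =
      RT he ⟨R.Ex (v : R.V), hx0⟩ (L x) := by
    show Lc (Lc.symm (RT he ⟨R.Ex (v : R.V), hx0⟩ (Lc x))) = RT he ⟨R.Ex (v : R.V), hx0⟩ (Lc x)
    simp
  rw [h2, Ex_RT]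

/-- uniform continuity of the chart on compact sets -/
theorem gen_cont {e : Submodule ℝ R.V} {m : ℕ} (L : (Fin m → ℝ) ≃ₗ[ℝ] e) (C ρ : ℝ) (hρ : 0 < ρ) :
    ∃ δ : ℝ, 0 < δ ∧ ∀ x x' : Fin m → ℝ, ‖x‖ ≤ C → ‖x' - x‖ ≤ δ →
      ∃ z : R.V, ‖(z : A)‖ ≤ ρ ∧ R.Ex ((L x' : e) : R.V) = R.Ex ((L x : e) : R.V) * R.Ex z := by
  let f : (Fin m → ℝ) × (Fin m → ℝ) → R.V := fun p =>
    R.Lo ((R.Ex ((L p.1 : e) : R.V))⁻¹ * R.Ex ((L (p.1 + p.2) : e) : R.V))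
  have hfd : ∀ p, f p = R.Lo ((R.Ex ((L p.1 : e) : R.V))⁻¹ * R.Ex ((L (p.1 + p.2) : e) : R.V)) :=
    fun _ => rfl
  have hf : Continuous f := by
    refine R.continuous_Lo.comp ?_
    refine Continuous.mul ?_ ?_
    · exact (R.continuous_Ex.comp ((gen_contL L).comp continuous_fst)).inv
    · exact R.continuous_Ex.comp ((gen_contL L).comp (continuous_fst.add continuous_snd))
  clear_value f
  have hK : IsCompact (Metric.closedBall (0 : Fin m → ℝ) C ×ˢ Metric.closedBall (0 : Fin m → ℝ) 1) :=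
    (isCompact_closedBall _ _).prod (isCompact_closedBall _ _)
  have hu := hK.uniformContinuousOn_of_continuous hf.continuousOn
  rw [Metric.uniformContinuousOn_iff] at hu
  obtain ⟨δ, hδ, h⟩ := hu ρ hρ
  refine ⟨min (δ / 2) 1, lt_min (by linarith) one_pos, fun x x' hx hx' => ?_⟩
  have h1 : ‖x' - x‖ ≤ δ / 2 := hx'.trans (min_le_left _ _)
  have h2 : ‖x' - x‖ ≤ 1 := hx'.trans (min_le_right _ _)
  have h3 := h (x, x' - x) ⟨by simpa using hx, by simpa using h2⟩ (x, 0)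
    ⟨by simpa using hx, by simp⟩ (by
      rw [Prod.dist_eq, dist_self, dist_zero_right]
      exact max_lt hδ (by linarith))
  have h4 : f (x, 0) = 0 := by
    rw [hfd, add_zero, inv_mul_cancel, Lo_one]
  rw [h4, dist_zero_right] at h3
  refine ⟨f (x, x' - x), h3.le, ?_⟩
  rw [hfd, R.Ex_Lo, mul_inv_cancel_left, add_sub_cancel]

end gen

section chart

variable {Γ : Type} [Group Γ] {k : ℕ} {η : Γ →* Multiplicative (Fin k → ℤ)} {d n : ℕ}
  {D : MB η.ker d n} {hη : Function.Surjective η} {F : Set Γ} {t : D.S}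
  {M : RModel D.S Γ D.R.V k}

theorem ec_ex_inN (v : D.R.V) : D.ex v = D.inN (D.R.Ex v) := rfl

theorem ec_lie (hC : Conc D hη F t M) : ∀ x ∈ M.e, ∀ y ∈ M.e, ⁅x, y⁆ ∈ M.e := by
  rw [hC.e_eq]
  intro x hx y hy
  exact (eId D.AdE t).lie_mem hy

theorem ec_mem_iff (hC : Conc D hη F t M) (w : D.R.V) : w ∈ M.e ↔ w ∈ eId D.AdE t := by
  rw [hC.e_eq]; rfl

theorem ec_mem (hC : Conc D hη F t M) (v : M.e) : M.ex (v : D.R.V) ∈ M.E := by
  rw [hC.E_eq, hC.ex_eq, mem_ER]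
  exact ⟨v, (ec_mem_iff hC _).1 v.2, rfl⟩

theorem ec_mem' (hC : Conc D hη F t M) {g : D.S} (hg : g ∈ M.E) :
    ∃ v : M.e, D.ex (v : D.R.V) = g := by
  rw [hC.E_eq, mem_ER] at hg
  obtain ⟨X, hX, rfl⟩ := hg
  exact ⟨⟨X, (ec_mem_iff hC X).2 hX⟩, rfl⟩

theorem ec_neg (hC : Conc D hη F t M) (v : D.R.V) : M.ex (-v) = (M.ex v)⁻¹ := by
  rw [hC.ex_eq, ec_ex_inN, ec_ex_inN, D.R.Ex_neg, map_inv]

variable {m : ℕ} (L : (Fin m → ℝ) ≃ₗ[ℝ] M.e)

theorem ec_meas (hC : Conc D hη F t M) :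
    Measurable fun x : Fin m → ℝ => M.ex ((L x : M.e) : D.R.V) := by
  rw [hC.ex_eq]
  exact measurable_ex.comp (gen_contL L).measurable

theorem ec_right (hC : Conc D hη F t M) (g : D.S) (hg : g ∈ M.E) :
    ∃ T : (Fin m → ℝ) → (Fin m → ℝ), MeasurePreserving T volume volume ∧
      ∀ x, M.ex ((L (T x) : M.e) : D.R.V) = M.ex ((L x : M.e) : D.R.V) * g := by
  obtain ⟨v, rfl⟩ := ec_mem' hC hg
  obtain ⟨T, hT, h⟩ := gen_right (ec_lie hC) L v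
  refine ⟨T, hT, fun x => ?_⟩
  have h2 := congrArg D.inN (h x)
  rw [map_mul] at h2
  rw [hC.ex_eq]
  exact h2

theorem ec_cont (hC : Conc D hη F t M) (C ρ : ℝ) (hρ : 0 < ρ) : ∃ δ : ℝ, 0 < δ ∧
    ∀ x x' : Fin m → ℝ, ‖x‖ ≤ C → ‖x' - x‖ ≤ δ →
      ∃ z : D.R.V, M.nm z ≤ ρ ∧ M.ex ((L x' : M.e) : D.R.V) = M.ex ((L x : M.e) : D.R.V) * M.ex z := by
  obtain ⟨δ, hδ, h⟩ := gen_cont L C ρ hρ
  refine ⟨δ, hδ, fun x x' hx hx' => ?_⟩
  obtain ⟨z, hz, hz2⟩ := h x x' hx hx'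
  refine ⟨z, ?_, ?_⟩
  · rw [hC.nm_eq]; exact hz
  · rw [hC.ex_eq, ec_ex_inN, ec_ex_inN, ec_ex_inN, hz2, map_mul]

end chart

end Vale.Agent.P188.H269
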