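import Vale.Agent.P188.H269.EChart
import Vale.Agent.P188.H235.ChartBox

/-!
# P188, route A, block (D1): the chart of the exponential radical, assembly
-/

set_option linter.all false

open MeasureTheory Measure Set Filter Topology
open scoped ENNReal

namespace Vale.Agent.P188.H269

open Vale.Agent.P188.H796 Vale.Agent.P188.H615 Vale.Agent.P188.H131 Vale.Agent.P188.H382
open Vale.Agent.P188.H235
open Vale.Agent.P188.Z1 (RModel Conc)

section chart

variable {Γ : Type} [Group Γ] {k : ℕ} {η : Γ →* Multiplicative (Fin k → ℤ)} {d n : ℕ}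
  {D : MB η.ker d n} {hη : Function.Surjective η} {F : Set Γ} {t : D.S}
  {M : RModel D.S Γ D.R.V k} {B : M.NatBox}

/-- the chart of the exponential radical -/
noncomputable def echartOf (h : BoxData D hη F t M B) {m : ℕ} (L : (Fin m → ℝ) ≃ₗ[ℝ] M.e)
    (hadd : ∀ v ∈ M.e, ∀ w ∈ M.e,
      (M.ex v * M.ex w)⁻¹ * M.ex (v + w) ∈ (⁅M.E, M.E⁆ : Subgroup D.S)) : EChart M B m where
  P x := M.ex ((L x : M.e) : D.R.V)
  meas := ec_meas L h.conc
  mem x := ec_mem h.conc _
  neg x := by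
    rw [map_neg, Submodule.coe_neg]
    exact ec_neg h.conc _
  right := ec_right L h.conc
  add x y := by
    rw [map_add, Submodule.coe_add]
    exact hadd _ (L x).2 _ (L y).2
  cvx R _ := chart_cvx h.nat h.bx (M.e.subtype ∘ₗ L.toLinearMap) R
  cpt R _ := chart_cpt h.nat h.bx (M.e.subtype ∘ₗ L.toLinearMap)
    (Subtype.coe_injective.comp L.injective) R
  int R hR := chart_int h.nat h.bx (M.e.subtype ∘ₗ L.toLinearMap) hR
  cont C ρ hρ := ec_cont L h.conc C ρ hρ

/-- a linear chart of `e` -/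
theorem exists_chartL (M : RModel D.S Γ D.R.V k) : ∃ m, Nonempty ((Fin m → ℝ) ≃ₗ[ℝ] M.e) := by
  refine ⟨Module.finrank ℝ M.e, ⟨?_⟩⟩
  exact (Module.finBasis ℝ M.e).equivFun.symm

theorem exists_echart_of (h : BoxData D hη F t M B)
    (hadd : ∀ v ∈ M.e, ∀ w ∈ M.e,
      (M.ex v * M.ex w)⁻¹ * M.ex (v + w) ∈ (⁅M.E, M.E⁆ : Subgroup D.S)) :
    ∃ m, Nonempty (EChart M B m) := by
  obtain ⟨m, ⟨L⟩⟩ := exists_chartL M
  exact ⟨m, ⟨echartOf h L hadd⟩⟩

end chart

end Vale.Agent.P188.H269
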