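import Vale.Agent.P188.H616.M4

/-!
# P188, FLATG in the model: the letters of a box element (`hus`)
-/

set_option linter.all false

open MeasureTheory Set Filter
open Vale.Agent.P188.H530 (hgt)
open Vale.Agent.P188.H616 (Coord Sec Phi slide Script)

namespace Vale.Agent.P188.Z1.RModel.F6

variable {S : Type} [Group S] [MeasurableSpace S] {Γ : Type} [Group Γ]
  {V : Type} [AddCommGroup V] [Module ℝ V] {k : ℕ} {M : RModel S Γ V k}

/-- prefixes of a product of letters stay in a box -/
theorem pre_of (B : M.NatBox) {R : M.ι → ℝ} (hR : ∀ i, 0 ≤ R i) :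
    ∀ (us : List (M.ι × S)) (U : S) (j N : ℕ), 1 ≤ j → j + us.length ≤ N →
      U ∈ B.Bx (fun i => B.C ^ j * R i) →
      (∀ q ∈ us, q.2 ∈ B.Bx fun i => B.C * R i) →
      Script.Pre (B.Bx fun i => B.C ^ N * R i) U us := by
  have hC := B.one_le
  have hmono : ∀ a b : ℕ, a ≤ b → ∀ x ∈ B.Bx (fun i => B.C ^ a * R i),
      x ∈ B.Bx (fun i => B.C ^ b * R i) := by
    intro a b hab x hx
    refine B.mono _ _ (fun i => mul_nonneg (by positivity) (hR i)) (fun i => ?_) hx
    exact mul_le_mul_of_nonneg_right (pow_le_pow_right₀ hC hab) (hR i)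
  intro us
  induction us with
  | nil =>
    intro U j N _ hN hU _
    exact hmono _ _ (by simpa using hN) _ hU
  | cons q us ih =>
    intro U j N hj hN hU hus
    rw [List.length_cons] at hN
    refine ⟨hmono _ _ (by omega) _ hU, ?_⟩
    refine ih _ (j + 1) N (by omega) (by omega) ?_ fun q' hq' => hus q' (by simp [hq'])
    have h1 : q.2 ∈ B.Bx fun i => B.C ^ j * R i := by
      refine hmono 1 j hj _ ?_
      have := hus q (by simp)
      simpa using this
    have h2 := B.mul (fun i => B.C ^ j * R i) (fun i => mul_nonneg (by positivity) (hR i)) _ hU _ h1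
    have e : (fun i => B.C * (B.C ^ j * R i)) = fun i => B.C ^ (j + 1) * R i := by
      funext i; rw [pow_succ]; ring
    rwa [e] at h2

/-- **every element of a box is a product of `m` letters, all prefixes in the box times `C ^ (m+1)`** -/
theorem exists_us (B : M.NatBox) {R : M.ι → ℝ} (hR : ∀ i, 0 ≤ R i) {u : S} (hu : u ∈ B.Bx R) :
    ∃ us : List (M.ι × S), us.length ≤ B.m ∧
      (∀ q ∈ us, ∃ x : ℝ, |x| ≤ B.C * R q.1 ∧ q.2 = M.ex (x • M.X q.1)) ∧
      Script.Pre (B.Bx fun i => B.C ^ (B.m + 1) * R i) 1 us ∧ (us.map Prod.snd).prod = u := by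
  obtain ⟨x, hx, hprod⟩ := B.gen R hR u hu
  have hC := B.one_le
  have hC0 : 0 ≤ B.C := by linarith
  refine ⟨List.ofFn fun t => (B.J t, M.ex (x t • M.X (B.J t))), by simp, ?_, ?_, ?_⟩
  · intro q hq
    obtain ⟨t, rfl⟩ := (List.mem_ofFn' _ _).1 hq
    exact ⟨x t, hx t, rfl⟩
  · refine pre_of B hR _ 1 1 (B.m + 1) le_rfl (by simp [Nat.add_comm]) ?_ ?_
    · exact B.one _ fun i => mul_nonneg (by positivity) (hR i)
    · intro q hq
      obtain ⟨t, rfl⟩ := (List.mem_ofFn' _ _).1 hq
      exact B.letter _ (fun i => mul_nonneg hC0 (hR i)) _ _ (hx t)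
  · rw [hprod, List.map_ofFn]
    rfl

end Vale.Agent.P188.Z1.RModel.F6
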