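import Vale.Agent.P188.H269.FlatA

/-!
# P188, FLATG in the model: decomposition of the end frames (`hG`)
-/

set_option linter.all false

open MeasureTheory Set Filter
open Vale.Agent.P188.H530 (hgt)
open Vale.Agent.P188.H616 (Coord Sec Phi slide Script)

namespace Vale.Agent.P188.Z1.RModel.F6

/-- finite nets of fixed cardinality at every scale -/
theorem exists_net (k : ℕ) (A κ₅ : ℝ) (hκ : 0 < κ₅) : ∃ n : ℕ, ∀ s : ℝ, 0 < s → ∀ W : Set (Ht k),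
    (∀ w ∈ W, ‖w‖ ≤ A * s) → W.Nonempty → ∃ u : Fin n → Ht k, (∀ i, u i ∈ W) ∧
      ∀ w ∈ W, ∃ i, ‖w - u i‖ ≤ κ₅ * s := by
  classical
  have hcpt : IsCompact (Metric.closedBall (0 : Ht k) A) := isCompact_closedBall 0 A
  obtain ⟨t, ht1, ht2, ht3⟩ := hcpt.finite_cover_balls (half_pos hκ)
  refine ⟨ht2.toFinset.card, fun s hs W hW hne => ?_⟩
  obtain ⟨w₀, hw₀⟩ := hne
  set e := ht2.toFinset.equivFin with he
  -- for every center, a point of `W` in the scaled ball, if there is one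
  have hch : ∀ c : Ht k, ∃ u ∈ W, (∃ w ∈ W, ‖s⁻¹ • w - c‖ ≤ κ₅ / 2) → ‖s⁻¹ • u - c‖ ≤ κ₅ / 2 := by
    intro c
    by_cases h : ∃ w ∈ W, ‖s⁻¹ • w - c‖ ≤ κ₅ / 2
    · obtain ⟨w, hw, h2⟩ := h
      exact ⟨w, hw, fun _ => h2⟩
    · exact ⟨w₀, hw₀, fun h' => absurd h' h⟩
  choose u hu hu2 using hch
  refine ⟨fun i => u (e.symm i), fun i => hu _, fun w hw => ?_⟩
  have h1 : s⁻¹ • w ∈ Metric.closedBall (0 : Ht k) A := by
    rw [mem_closedBall_zero_iff, norm_smul, norm_inv, Real.norm_eq_abs, abs_of_pos hs,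
      inv_mul_le_iff₀ hs, mul_comm]
    exact hW w hw
  have h2 := ht3 h1
  simp only [mem_iUnion, Metric.mem_ball, exists_prop] at h2
  obtain ⟨c, hc, h3⟩ := h2
  rw [dist_eq_norm] at h3
  have hc' : c ∈ ht2.toFinset := by simpa using hc
  refine ⟨e ⟨c, hc'⟩, ?_⟩
  show ‖w - u (e.symm (e ⟨c, hc'⟩))‖ ≤ κ₅ * s
  rw [Equiv.symm_apply_apply]
  have h4 := hu2 c ⟨w, hw, h3.le⟩
  have h5 : ‖s⁻¹ • w - s⁻¹ • u c‖ ≤ κ₅ := by
    calc ‖s⁻¹ • w - s⁻¹ • u c‖ = ‖(s⁻¹ • w - c) - (s⁻¹ • u c - c)‖ := by congr 1; abel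
      _ ≤ ‖s⁻¹ • w - c‖ + ‖s⁻¹ • u c - c‖ := norm_sub_le _ _
      _ ≤ κ₅ := by linarith
  rw [← smul_sub, norm_smul, norm_inv, Real.norm_eq_abs, abs_of_pos hs, inv_mul_le_iff₀ hs] at h5
  rw [mul_comm]
  exact h5

variable {S : Type} [Group S] [MeasurableSpace S] {Γ : Type} [Group Γ]
  {V : Type} [AddCommGroup V] [Module ℝ V] {k : ℕ} {M : RModel S Γ V k}

theorem sec_eq (z : S) : M.sec z = M.τ (Multiplicative.toAdd (M.η z)) := rfl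

/-- the `N_R`-part of a short element is small -/
theorem exists_np_short (B : M.NatBox) : ∃ C : ℝ, 1 ≤ C ∧ ∀ (c₂ d₁ c₁ δ : ℝ), 0 < c₂ → 0 < d₁ →
    0 ≤ c₁ → C * c₁ < c₂ → 0 < δ → ∀ᶠ s : ℝ in atTop, ∀ h : (Ht k →L[ℝ] ℝ) → ℝ, M.HB c₂ h →
      ∀ x : S, (M.l x : ℝ) ≤ c₁ * s → np M x ∈ B.Bx fun i => δ * M.szh h d₁ s i := by
  obtain ⟨C, hC, hco⟩ := exists_cocycle M B
  refine ⟨2 * C, by linarith, fun c₂ d₁ c₁ δ hc₂ hd hc₁ hlt hδ => ?_⟩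
  have hBC := C_pos B
  have hδ' : 0 < δ / B.C := by positivity
  filter_upwards [hco c₂ d₁ (1 / 2) c₁ 0 (δ / B.C) hc₂ hd (by norm_num) hc₁ (by linarith) hδ',
    ev_ker B (d₁ := d₁) hc₂ hd (M.C0 + 1) hδ', eventually_ge_atTop (1 : ℝ)] with s h1 h2 hs h hh x hx
  have hw : WinH M h (1 / 2) s (M.θ (1 : S)) := by
    intro b hb
    rw [M.θ_one, map_zero]
    have := (hh b hb).1
    have : 0 ≤ h b := by linarith
    positivity
  have h3 := h1 h hh 1 hw (by rw [M.θ_one, norm_zero, zero_mul]) x hx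
  rw [one_mul] at h3
  have h4 : (M.sec (1 : S))⁻¹ ∈ B.Bx fun i => δ / B.C * M.szh h d₁ s i := by
    refine h2 h hh ⌈M.C0 * (1 + 0)⌉₊ ?_ _ (M.CB_inv (sec_mem_CB M 1 ?_)) ?_
    · rw [add_zero, mul_one]
      refine (Nat.ceil_lt_add_one M.C0_pos.le).le.trans ?_
      nlinarith [M.C0_pos]
    · rw [M.θ_one, norm_zero]
      exact Nat.le_ceil _
    · rw [map_inv, η_sec, map_one, inv_one]
  have h5 := Bx_mul_half B (fun i => (szh_pos i).le) hδ.le h4 h3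
  have e : (M.sec (1 : S))⁻¹ * (M.sec 1 * x * (M.sec x)⁻¹) = np M x := by
    unfold np; group
  rwa [e] at h5

/-- the `N_R`-part of a Cartan word is small -/
theorem ev_np_CB (B : M.NatBox) {c₂ d₁ δ : ℝ} (hc : 0 < c₂) (hd : 0 < d₁) (A : ℝ) (hδ : 0 < δ) :
    ∀ᶠ s : ℝ in atTop, ∀ h : (Ht k →L[ℝ] ℝ) → ℝ, M.HB c₂ h → ∀ n : ℕ, (n : ℝ) ≤ A * s →
      ∀ x ∈ M.CB n, np M x ∈ B.Bx fun i => δ * M.szh h d₁ s i := by
  have hC0 := M.C0_pos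
  filter_upwards [ev_ker B (d₁ := d₁) hc hd (|A| + M.C0 * (1 + |A|) + 1) hδ,
    eventually_ge_atTop (1 : ℝ)] with s h1 hs h hh n hn x hx
  have hn0 : (0 : ℝ) ≤ n := Nat.cast_nonneg n
  have hA : (n : ℝ) ≤ |A| * s := hn.trans (mul_le_mul_of_nonneg_right (le_abs_self A) (by linarith))
  have hθ := θ_CB M hx
  refine h1 h hh (n + ⌈M.C0 * (1 + |A| * s)⌉₊) ?_ _ ?_ ?_
  · push_cast
    have h2 : ((⌈M.C0 * (1 + |A| * s)⌉₊ : ℕ) : ℝ) ≤ M.C0 * (1 + |A| * s) + 1 :=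
      (Nat.ceil_lt_add_one (by positivity)).le
    have h3 : M.C0 * (1 + |A| * s) ≤ M.C0 * (1 + |A|) * s := by
      have : 0 ≤ M.C0 * |A| := by positivity
      nlinarith
    nlinarith
  · unfold np
    refine M.CB_mul hx (M.CB_inv (sec_mem_CB M x ?_))
    refine le_trans ?_ (Nat.le_ceil _)
    exact mul_le_mul_of_nonneg_left (by linarith) hC0.le
  · unfold np
    rw [map_mul, map_inv, η_sec, mul_inv_cancel]

/-- **decomposition of an end frame** -/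
theorem exists_frame (B : M.NatBox) : ∃ C : ℝ, 1 ≤ C ∧ ∀ (c₂ d₁ A κ₅ δ : ℝ), 0 < c₂ → 0 < d₁ →
    0 < κ₅ → 0 < δ → ∀ᶠ s : ℝ in atTop, ∀ h : (Ht k →L[ℝ] ℝ) → ℝ, M.HB c₂ h →
      ∀ z x : S, ‖M.θ z‖ ≤ A * s → ‖M.θ x‖ ≤ A * s →
      np M x ∈ B.Bx (fun i => δ / B.C * M.szh h d₁ s i) →
      ∀ m : ℕ, (m : ℝ) ≤ A * s → ∀ g ∈ M.CB m, ‖M.θ x - M.θ z - M.θ g‖ ≤ κ₅ * s →
      ∃ e' r : S, M.η e' = 1 ∧ (M.l r : ℝ) ≤ C * (κ₅ * s) ∧ x = e' * M.sec z * g * r ∧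
        e' ∈ B.Bx (fun i => δ * M.szh h d₁ s i) := by
  obtain ⟨C, hC, hτ⟩ := M.l_τ
  refine ⟨2 * C, by linarith, fun c₂ d₁ A κ₅ δ hc₂ hd hκ hδ => ?_⟩
  have hBC := C_pos B
  have hC0 := M.C0_pos
  have hδ' : 0 < δ / B.C := by positivity
  set A' : ℝ := M.C0 * (1 + |A|) * 2 + M.C0 * (1 + κ₅) + |A| + 3 with hA'
  filter_upwards [ev_ker B (d₁ := d₁) hc₂ hd A' hδ', eventually_ge_atTop (1 : ℝ),
    eventually_ge_atTop (1 / κ₅)] with s h1 hs hs2 h hh z x hz hx hnp m hm g hg hclose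
  have hm0 : (0 : ℝ) ≤ m := Nat.cast_nonneg m
  have hAle : A * s ≤ |A| * s := mul_le_mul_of_nonneg_right (le_abs_self A) (by linarith)
  have hκs : 1 ≤ κ₅ * s := by
    rw [div_le_iff₀ hκ] at hs2
    linarith
  set w : Fin k → ℤ := Multiplicative.toAdd (M.η (g⁻¹ * (M.sec z)⁻¹ * x)) with hw
  have hητ : M.η (M.τ w) = M.η (g⁻¹ * (M.sec z)⁻¹ * x) := by
    rw [M.η_τ, hw]; rfl
  have hwθ : (fun i => (w i : ℝ)) = M.θ x - M.θ z - M.θ g := by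
    have e1 : M.θ (g⁻¹ * (M.sec z)⁻¹ * x) = (fun i => (w i : ℝ)) := rfl
    rw [← e1, M.θ_mul, M.θ_mul, M.θ_inv, M.θ_inv, θ_sec]
    abel
  have hwn : ∀ i, |(w i : ℝ)| ≤ κ₅ * s := by
    intro i
    have h2 := norm_le_pi_norm (fun i => (w i : ℝ)) i
    rw [Real.norm_eq_abs] at h2
    refine h2.trans ?_
    rw [hwθ]
    exact hclose
  have hr := hτ w (κ₅ * s) (by linarith) hwn
  refine ⟨x * (M.τ w)⁻¹ * g⁻¹ * (M.sec z)⁻¹, M.τ w, ?_, ?_, by group, ?_⟩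
  · rw [map_mul, map_mul, map_mul, map_inv, map_inv, map_inv, hητ, η_sec]
    rw [map_mul, map_mul, map_inv, map_inv, η_sec]
    generalize M.η x = X
    generalize M.η g = G
    generalize M.η z = Z
    skip
    group
  · refine hr.trans ?_
    nlinarith
  · have e : x * (M.τ w)⁻¹ * g⁻¹ * (M.sec z)⁻¹ =
        np M x * (M.sec x * (M.τ w)⁻¹ * g⁻¹ * (M.sec z)⁻¹) := by
      unfold np; group
    rw [e]
    refine Bx_mul_half B (fun i => (szh_pos i).le) hδ.le hnp ?_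
    set N : ℕ := ⌈M.C0 * (1 + |A| * s)⌉₊ with hN
    have hNle : (N : ℝ) ≤ M.C0 * (1 + |A| * s) + 1 := (Nat.ceil_lt_add_one (by positivity)).le
    have hN2 : ((⌈M.C0 * (1 + κ₅ * s)⌉₊ : ℕ) : ℝ) ≤ M.C0 * (1 + κ₅ * s) + 1 :=
      (Nat.ceil_lt_add_one (by positivity)).le
    refine h1 h hh (N + ⌈M.C0 * (1 + κ₅ * s)⌉₊ + m + N) ?_ _ ?_ ?_
    · push_cast
      rw [hA']
      have h3 : M.C0 * (1 + |A| * s) ≤ M.C0 * (1 + |A|) * s := by
        have : 0 ≤ M.C0 * |A| := by positivity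
        nlinarith
      have h4 : M.C0 * (1 + κ₅ * s) ≤ M.C0 * (1 + κ₅) * s := by
        have : 0 ≤ M.C0 * κ₅ := by positivity
        nlinarith
      nlinarith
    · refine M.CB_mul (M.CB_mul (M.CB_mul ?_ (M.CB_inv (M.τ_mem_CB (by linarith) hwn))) (M.CB_inv hg))
        (M.CB_inv ?_)
      · refine sec_mem_CB M x (le_trans ?_ (Nat.le_ceil _))
        exact mul_le_mul_of_nonneg_left (by linarith) hC0.le
      · refine sec_mem_CB M z (le_trans ?_ (Nat.le_ceil _))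
        exact mul_le_mul_of_nonneg_left (by linarith) hC0.le
    · rw [map_mul, map_mul, map_mul, map_inv, map_inv, map_inv, hητ, η_sec, η_sec]
      rw [map_mul, map_mul, map_inv, map_inv, η_sec]
      generalize M.η x = X
      generalize M.η g = G
      generalize M.η z = Z
      skip
      group

end Vale.Agent.P188.Z1.RModel.F6
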