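import Vale.Agent.P188.H269.FlatB
import Vale.Agent.P188.H616.M8
import Vale.Agent.P188.H616.M11

/-!
# P188, FLATG in the model: the script
-/

set_option linter.all false

open MeasureTheory Set Filter
open Vale.Agent.P188.H530 (hgt)
open Vale.Agent.P188.H616 (Coord Sec Phi slide Script badR badL)

namespace Vale.Agent.P188.Z1.RModel.F6

variable {S : Type} [Group S] [MeasurableSpace S] {Γ : Type} [Group Γ]
  {V : Type} [AddCommGroup V] [Module ℝ V] {k : ℕ} {M : RModel S Γ V k}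

/-! ### positions -/

theorem Phi_eq (U g z : S) : Phi M.sec U g z * g⁻¹ = np M z * U * M.sec z := by
  unfold Phi np
  group

theorem η_Phi' {U : S} (hU : M.η U = 1) (g z : S) : M.η (Phi M.sec U g z * g⁻¹) = M.η z := by
  rw [Phi_eq, map_mul, map_mul, hU, mul_one]
  unfold np
  rw [map_mul, map_inv]
  group

theorem np_Phi' {U : S} (hU : M.η U = 1) (g z : S) :
    np M (Phi M.sec U g z * g⁻¹) = np M z * U := by
  have h1 := sec_congr M (η_Phi' (g := g) hU z)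
  have h2 := Phi_eq (M := M) U g z
  unfold np at h2 ⊢
  rw [h1, h2]
  group

theorem θ_Phi' {U : S} (hU : M.η U = 1) (g z : S) :
    M.θ (Phi M.sec U g z * g⁻¹) = M.θ z := M.θ_of_η (η_Phi' hU g z)

/-- positions of the script -/
theorem Phi_DF (B : M.NatBox) {h : (Ht k →L[ℝ] ℝ) → ℝ} {δ Λ₁ d₁ κ4 s : ℝ} (hδ0 : 0 ≤ δ)
    (hδ : δ ≤ Λ₁) {U : S} (hU : U ∈ B.Bx (fun i => Λ₁ * M.szh h d₁ s i)) {z : S}
    (hz : z ∈ DF B h δ d₁ κ4 s 1) (g : S) : Phi M.sec U g z ∈ DF B h (B.C * Λ₁) d₁ κ4 s g := by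
  have hη := B.sub _ _ hU
  obtain ⟨h1, h2⟩ := hz
  rw [inv_one, mul_one] at h1 h2
  refine ⟨?_, ?_⟩
  · rw [np_Phi' hη]
    have hpos : ∀ i, 0 < M.szh h d₁ s i := szh_pos
    have h3 := Bx_mul B (R := fun i => Λ₁ * M.szh h d₁ s i)
      (fun i => mul_nonneg hδ0 (hpos i).le)
      (fun i => mul_nonneg (hδ0.trans hδ) (hpos i).le)
      (fun i => mul_le_mul_of_nonneg_right hδ (hpos i).le) (fun i => le_rfl) h1 hU
    have e : (fun i => B.C * Λ₁ * M.szh h d₁ s i) = fun i => B.C * (Λ₁ * M.szh h d₁ s i) := by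
      funext i; ring
    rw [e]; exact h3
  · rw [θ_Phi' hη]
    exact h2

/-- the letters of the script -/
def LtS (B : M.NatBox) (h : (Ht k →L[ℝ] ℝ) → ℝ) (d₁ s : ℝ) (i : M.ι) : Set S :=
  {u | ∃ x : ℝ, |x| ≤ B.C * M.szh h d₁ s i ∧ u = M.ex (x • M.X i)}

/-- monotonicity of the bad sets -/
theorem badR_mono {Λ : Type*} (σ : S → Λ) (f : S → Ht k) (T : Λ → Ht k →+ Ht k) (θ : S → Ht k)
    (g : S) {a b : ℝ} (h : a ≤ b) : badR σ f T θ g b ⊆ badR σ f T θ g a := by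
  rintro z hz
  rcases hz with h1 | h1
  · exact Or.inl h1
  · exact Or.inr (lt_of_le_of_lt h h1)

/-- **neutral letters in the script** -/
theorem neutral_letter {Λ : Type*} {σ : S → Λ} {T : Λ → Ht k →L[ℝ] Ht k} {f : S → Ht k}
    {D : Set S} {A ε κ dm s : ℝ} (hSt : StrSc M σ T f D A ε κ dm s) (B : M.NatBox)
    {h : (Ht k →L[ℝ] ℝ) → ℝ} {d₁ κ4 Λm : ℝ} (hΛm : B.C ≤ Λm)
    (hIn : ∀ z, np M z ∈ B.Bx (fun i => B.C * Λm * M.szh h d₁ s i) → ‖M.θ z‖ ≤ κ4 * s →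
      z ∈ M.In (κ * s) D)
    {i : M.ι} (hi : M.wt i = 0) {x : ℝ} (hx : |x| ≤ B.C * M.szh h d₁ s i)
    (hAd : ∀ z, ‖M.θ z‖ ≤ κ4 * s → M.nm (M.Ad (M.sec z)⁻¹ (x • M.X i)) ≤ Real.exp (dm * s)) :
    M.μ (DF B h Λm d₁ κ4 s 1 ∩ badL σ f (slide M.sec (M.ex (x • M.X i)) 1) (ε * s)) ≤
      ENNReal.ofReal ε * M.μ D := by
  classical
  set y : Multiplicative (Fin k → ℤ) → V := fun w =>
    if M.nm (M.Ad (M.τ (Multiplicative.toAdd w))⁻¹ (x • M.X i)) ≤ Real.exp (dm * s) then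
      M.Ad (M.τ (Multiplicative.toAdd w))⁻¹ (x • M.X i) else 0 with hy
  have hXi : x • M.X i ∈ M.Vw 0 := by
    refine Submodule.smul_mem _ _ ?_
    have := M.X_mem i
    rwa [hi] at this
  have hy0 : ∀ w, y w ∈ M.Vw 0 ∧ M.nm (y w) ≤ Real.exp (dm * s) := by
    intro w
    simp only [hy]
    split_ifs with h1
    · exact ⟨M.Ad_CB (M.CB_inv (M.τ_CB _)) hXi, h1⟩
    · refine ⟨Submodule.zero_mem _, ?_⟩
      rw [map_zero]
      exact (Real.exp_pos _).le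
  have hyz : ∀ z, ‖M.θ z‖ ≤ κ4 * s → y (M.η z) = M.Ad (M.sec z)⁻¹ (x • M.X i) := by
    intro z hz
    simp only [hy]
    rw [if_pos]
    · rfl
    · exact hAd z hz
  have hmv : ∀ z, ‖M.θ z‖ ≤ κ4 * s → ∀ r : ℝ, z * M.ex (r • y (M.η z)) =
      slide M.sec (M.ex ((r * x) • M.X i)) 1 z := by
    intro z hz r
    rw [hyz z hz, ← map_smul, smul_smul, M.ex_Ad]
    unfold slide
    simp only [inv_one, mul_one, inv_inv]
  have hmain := hSt.neut y hy0 (DF B h Λm d₁ κ4 s 1) (by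
    rintro z ⟨h1, h2⟩ r hr0 hr1
    rw [inv_one, mul_one] at h1 h2
    rw [hmv z h2 r]
    have hu : M.ex ((r * x) • M.X i) ∈ B.Bx fun i => Λm * M.szh h d₁ s i := by
      refine B.letter _ (fun j => ?_) i _ ?_
      · exact mul_nonneg ((zero_le_one.trans B.one_le).trans hΛm) (szh_pos (M := M) j).le
      · rw [abs_mul, abs_of_nonneg hr0]
        have h3 : r * |x| ≤ 1 * |x| := mul_le_mul_of_nonneg_right hr1 (abs_nonneg x)
        have h4 : B.C * M.szh h d₁ s i ≤ Λm * M.szh h d₁ s i :=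
          mul_le_mul_of_nonneg_right hΛm (szh_pos (M := M) i).le
        linarith
    have hΛ0 : 0 ≤ Λm := (zero_le_one.trans B.one_le).trans hΛm
    have h5 := slide_DF B (κ4 := κ4) (g := 1) hΛ0 hu (z := z) ⟨by rwa [inv_one, mul_one], by
      rwa [inv_one, mul_one]⟩
    obtain ⟨h6, h7⟩ := h5
    rw [inv_one, mul_one] at h6 h7
    exact hIn _ h6 h7)
  refine le_trans (measure_mono ?_) hmain
  rintro z ⟨hz, hz2⟩
  refine ⟨hz, ?_⟩
  have h2 : ‖M.θ z‖ ≤ κ4 * s := by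
    have := hz.2
    rwa [inv_one, mul_one] at this
  have h3 := hmv z h2 1
  rw [one_smul, one_mul] at h3
  rw [h3]
  exact hz2

/-- **the script in the model** -/
theorem script {Λ : Type*} {σ : S → Λ} {T : Λ → Ht k →L[ℝ] Ht k} {f : S → Ht k}
    {D : Set S} {A ε κ dm s : ℝ} (hSt : StrSc M σ T f D A ε κ dm s) (B : M.NatBox)
    {h : (Ht k →L[ℝ] ℝ) → ℝ} {d₁ κ4 δ Λ₁ η θ : ℝ} (hs : 0 ≤ s) (hδ0 : 0 ≤ δ) (hδ : δ ≤ Λ₁)
    (hΛ₁ : 1 ≤ Λ₁) (hεη : ε ≤ η) (hεθ : ε ≤ θ)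
    {g : M.ι → S} (hg0 : ∀ i, M.wt i = 0 → g i = 1)
    (hpath : ∀ i, ∃ (n : ℕ) (q : ℕ → S), (n : ℝ) ≤ A * s ∧ q 0 = 1 ∧
      (∀ j < n, (q j)⁻¹ * q (j + 1) ∈ M.CB 1) ∧ q n = g i ∧
      ∀ z, np M z ∈ B.Bx (fun i => B.C * Λ₁ * M.szh h d₁ s i) → ‖M.θ z‖ ≤ κ4 * s →
        ∀ j ≤ n, z * q j ∈ M.In (κ * s) D)
    (hIn : ∀ z, np M z ∈ B.Bx (fun i => B.C * (B.C * Λ₁) * M.szh h d₁ s i) → ‖M.θ z‖ ≤ κ4 * s →
      z ∈ M.In (κ * s) D)
    (hAd : ∀ i, M.wt i = 0 → ∀ x : ℝ, |x| ≤ B.C * M.szh h d₁ s i → ∀ z, ‖M.θ z‖ ≤ κ4 * s →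
      M.nm (M.Ad (M.sec z)⁻¹ (x • M.X i)) ≤ Real.exp (dm * s))
    (hNF : ∀ i, M.wt i ≠ 0 → ∀ x : ℝ, |x| ≤ B.C * M.szh h d₁ s i →
      M.μ (DF B h (B.C * Λ₁) d₁ κ4 s (g i) ∩
        badL σ f (slide M.sec (M.ex (x • M.X i)) (g i)) (η * s)) ≤ ENNReal.ofReal θ * M.μ D) :
    Script M.μ M.η.ker M.sec σ f (Ta T) M.θ g (LtS B h d₁ s) (DF B h δ d₁ κ4 s 1)
      (DF B h (B.C * Λ₁) d₁ κ4 s 1) (fun i => DF B h (B.C * Λ₁) d₁ κ4 s (g i))
      (B.Bx fun i => Λ₁ * M.szh h d₁ s i) (η * s) (ENNReal.ofReal θ * M.μ D) where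
  sec := isSec M
  mp u hu g A := mp_le M (Phi_mp M ((MonoidHom.mem_ker).1 hu) g) A
  θ_mul := M.θ_mul
  LtE i := by
    rintro u ⟨x, _, rfl⟩
    exact (MonoidHom.mem_ker).2 (M.η_ex _)
  PEE := fun u hu => (MonoidHom.mem_ker).2 (B.sub _ _ hu)
  inDm z hz U hU := Phi_DF B hδ0 hδ hU hz 1
  inDs z hz U hU i := Phi_DF B hδ0 hδ hU hz (g i)
  go i := by
    obtain ⟨n, q, hn, q0, qs, qn, hq⟩ := hpath i
    have h1 := hSt.go hn q0 qs (Dm := DF B h (B.C * Λ₁) d₁ κ4 s 1) (by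
      rintro z ⟨h1, h2⟩ j hj
      rw [inv_one, mul_one] at h1 h2
      exact hq z h1 h2 j hj)
    rw [qn] at h1
    refine le_trans (measure_mono (inter_subset_inter_right _ (badR_mono σ f _ _ _
      (mul_le_mul_of_nonneg_right hεη hs)))) (h1.trans ?_)
    exact mul_le_mul_left (ENNReal.ofReal_le_ofReal hεθ) _
  back i := by
    obtain ⟨n, q, hn, q0, qs, qn, hq⟩ := hpath i
    have h1 := hSt.back hn q0 qs (Dm := DF B h (B.C * Λ₁) d₁ κ4 s (g i)) (by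
      rintro z ⟨h1, h2⟩ j hj
      rw [qn]
      exact hq _ h1 h2 j hj)
    rw [qn] at h1
    refine le_trans (measure_mono (inter_subset_inter_right _ (badR_mono σ f _ _ _
      (mul_le_mul_of_nonneg_right hεη hs)))) (h1.trans ?_)
    exact mul_le_mul_left (ENNReal.ofReal_le_ofReal hεθ) _
  nofold i := by
    rintro u ⟨x, hx, rfl⟩
    by_cases hi : M.wt i = 0
    · have hΛm : B.C ≤ B.C * Λ₁ := le_mul_of_one_le_right (zero_le_one.trans B.one_le) hΛ₁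
      have h1 := neutral_letter hSt B hΛm hIn hi hx (hAd i hi x hx)
      simp only [hg0 i hi]
      refine le_trans (measure_mono (inter_subset_inter_right _ ?_)) (h1.trans
        (mul_le_mul_left (ENNReal.ofReal_le_ofReal hεθ) _))
      rintro z hz
      rcases hz with h2 | h2
      · exact Or.inl h2
      · exact Or.inr (lt_of_le_of_lt (mul_le_mul_of_nonneg_right hεη hs) h2)
    · exact hNF i hi x hx

/-- sizes of the neutral letters at the positions -/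
theorem ev_hAd (B : M.NatBox) {d₁ dm A : ℝ} (hd : d₁ < dm) :
    ∀ᶠ s : ℝ in atTop, ∀ h : (Ht k →L[ℝ] ℝ) → ℝ, ∀ i, M.wt i = 0 →
      ∀ x : ℝ, |x| ≤ B.C * M.szh h d₁ s i → ∀ z : S, ‖M.θ z‖ ≤ A * s →
      M.nm (M.Ad (M.sec z)⁻¹ (x • M.X i)) ≤ Real.exp (dm * s) := by
  have hC0 := M.C0_pos
  have hBC := C_pos B
  set A' : ℝ := M.C0 * (1 + |A|) + 1 with hA'
  filter_upwards [ev_polyA (M.C0 * B.C) A' M.deg (a := dm - d₁) (by linarith),
    eventually_ge_atTop (1 : ℝ)] with s h1 hs h i hi x hx z hz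
  have hzA : ‖M.θ z‖ ≤ |A| * s := hz.trans (mul_le_mul_of_nonneg_right (le_abs_self A) (by linarith))
  have hc : M.sec z ∈ M.CB ⌈M.C0 * (1 + |A| * s)⌉₊ := sec_mem_CB M z (le_trans
    (mul_le_mul_of_nonneg_left (by linarith) hC0.le) (Nat.le_ceil _))
  have hXi : x • M.X i ∈ M.Vw 0 := by
    refine Submodule.smul_mem _ _ ?_
    have := M.X_mem i
    rwa [hi] at this
  have h2 := M.C_le _ _ (M.CB_inv hc) 0 M.zero_mem_Wt _ hXi
  refine h2.trans ?_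
  rw [ContinuousLinearMap.zero_apply, Real.exp_zero, mul_one]
  have h3 : M.nm (x • M.X i) ≤ B.C * Real.exp (d₁ * s) := by
    rw [map_smul_eq_mul, Real.norm_eq_abs]
    rw [szh_zero hi] at hx
    have h4 := M.X_le i
    have h5 := apply_nonneg M.nm (M.X i)
    calc |x| * M.nm (M.X i) ≤ (B.C * Real.exp (d₁ * s)) * 1 :=
          mul_le_mul hx h4 h5 (by positivity)
      _ = _ := mul_one _
  have hn : ((⌈M.C0 * (1 + |A| * s)⌉₊ : ℕ) : ℝ) ≤ A' * s := by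
    refine (Nat.ceil_lt_add_one (by positivity)).le.trans ?_
    rw [hA']
    have : 0 ≤ M.C0 * |A| := by positivity
    nlinarith
  calc M.C0 * (1 + ((⌈M.C0 * (1 + |A| * s)⌉₊ : ℕ) : ℝ)) ^ M.deg * M.nm (x • M.X i)
      ≤ M.C0 * (1 + A' * s) ^ M.deg * (B.C * Real.exp (d₁ * s)) := by
        have : (0 : ℝ) ≤ ((⌈M.C0 * (1 + |A| * s)⌉₊ : ℕ) : ℝ) := Nat.cast_nonneg _
        gcongr
    _ = (M.C0 * B.C * (1 + A' * s) ^ M.deg) * Real.exp (d₁ * s) := by ring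
    _ ≤ Real.exp ((dm - d₁) * s) * Real.exp (d₁ * s) :=
        mul_le_mul_of_nonneg_right h1 (Real.exp_pos _).le
    _ = Real.exp (dm * s) := by
        rw [← Real.exp_add]; congr 1; ring

/-- **the script in the model**, form with a family of paths (530) -/
theorem script' {Λ : Type*} {σ : S → Λ} {T : Λ → Ht k →L[ℝ] Ht k} {f : S → Ht k}
    {D : Set S} {A ε κS dm s : ℝ} (hSt : StrSc M σ T f D A ε κS dm s) (B : M.NatBox)
    {h : (Ht k →L[ℝ] ℝ) → ℝ} {d₁ κ4 δ Λ₁ η : ℝ} {e : ENNReal} (hs : 0 ≤ s) (hδ0 : 0 ≤ δ)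
    (hδ : δ ≤ Λ₁) (hΛ₁ : 1 ≤ Λ₁) (hεη : ε ≤ η) (hεe : ENNReal.ofReal ε * M.μ D ≤ e)
    {q : M.ι → ℕ → S} {nn : ℕ} (hnn : (nn : ℝ) ≤ A * s) (hq0 : ∀ i, q i 0 = 1)
    (hqs : ∀ i, ∀ j < nn, (q i j)⁻¹ * q i (j + 1) ∈ M.CB 1)
    (hg0 : ∀ i, M.wt i = 0 → q i nn = 1)
    (hpos : ∀ z, np M z ∈ B.Bx (fun i => B.C * (B.C * Λ₁) * M.szh h d₁ s i) →
      ‖M.θ z‖ ≤ κ4 * s → ∀ i, ∀ j ≤ nn, z * q i j ∈ M.In (κS * s) D)
    (hAd : ∀ i, M.wt i = 0 → ∀ x : ℝ, |x| ≤ B.C * M.szh h d₁ s i → ∀ z, ‖M.θ z‖ ≤ κ4 * s →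
      M.nm (M.Ad (M.sec z)⁻¹ (x • M.X i)) ≤ Real.exp (dm * s))
    (hNF : ∀ i, M.wt i ≠ 0 → ∀ x : ℝ, |x| ≤ B.C * M.szh h d₁ s i →
      M.μ (DF B h (B.C * Λ₁) d₁ κ4 s (q i nn) ∩
        badL σ f (slide M.sec (M.ex (x • M.X i)) (q i nn)) (η * s)) ≤ e) :
    Script M.μ M.η.ker M.sec σ f (Ta T) M.θ (fun i => q i nn) (LtS B h d₁ s)
      (DF B h δ d₁ κ4 s 1)
      (DF B h (B.C * Λ₁) d₁ κ4 s 1) (fun i => DF B h (B.C * Λ₁) d₁ κ4 s (q i nn))
      (B.Bx fun i => Λ₁ * M.szh h d₁ s i) (η * s) e := by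
  have hpos1 : ∀ z, np M z ∈ B.Bx (fun i => B.C * Λ₁ * M.szh h d₁ s i) →
      ‖M.θ z‖ ≤ κ4 * s → ∀ i, ∀ j ≤ nn, z * q i j ∈ M.In (κS * s) D := by
    intro z hz
    refine hpos z (B.mono _ _ (fun i => ?_) (fun i => ?_) hz)
    · have := szh_pos (M := M) (h := h) (d₁ := d₁) (s := s) i
      have := B.one_le
      positivity
    · have h1 := szh_pos (M := M) (h := h) (d₁ := d₁) (s := s) i
      have h2 := B.one_le
      refine mul_le_mul_of_nonneg_right ?_ h1.le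
      exact le_mul_of_one_le_left (by positivity) h2
  exact {
    sec := isSec M
    mp := fun u hu g A => mp_le M (Phi_mp M ((MonoidHom.mem_ker).1 hu) g) A
    θ_mul := M.θ_mul
    LtE := by
      rintro i u ⟨x, _, rfl⟩
      exact (MonoidHom.mem_ker).2 (M.η_ex _)
    PEE := fun u hu => (MonoidHom.mem_ker).2 (B.sub _ _ hu)
    inDm := fun z hz U hU => Phi_DF B hδ0 hδ hU hz 1
    inDs := fun z hz U hU i => Phi_DF B hδ0 hδ hU hz (q i nn)
    go := by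
      intro i
      have h1 := hSt.go hnn (hq0 i) (hqs i) (Dm := DF B h (B.C * Λ₁) d₁ κ4 s 1) (by
        rintro z ⟨h1, h2⟩ j hj
        rw [inv_one, mul_one] at h1 h2
        exact hpos1 z h1 h2 i j hj)
      exact (measure_mono (inter_subset_inter_right _ (badR_mono σ f _ _ _
        (mul_le_mul_of_nonneg_right hεη hs)))).trans (h1.trans hεe)
    back := by
      intro i
      have h1 := hSt.back hnn (hq0 i) (hqs i) (Dm := DF B h (B.C * Λ₁) d₁ κ4 s (q i nn)) (by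
        rintro z ⟨h1, h2⟩ j hj
        exact hpos1 _ h1 h2 i j hj)
      exact (measure_mono (inter_subset_inter_right _ (badR_mono σ f _ _ _
        (mul_le_mul_of_nonneg_right hεη hs)))).trans (h1.trans hεe)
    nofold := by
      rintro i u ⟨x, hx, rfl⟩
      by_cases hi : M.wt i = 0
      · have hΛm : B.C ≤ B.C * Λ₁ := le_mul_of_one_le_right (zero_le_one.trans B.one_le) hΛ₁
        have h1 := neutral_letter hSt B (κ4 := κ4) hΛm (by
          intro z hz1 hz2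
          have := hpos z hz1 hz2 i 0 (Nat.zero_le _)
          rwa [hq0, mul_one] at this) hi hx (hAd i hi x hx)
        simp only [hg0 i hi]
        refine le_trans (measure_mono (inter_subset_inter_right _ ?_)) (h1.trans hεe)
        rintro z hz
        rcases hz with h2 | h2
        · exact Or.inl h2
        · exact Or.inr (lt_of_le_of_lt (mul_le_mul_of_nonneg_right hεη hs) h2)
      · exact hNF i hi x hx }

end Vale.Agent.P188.Z1.RModel.F6
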