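import Vale.Agent.P188.H616.M4

/-!
# P188, NOFOLD in the model: the statement
-/

set_option linter.all false

open MeasureTheory Set
open Vale.Agent.P188.H530 (hgt)
open Vale.Agent.P188.H616 (StrAt)

namespace Vale.Agent.P188.Z1.RModel

variable {S : Type} [Group S] [MeasurableSpace S] {Γ : Type} [Group Γ]
  {V : Type} [AddCommGroup V] [Module ℝ V] {k : ℕ} (M : RModel S Γ V k)

/-- **NOFOLD in the model** (530): for a class-dependent move `z ↦ z * ex (y (η z))`, `y w ∈ Vw b`,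
which merges (up to `ε s`) along all directions `v` with `0 < b v` at time `m v`, the labels and
the values of `f` agree at most straight points. -/
def NOFOLDM : Prop := ∀ (K : ℝ) (Φ₁ : Finset (Ht k →L[ℝ] ℝ)), M.Rays Φ₁ →
  ∀ V₁ : Finset (Fin k → ℤ), M.Dirs Φ₁ V₁ → ∀ c₀ L : ℝ, 0 < c₀ →
  ∀ ν A κq η : ℝ, 0 < ν → 0 < A → 0 < κq → 0 < η → ∃ ε : ℝ, 0 < ε ∧
  ∀ Cq θ : ℝ, 0 < θ → ∃ s₀ : ℝ, ∀ s : ℝ, s₀ ≤ s →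
  ∀ F F' : Γ → Γ, M.QIm K F F' →
  ∀ (T : (V₁ → Set (Ht k →L[ℝ] ℝ)) → (Ht k →L[ℝ] Ht k)) (σ : S → V₁ → Set (Ht k →L[ℝ] ℝ)),
  (∀ a, MeasurableSet {z | σ z = a}) → (∀ z, GoodLab Φ₁ V₁ c₀ L (T (σ z)) (σ z)) →
  ∀ b ∈ M.Φ, ∀ m : V₁ → ℕ, (∀ v, ν * s ≤ m v ∧ (m v : ℝ) ≤ A * s) →
  ∀ y : Multiplicative (Fin k → ℤ) → V, (∀ w, y w ∈ M.Vw b) →
  (∀ w, ∀ v : V₁, 0 < b (ht (v : Fin k → ℤ)) →
    M.nm (y w) ≤ Real.exp (m v * b (ht (v : Fin k → ℤ)) + ε * s)) →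
  ∀ D Dq : Set S, MeasurableSet D → MeasurableSet Dq → M.μ D ≠ 0 → M.μ D ≠ ⊤ →
  M.μ Dq ≤ ENNReal.ofReal Cq * M.μ D →
  (∀ z ∈ D, ∀ g, (M.l g : ℝ) ≤ κq * s → z * g ∈ Dq) →
  (∀ z ∈ D, ∀ v : V₁, 0 < b (ht (v : Fin k → ℤ)) → ∀ i, M.wt i ≠ 0 →
    ∀ x : ℝ, |x| ≤ Real.exp (m v * |M.wt i (ht (v : Fin k → ℤ))|) → z * M.ex (x • M.X i) ∈ Dq) →
  M.μ {z | z ∈ D ∧ z * M.ex (y (M.η z)) ∈ D ∧
    (∀ v : V₁, 0 < b (ht (v : Fin k → ℤ)) →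
      StrAt (M.f F) σ (fun a => (T a : Ht k →ₗ[ℝ] Ht k)) (M.τ v) (ht (v : Fin k → ℤ)) (m v) (ε * s) z ∧
      StrAt (M.f F) σ (fun a => (T a : Ht k →ₗ[ℝ] Ht k)) (M.τ v) (ht (v : Fin k → ℤ)) (m v) (ε * s)
        (z * M.ex (y (M.η z)))) ∧
    (σ (z * M.ex (y (M.η z))) ≠ σ z ∨ η * s < ‖M.f F (z * M.ex (y (M.η z))) - M.f F z‖)} ≤
    ENNReal.ofReal θ * M.μ D

end Vale.Agent.P188.Z1.RModel
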