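import Vale.Agent.P188.H269.Ideal

/-!
Generation of the ideal by contracted directions.
-/

namespace Vale.Agent.P188.H269

open Module
open scoped commutatorElement

universe u v

section cn

variable {V : Type v} [AddCommGroup V] [Module ℝ V]

/-- vectors contracted exponentially by `T` -/
def Cn (T : Module.End ℝ V) : Submodule ℝ V where
  carrier := {x | ∃ r < 0, x ∈ Gr T r}
  zero_mem' := ⟨-1, by norm_num, Submodule.zero_mem _⟩
  add_mem' := by
    rintro a b ⟨r, hr, ha⟩ ⟨s, hs, hb⟩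
    exact ⟨max r s, max_lt hr hs,
      Submodule.add_mem _ (Gr_mono (le_max_left _ _) ha) (Gr_mono (le_max_right _ _) hb)⟩
  smul_mem' := by
    rintro c a ⟨r, hr, ha⟩
    exact ⟨r, hr, Submodule.smul_mem _ c ha⟩

theorem mem_Cn {T : Module.End ℝ V} {x : V} : x ∈ Cn T ↔ ∃ r < 0, x ∈ Gr T r := Iff.rfl

end cn

section gen

variable {G : Type u} [Group G]
variable {V : Type v} [LieRing V] [LieAlgebra ℝ V] [FiniteDimensional ℝ V]
variable {N : Subgroup G} [hNn : N.Normal] {ρ : G →* Module.End ℝ V}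

/-- `t` separates the weights -/
def Sep (ρ : G →* Module.End ℝ V) (t : G) : Prop :=
  (∀ b ∈ Wts ρ ⊤, b t = 0 → b = 0) ∧ ∀ b ∈ Wts ρ ⊤, ∀ b' ∈ Wts ρ ⊤, b t = b' t → b = b'

theorem LRep.exists_sep (H : LRep N ρ) : ∃ t : G, Sep ρ t := exists_sep_Wts H.comm ρ H.unipOn

omit hNn in
/-- eigenfunctionals killing the ideal have modulus one -/
theorem LRep.log_zero {t : G} (hs : Sep ρ t) {A : Submodule ℝ V} {l : V →ₗ[ℝ] ℂ} {χ : G → ℂ}
    (hl : EigOn ρ A l χ) (he : ∀ x ∈ eId ρ t, l x = 0) (g : G) : Real.log ‖χ g‖ = 0 := by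
  obtain ⟨x, hx, hx0⟩ := hl.ne
  obtain ⟨y, hyA, hy, hly⟩ := hl.exists_comp t hx hx0
  have h0 : Real.log ‖χ t‖ = 0 := by
    by_contra hne
    apply hx0
    rw [← hly]
    exact he y (Wt_le_eI hne hy)
  have h1 := hs.1 (fun g => Real.log ‖χ g‖) ⟨A, le_top, l, χ, hl, fun _ => rfl⟩ h0
  exact congrFun h1 g

/-- every contracted vector lies in the ideal -/
theorem LRep.Cn_le (H : LRep N ρ) {t : G} (hs : Sep ρ t) (g : G) :
    Cn (ρ g) ≤ (eId ρ t).toSubmodule := by
  have key : ∀ (n : ℕ) (A : Submodule ℝ V), finrank ℝ A = n → (∀ g, ∀ x ∈ A, ρ g x ∈ A) →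
      (eId ρ t).toSubmodule ≤ A → ∀ x ∈ A, ∀ r < 0, x ∈ Gr (ρ g) r → x ∈ eId ρ t := by
    intro n
    induction n using Nat.strong_induction_on with
    | _ n ih =>
    intro A hn hA heA x hx r hr hxr
    rcases heA.eq_or_lt with heq | hlt
    · rw [← heq] at hx; exact hx
    · obtain ⟨l, χ, hl, hl0⟩ := exists_eigOn H.comm ρ H.unipOn A _ hA (H.eId_inv t) hlt
      have hlx : l x = 0 := by
        by_contra hne
        have h1 := hl.log_le hx hxr hne
        rw [LRep.log_zero hs hl hl0] at h1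
        linarith
      refine ih _ (hn ▸ Submodule.finrank_lt_finrank_of_lt hl.ker_lt)
        (A ⊓ LinearMap.ker l) rfl hl.ker_inv ?_ x ⟨hx, hlx⟩ r hr hxr
      exact le_inf heA fun y hy => hl0 y hy
  rintro x ⟨r, hr, hxr⟩
  exact key _ ⊤ rfl (fun _ _ _ => trivial) le_top x trivial r hr hxr

/-- a non-neutral modulus of `t` seen on `V / [V, V]` is the modulus of an eigenfunctional -/
theorem LRep.exists_char (H : LRep N ρ) (t : G) {r : ℝ}
    (hr : ¬ Wt (ρ t) (ρ t⁻¹) r ≤ (⁅(⊤ : LieIdeal ℝ V), (⊤ : LieIdeal ℝ V)⁆ :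
      LieIdeal ℝ V).toSubmodule) :
    ∃ (l : V →ₗ[ℝ] ℂ) (χ : G → ℂ), EigOn ρ ⊤ l χ ∧ (∀ x y : V, l ⁅x, y⁆ = 0) ∧
      Real.log ‖χ t‖ = r := by
  classical
  set D : LieIdeal ℝ V := ⁅(⊤ : LieIdeal ℝ V), (⊤ : LieIdeal ℝ V)⁆ with hD
  have hDinv : ∀ g, ∀ x ∈ D.toSubmodule, ρ g x ∈ D.toSubmodule := fun g =>
    lie_inv (I := ⊤) (J := ⊤) (H.lie g) (fun x _ => LieSubmodule.mem_top _)
      (fun x _ => LieSubmodule.mem_top _)
  let Q := V ⧸ D.toSubmodule
  let σ : G →* Module.End ℝ Q :=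
    { toFun := fun g => D.toSubmodule.mapQ D.toSubmodule (ρ g) (hDinv g)
      map_one' := by
        apply Submodule.linearMap_qext
        ext x; simp
      map_mul' := by
        intro a b
        apply Submodule.linearMap_qext
        ext x; simp }
  have hσ : ∀ g x, σ g (D.toSubmodule.mkQ x) = D.toSubmodule.mkQ (ρ g x) := fun g x => rfl
  have hNtriv : ∀ n ∈ N, ∀ x, σ n x = x := by
    intro n hn x
    obtain ⟨x, rfl⟩ := D.toSubmodule.mkQ_surjective x
    rw [hσ, ← sub_eq_zero, ← map_sub]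
    exact (Submodule.Quotient.mk_eq_zero _).2 (H.unip n hn ⊤ x (LieSubmodule.mem_top x))
  have hσc : ∀ a b x, σ a (σ b x) = σ b (σ a x) := by
    intro a b x
    have h1 : a * b = b * a * ⁅a⁻¹, b⁻¹⁆ := by rw [commutatorElement_def]; group
    rw [← Module.End.mul_apply, ← map_mul, h1, map_mul σ (b * a), Module.End.mul_apply,
      hNtriv _ (H.comm _ _), map_mul, Module.End.mul_apply]
  have hU : UnipOn N σ := by
    refine ⟨fun j => if j = 0 then ⊤ else ⊥, 1, by simp, by simp, ?_⟩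
    intro n hn j x _
    rw [hNtriv n hn, sub_self]; exact Submodule.zero_mem _
  -- the sum of the other modulus spaces
  let p : ℝ → Submodule ℝ Q := fun s => if s = r then ⊥ else Wt (σ t) (σ t⁻¹) s
  have hp : ∀ s, p s ≤ Wt (σ t) (σ t⁻¹) s := by
    intro s
    by_cases hs : s = r
    · simp only [p, if_pos hs]; exact bot_le
    · simp only [p, if_neg hs]; exact le_rfl
  have hB : ∀ g, ∀ x ∈ (⨆ s, p s : Submodule ℝ Q), σ g x ∈ (⨆ s, p s : Submodule ℝ Q) := by
    intro g x hx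
    refine Submodule.iSup_induction p (motive := fun x => σ g x ∈ (⨆ s, p s : Submodule ℝ Q)) hx
      ?_ ?_ ?_
    · intro s z hz
      refine Submodule.mem_iSup_of_mem s ?_
      by_cases hs : s = r
      · simp only [p, if_pos hs] at hz ⊢
        rw [Submodule.mem_bot] at hz ⊢
        rw [hz, map_zero]
      · simp only [p, if_neg hs] at hz ⊢
        exact Wt_map (σ g) (fun y => hσc _ _ _) (fun y => hσc _ _ _) hz
    · rw [map_zero]; exact Submodule.zero_mem _
    · intro a b ha hb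
      rw [map_add]; exact Submodule.add_mem _ ha hb
  have hBt : (⨆ s, p s : Submodule ℝ Q) ≠ ⊤ := by
    intro htop
    apply hr
    intro y hy
    have h1 : D.toSubmodule.mkQ y ∈ Wt (σ t) (σ t⁻¹) r :=
      Wt_map D.toSubmodule.mkQ (fun _ => rfl) (fun _ => rfl) hy
    have h2 : D.toSubmodule.mkQ y ∈ p r :=
      Wt_inf_iSup (rho_inv_mul σ t) p hp h1 (by rw [htop]; trivial)
    simp only [p, if_true] at h2
    exact (Submodule.Quotient.mk_eq_zero _).1 ((Submodule.mem_bot ℝ).1 h2)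
  obtain ⟨l', χ, hl'0, hl'B, hχ⟩ := exists_eigenfunctional H.comm σ hU _ hB hBt
  have hne : ∃ z, l' z ≠ 0 := by
    by_contra hcon
    push Not at hcon
    exact hl'0 (LinearMap.ext hcon)
  have hEig' : EigOn σ ⊤ l' χ := by
    refine ⟨fun _ _ _ => trivial, ?_, fun g x _ => hχ g x⟩
    obtain ⟨z, hz⟩ := hne
    exact ⟨z, trivial, hz⟩
  refine ⟨l' ∘ₗ D.toSubmodule.mkQ, χ, ⟨fun _ _ _ => trivial, ?_, ?_⟩, ?_, ?_⟩
  · obtain ⟨z, hz⟩ := hne
    obtain ⟨z, rfl⟩ := D.toSubmodule.mkQ_surjective z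
    exact ⟨z, trivial, hz⟩
  · intro g x _
    exact hχ g (D.toSubmodule.mkQ x)
  · intro x y
    have h1 : D.toSubmodule.mkQ ⁅x, y⁆ = 0 := (Submodule.Quotient.mk_eq_zero _).2
      (LieSubmodule.lie_mem_lie (LieSubmodule.mem_top x) (LieSubmodule.mem_top y))
    rw [LinearMap.comp_apply, h1, map_zero]
  · obtain ⟨z, hz⟩ := hne
    obtain ⟨y, _, hy, hly⟩ := hEig'.exists_comp t (x := z) trivial hz
    by_contra hcon
    apply hz
    rw [← hly]
    refine hl'B y (Submodule.mem_iSup_of_mem (Real.log ‖χ t‖) ?_)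
    simp only [p, if_neg hcon]
    exact hy

/-- the subalgebra generated by the directions contracted by the inverses of the elements of `F` -/
def PF (ρ : G →* Module.End ℝ V) (F : Set G) : LieSubalgebra ℝ V :=
  LieSubalgebra.lieSpan ℝ V (⋃ g ∈ F, (Cn (ρ g⁻¹) : Set V))

theorem LRep.PF_le (H : LRep N ρ) {t : G} (hs : Sep ρ t) (F : Set G) :
    ∀ x ∈ PF ρ F, x ∈ eId ρ t := by
  let K : LieSubalgebra ℝ V :=
    { (eId ρ t).toSubmodule with lie_mem' := fun {x y} _ hy => (eId ρ t).lie_mem hy }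
  have h1 : PF ρ F ≤ K := by
    unfold PF
    rw [LieSubalgebra.lieSpan_le]
    intro x hx
    simp only [Set.mem_iUnion] at hx
    obtain ⟨g, _, hx⟩ := hx
    exact H.Cn_le hs g⁻¹ hx
  exact fun x hx => h1 hx

/-- the hypothesis on `F` -/
def Covers (ρ : G →* Module.End ℝ V) (F : Set G) : Prop :=
  ∀ (l : V →ₗ[ℝ] ℂ) (χ : G → ℂ), EigOn ρ ⊤ l χ → (∀ x y : V, l ⁅x, y⁆ = 0) →
    (∃ g, ‖χ g‖ ≠ 1) → ∃ g ∈ F, 1 < ‖χ g‖

theorem LRep.le_PF_sup (H : LRep N ρ) {t : G} (hs : Sep ρ t) {F : Set G} (hF : Covers ρ F) :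
    (eId ρ t).toSubmodule ≤ (PF ρ F).toSubmodule ⊔
      (⁅eId ρ t, eId ρ t⁆ : LieIdeal ℝ V).toSubmodule := by
  classical
  set e := eId ρ t with he
  set D : LieIdeal ℝ V := ⁅e, e⁆ with hD
  have h := rho_inv_mul ρ t
  have h' := rho_mul_inv ρ t
  have hDinv : ∀ g, ∀ x ∈ D.toSubmodule, ρ g x ∈ D.toSubmodule := fun g =>
    lie_inv (H.lie g) (H.eId_inv t g) (H.eId_inv t g)
  have key : ∀ (n : ℕ) (A : Submodule ℝ V), finrank ℝ A = n → (∀ g, ∀ x ∈ A, ρ g x ∈ A) →
      D.toSubmodule ≤ A → A ≤ e.toSubmodule → A ≤ (PF ρ F).toSubmodule ⊔ D.toSubmodule := by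
    intro n
    induction n using Nat.strong_induction_on with
    | _ n ih =>
    intro A hn hA hDA hAe
    rcases hDA.eq_or_lt with heq | hlt
    · rw [← heq]; exact le_sup_right
    · obtain ⟨l, χ, hl, hl0⟩ := exists_eigOn H.comm ρ H.unipOn A _ hA hDinv hlt
      have hIH := ih _ (hn ▸ Submodule.finrank_lt_finrank_of_lt hl.ker_lt)
        (A ⊓ LinearMap.ker l) rfl hl.ker_inv (le_inf hDA fun y hy => hl0 y hy)
        (inf_le_left.trans hAe)
      -- the modulus of `χ`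
      obtain ⟨x, hx, hx0⟩ := hl.ne
      obtain ⟨y, hyA, hy, hly⟩ := hl.exists_comp t hx hx0
      have hyD : y ∉ D := by
        intro hyD
        apply hx0
        rw [← hly]
        exact hl0 y hyD
      have hr0 : Real.log ‖χ t‖ ≠ 0 := by
        intro h0
        rw [h0] at hy
        exact hyD (neutral_mem h h' (H.lie t) (H.lie t⁻¹) (hAe hyA) hy)
      have hnot : ¬ Wt (ρ t) (ρ t⁻¹) (Real.log ‖χ t‖) ≤ (⁅(⊤ : LieIdeal ℝ V),
          (⊤ : LieIdeal ℝ V)⁆ : LieIdeal ℝ V).toSubmodule := by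
        intro hle
        exact hyD (Wt_le_derived h h' (H.lie t) (H.lie t⁻¹) H.nil hr0 hle hy)
      obtain ⟨l', χ', hl', hbr, hlog⟩ := H.exists_char t hnot
      have hbb : (fun g => Real.log ‖χ' g‖) = fun g => Real.log ‖χ g‖ :=
        hs.2 _ ⟨⊤, le_top, l', χ', hl', fun _ => rfl⟩ _ ⟨A, le_top, l, χ, hl, fun _ => rfl⟩ hlog
      have hχ't : ‖χ' t‖ ≠ 1 := by
        intro h1
        rw [h1, Real.log_one] at hlog
        exact hr0 hlog.symm
      obtain ⟨g, hgF, hg⟩ := hF l' χ' hl' hbr ⟨t, hχ't⟩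
      have hpos : 0 < Real.log ‖χ g‖ := by
        rw [← congrFun hbb g]
        exact Real.log_pos hg
      intro z hz
      by_cases hlz : l z = 0
      · exact hIH ⟨hz, hlz⟩
      · obtain ⟨w, hwA, hw, hlw⟩ := hl.exists_comp g hz hlz
        have h1 : w ∈ (PF ρ F).toSubmodule := by
          refine LieSubalgebra.subset_lieSpan ?_
          simp only [Set.mem_iUnion]
          exact ⟨g, hgF, -Real.log ‖χ g‖, by linarith, hw.2⟩
        have h2 : z - w ∈ A ⊓ LinearMap.ker l :=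
          ⟨A.sub_mem hz hwA, by
            change l (z - w) = 0
            rw [map_sub, hlw, sub_self]⟩
        have h3 : w + (z - w) ∈ (PF ρ F).toSubmodule ⊔ D.toSubmodule :=
          Submodule.add_mem _ (Submodule.mem_sup_left h1) (hIH h2)
        rwa [add_sub_cancel] at h3
  exact key _ e.toSubmodule rfl (fun g => H.eId_inv t g)
    (LieSubmodule.lie_le_right e e) le_rfl

/-- **Generation.** -/
theorem LRep.mem_PF_iff (H : LRep N ρ) {t : G} (hs : Sep ρ t) {F : Set G} (hF : Covers ρ F)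
    (x : V) : x ∈ PF ρ F ↔ x ∈ eId ρ t := by
  refine ⟨H.PF_le hs F x, ?_⟩
  set e := eId ρ t with he
  set P := PF ρ F with hP
  have hPe : ∀ x ∈ P, x ∈ e := H.PF_le hs F
  have h0 := H.le_PF_sup hs hF
  -- the descending series
  let C : ℕ → LieIdeal ℝ V := fun k => Nat.rec e (fun _ I => ⁅e, I⁆) k
  have hC0 : C 0 = e := rfl
  have hCs : ∀ k, C (k + 1) = ⁅e, C k⁆ := fun k => rfl
  have hClcs : ∀ k, C k ≤ LieModule.lowerCentralSeries ℝ V V k := by
    intro k
    induction k with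
    | zero => rw [LieModule.lowerCentralSeries_zero]; exact le_top
    | succ k ih =>
      rw [hCs, LieModule.lowerCentralSeries_succ]
      exact LieSubmodule.mono_lie le_top ih
  have hCe : ∀ k, C k ≤ e := by
    intro k
    cases k with
    | zero => exact le_rfl
    | succ k => rw [hCs]; exact LieSubmodule.lie_le_left _ _
  have key : ∀ k, e.toSubmodule ≤ P.toSubmodule ⊔ (C k).toSubmodule := by
    intro k
    induction k with
    | zero => rw [hC0]; exact le_sup_right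
    | succ k ih =>
      have h1 : (⁅e, e⁆ : LieIdeal ℝ V).toSubmodule ≤ P.toSubmodule ⊔ (C (k + 1)).toSubmodule := by
        rw [LieSubmodule.lieIdeal_oper_eq_linear_span', Submodule.span_le]
        rintro _ ⟨a, ha, b, hb, rfl⟩
        obtain ⟨p, hp, c, hc, rfl⟩ := Submodule.mem_sup.1 (ih ha)
        obtain ⟨p', hp', c', hc', rfl⟩ := Submodule.mem_sup.1 (ih hb)
        have e1 : ⁅p + c, p' + c'⁆ = ⁅p, p'⁆ + (⁅p, c'⁆ - ⁅p', c⁆ + ⁅c, c'⁆) := by
          rw [add_lie, lie_add, lie_add, ← lie_skew c p']; abel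
        rw [e1]
        refine Submodule.add_mem _ (Submodule.mem_sup_left (P.lie_mem hp hp'))
          (Submodule.mem_sup_right ?_)
        rw [hCs]
        exact add_mem (sub_mem (LieSubmodule.lie_mem_lie (hPe p hp) hc')
          (LieSubmodule.lie_mem_lie (hPe p' hp') hc))
          (LieSubmodule.lie_mem_lie (hCe k hc) hc')
      exact h0.trans (sup_le le_sup_left h1)
  obtain ⟨k, hk⟩ := H.nil.nilpotent ℝ
  intro hx
  have h6 := key k hx
  have h7 : C k = ⊥ := by
    rw [eq_bot_iff, ← hk]; exact hClcs k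
  rw [h7] at h6
  simpa using h6

end gen

end Vale.Agent.P188.H269
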