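import Mathlib

/-!
Growth of orbits of a linear automorphism of a finite dimensional real vector space, in a norm-free
form, and the decomposition of the space according to the moduli of the eigenvalues.
-/

namespace Vale.Agent.P188.H269

open Module

section grow

variable {V : Type*} [AddCommGroup V] [Module ℝ V]
variable {W : Type*} [AddCommGroup W] [Module ℝ W]

/-- exponential comparison -/
theorem le_of_exp_bound {a l r : ℝ} (ha : 0 < a)
    (h : ∀ ε > 0, ∃ C : ℝ, ∀ n : ℕ, a * Real.exp (l * n) ≤ C * Real.exp ((r + ε) * n)) :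
    l ≤ r := by
  by_contra hlt
  push Not at hlt
  obtain ⟨C, hC⟩ := h ((l - r) / 2) (by linarith)
  have hpos : 0 < (l - r) / 2 := by linarith
  have key : ∀ n : ℕ, a * Real.exp ((l - r) / 2 * n) ≤ C := by
    intro n
    have h1 := hC n
    have h2 : Real.exp (l * n) = Real.exp ((l - r) / 2 * n) * Real.exp ((r + (l - r) / 2) * n) := by
      rw [← Real.exp_add]; congr 1; ring
    rw [h2, ← mul_assoc] at h1
    exact le_of_mul_le_mul_right h1 (Real.exp_pos _)
  obtain ⟨n, hn⟩ := exists_nat_gt ((C / a) / ((l - r) / 2))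
  have h3 := key n
  have h4 : (l - r) / 2 * n + 1 ≤ Real.exp ((l - r) / 2 * n) := Real.add_one_le_exp _
  rw [div_lt_iff₀ hpos, div_lt_iff₀ ha] at hn
  nlinarith

/-- vectors whose forward orbit under `T` grows at most like `exp ((r + ε) n)` -/
def Gr (T : Module.End ℝ V) (r : ℝ) : Submodule ℝ V where
  carrier := {x | ∀ φ : V →ₗ[ℝ] ℝ, ∀ ε > 0, ∃ C : ℝ, ∀ n : ℕ,
    |φ ((T ^ n) x)| ≤ C * Real.exp ((r + ε) * n)}
  zero_mem' := by
    intro φ ε _
    exact ⟨0, fun n => by simp⟩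
  add_mem' := by
    intro a b ha hb φ ε hε
    obtain ⟨C, hC⟩ := ha φ ε hε
    obtain ⟨D, hD⟩ := hb φ ε hε
    refine ⟨C + D, fun n => ?_⟩
    rw [map_add, map_add, add_mul]
    exact (abs_add_le _ _).trans (add_le_add (hC n) (hD n))
  smul_mem' := by
    intro c a ha φ ε hε
    obtain ⟨C, hC⟩ := ha φ ε hε
    refine ⟨|c| * C, fun n => ?_⟩
    rw [map_smul, map_smul, smul_eq_mul, abs_mul, mul_assoc]
    exact mul_le_mul_of_nonneg_left (hC n) (abs_nonneg c)

theorem mem_Gr {T : Module.End ℝ V} {r : ℝ} {x : V} : x ∈ Gr T r ↔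
    ∀ φ : V →ₗ[ℝ] ℝ, ∀ ε > 0, ∃ C : ℝ, ∀ n : ℕ,
      |φ ((T ^ n) x)| ≤ C * Real.exp ((r + ε) * n) := Iff.rfl

/-- a bound which holds with a nonnegative constant -/
theorem Gr.bound {T : Module.End ℝ V} {r : ℝ} {x : V} (hx : x ∈ Gr T r) (φ : V →ₗ[ℝ] ℝ) {ε : ℝ}
    (hε : 0 < ε) : ∃ C : ℝ, 0 ≤ C ∧ ∀ n : ℕ, |φ ((T ^ n) x)| ≤ C * Real.exp ((r + ε) * n) := by
  obtain ⟨C, hC⟩ := hx φ ε hε
  refine ⟨C, ?_, hC⟩
  have h0 := hC 0
  have h1 : (0 : ℝ) ≤ C * Real.exp ((r + ε) * (0 : ℕ)) := (abs_nonneg _).trans h0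
  exact nonneg_of_mul_nonneg_left h1 (Real.exp_pos _)

theorem Gr_mono {T : Module.End ℝ V} {r s : ℝ} (h : r ≤ s) : Gr T r ≤ Gr T s := by
  intro x hx φ ε hε
  obtain ⟨C, hC0, hC⟩ := Gr.bound hx φ hε
  refine ⟨C, fun n => (hC n).trans ?_⟩
  apply mul_le_mul_of_nonneg_left _ hC0
  apply Real.exp_le_exp.2
  have : (0 : ℝ) ≤ n := Nat.cast_nonneg n
  nlinarith

theorem pow_comm_map {T : Module.End ℝ V} {S : Module.End ℝ W} (f : V →ₗ[ℝ] W)
    (hf : ∀ x, f (T x) = S (f x)) (n : ℕ) (x : V) : f ((T ^ n) x) = (S ^ n) (f x) := by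
  induction n generalizing x with
  | zero => simp
  | succ n ih => rw [pow_succ, pow_succ, Module.End.mul_apply, Module.End.mul_apply, ih, hf]

theorem Gr_map {T : Module.End ℝ V} {S : Module.End ℝ W} (f : V →ₗ[ℝ] W)
    (hf : ∀ x, f (T x) = S (f x)) {r : ℝ} {x : V} (hx : x ∈ Gr T r) : f x ∈ Gr S r := by
  intro φ ε hε
  obtain ⟨C, hC⟩ := hx (φ ∘ₗ f) ε hε
  refine ⟨C, fun n => ?_⟩
  rw [← pow_comm_map f hf n x]
  exact hC n

/-- the vectors of modulus `exp r` -/
def Wt (T T' : Module.End ℝ V) (r : ℝ) : Submodule ℝ V := Gr T r ⊓ Gr T' (-r)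

theorem Wt_map {T T' : Module.End ℝ V} {S S' : Module.End ℝ W} (f : V →ₗ[ℝ] W)
    (hf : ∀ x, f (T x) = S (f x)) (hf' : ∀ x, f (T' x) = S' (f x)) {r : ℝ} {x : V}
    (hx : x ∈ Wt T T' r) : f x ∈ Wt S S' r :=
  ⟨Gr_map f hf hx.1, Gr_map f hf' hx.2⟩

theorem Wt_symm {T T' : Module.End ℝ V} {r : ℝ} {x : V} (hx : x ∈ Wt T T' r) :
    x ∈ Wt T' T (-r) := ⟨hx.2, by rw [neg_neg]; exact hx.1⟩

theorem pow_mul_pow_eq_one {T T' : Module.End ℝ V} (h : T' * T = 1) (n : ℕ) :
    T' ^ n * T ^ n = 1 := by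
  induction n with
  | zero => simp
  | succ n ih =>
    rw [pow_succ T', pow_succ' T, mul_assoc, ← mul_assoc T' T, h, one_mul, ih]

theorem pow_pow_apply {T T' : Module.End ℝ V} (h : T' * T = 1) (n : ℕ) (x : V) :
    (T' ^ n) ((T ^ n) x) = x := by
  rw [← Module.End.mul_apply, pow_mul_pow_eq_one h, Module.End.one_apply]

/-- `Gr T' s` is stable under `T` if `T' T = 1` -/
theorem Gr_inv {T T' : Module.End ℝ V} (h : T' * T = 1) {s : ℝ} {x : V} (hx : x ∈ Gr T' s) :
    T x ∈ Gr T' s := by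
  intro φ ε hε
  obtain ⟨C, hC0, hC⟩ := Gr.bound hx φ hε
  refine ⟨max (|φ (T x)|) (C * Real.exp (-(s + ε))), fun n => ?_⟩
  cases n with
  | zero =>
    simp
  | succ n =>
    have h1 : (T' ^ (n + 1)) (T x) = (T' ^ n) x := by
      rw [pow_succ, Module.End.mul_apply, ← Module.End.mul_apply T' T, h, Module.End.one_apply]
    rw [h1]
    refine (hC n).trans ?_
    have h2 : C * Real.exp ((s + ε) * n) =
        (C * Real.exp (-(s + ε))) * Real.exp ((s + ε) * ((n + 1 : ℕ) : ℝ)) := by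
      rw [mul_assoc, ← Real.exp_add]; congr 2; push_cast; ring
    rw [h2]
    exact mul_le_mul_of_nonneg_right (le_max_right _ _) (Real.exp_pos _).le

theorem Gr_self {T : Module.End ℝ V} {s : ℝ} {x : V} (hx : x ∈ Gr T s) : T x ∈ Gr T s := by
  intro φ ε hε
  obtain ⟨C, hC⟩ := hx φ ε hε
  refine ⟨C * Real.exp (s + ε), fun n => ?_⟩
  have h1 : (T ^ n) (T x) = (T ^ (n + 1)) x := by rw [pow_succ, Module.End.mul_apply]
  rw [h1]
  refine (hC (n + 1)).trans (le_of_eq ?_)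
  rw [mul_assoc, ← Real.exp_add]; congr 2; push_cast; ring

theorem Wt_self {T T' : Module.End ℝ V} (h : T' * T = 1) {r : ℝ} {x : V} (hx : x ∈ Wt T T' r) :
    T x ∈ Wt T T' r := ⟨Gr_self hx.1, Gr_inv h hx.2⟩

theorem Gr_inv_pow {T T' : Module.End ℝ V} (h : T' * T = 1) {s : ℝ} {x : V} (hx : x ∈ Gr T' s)
    (n : ℕ) : (T ^ n) x ∈ Gr T' s := by
  induction n with
  | zero => simpa using hx
  | succ n ih => rw [pow_succ', Module.End.mul_apply]; exact Gr_inv h ih

/-- a bound for a finite family of functionals -/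
theorem Gr.bound_fin {ι : Type*} [Fintype ι] {T : Module.End ℝ V} {r : ℝ} {x : V} (hx : x ∈ Gr T r)
    (φ : ι → V →ₗ[ℝ] ℝ) {ε : ℝ} (hε : 0 < ε) :
    ∃ C : ℝ, 0 ≤ C ∧ ∀ i, ∀ n : ℕ, |φ i ((T ^ n) x)| ≤ C * Real.exp ((r + ε) * n) := by
  choose C hC0 hC using fun i => Gr.bound hx (φ i) hε
  refine ⟨∑ i, C i, Finset.sum_nonneg fun i _ => hC0 i, fun i n => (hC i n).trans ?_⟩
  exact mul_le_mul_of_nonneg_right
    (Finset.single_le_sum (f := C) (fun i _ => hC0 i) (Finset.mem_univ i)) (Real.exp_pos _).le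

/-- vectors growing slowly in the future do not grow fast in the past -/
theorem indep_lt [FiniteDimensional ℝ V] {T T' : Module.End ℝ V} (h : T' * T = 1) {r s : ℝ}
    (hrs : r < s) {x : V} (hx : x ∈ Gr T r) (hx' : x ∈ Gr T' (-s)) : x = 0 := by
  classical
  set U := Gr T' (-s) with hU
  let b := Module.finBasis ℝ U
  -- coordinates, extended to `V`
  have hext : ∀ i, ∃ g : V →ₗ[ℝ] ℝ, g ∘ₗ U.subtype = b.coord i := fun i =>
    LinearMap.exists_extend (b.coord i)
  choose c hc using hext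
  rw [← forall_dual_apply_eq_zero_iff ℝ x]
  intro ψ
  by_contra hψ
  have hδ : 0 < (s - r) / 4 := by linarith
  obtain ⟨C, hC0, hC⟩ := Gr.bound_fin hx c hδ
  have hb : ∀ i, ∃ D : ℝ, 0 ≤ D ∧ ∀ n : ℕ,
      |ψ ((T' ^ n) (b i : V))| ≤ D * Real.exp ((-s + (s - r) / 4) * n) := fun i =>
    Gr.bound (b i).2 ψ hδ
  choose D hD0 hD using hb
  have hsr : (0 : ℝ) < |ψ x| := abs_pos.2 hψ
  have key : (0 : ℝ) ≤ -((s - r) / 4) := by
    refine le_of_exp_bound hsr fun ε hε => ⟨∑ i, C * D i, fun n => ?_⟩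
    have hmem : (T ^ n) x ∈ U := Gr_inv_pow h hx' n
    have h1 : (T ^ n) x = ∑ i, (c i ((T ^ n) x)) • (b i : V) := by
      have h2 := b.sum_repr ⟨(T ^ n) x, hmem⟩
      have h3 := congrArg (U.subtype) h2
      rw [map_sum] at h3
      simp only [map_smul, Submodule.subtype_apply] at h3
      rw [← h3]
      refine Finset.sum_congr rfl fun i _ => ?_
      rw [h3]
      congr 1
      have h4 := congrArg (fun g : U →ₗ[ℝ] ℝ => g ⟨(T ^ n) x, hmem⟩) (hc i)
      simpa using h4.symm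
    have h5 : ψ x = ∑ i, (c i ((T ^ n) x)) * ψ ((T' ^ n) (b i : V)) := by
      have h6 : x = (T' ^ n) ((T ^ n) x) := (pow_pow_apply h n x).symm
      conv_lhs => rw [h6, h1]
      rw [map_sum, map_sum]
      refine Finset.sum_congr rfl fun i _ => ?_
      rw [map_smul, map_smul, smul_eq_mul]
    have h7 : |ψ x| ≤ ∑ i, C * D i * (Real.exp ((r + (s - r) / 4) * n) *
        Real.exp ((-s + (s - r) / 4) * n)) := by
      rw [h5]
      refine (Finset.abs_sum_le_sum_abs _ _).trans (Finset.sum_le_sum fun i _ => ?_)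
      rw [abs_mul]
      calc |c i ((T ^ n) x)| * |ψ ((T' ^ n) (b i : V))|
          ≤ (C * Real.exp ((r + (s - r) / 4) * n)) *
            (D i * Real.exp ((-s + (s - r) / 4) * n)) :=
            mul_le_mul (hC i n) (hD i n) (abs_nonneg _)
              (mul_nonneg hC0 (Real.exp_pos _).le)
        _ = _ := by ring
    rw [← Finset.sum_mul] at h7
    simp only [zero_mul, Real.exp_zero, mul_one]
    refine h7.trans ?_
    apply mul_le_mul_of_nonneg_left _ (Finset.sum_nonneg fun i _ => mul_nonneg hC0 (hD0 i))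
    rw [← Real.exp_add]
    apply Real.exp_le_exp.2
    have hn : (0 : ℝ) ≤ n := Nat.cast_nonneg n
    nlinarith
  linarith

/-- independence of the modulus spaces -/
theorem Wt_finsupp_eq_zero [FiniteDimensional ℝ V] {T T' : Module.End ℝ V} (h : T' * T = 1)
    (f : ℝ →₀ V) (hf : ∀ r, f r ∈ Wt T T' r) (hsum : (f.sum fun _ x => x) = 0) : f = 0 := by
  classical
  by_contra hne
  have hs : f.support.Nonempty := Finsupp.support_nonempty_iff.2 hne
  set m := f.support.max' hs with hm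
  have hmem : m ∈ f.support := Finset.max'_mem _ _
  have hfm : f m ≠ 0 := Finsupp.mem_support_iff.1 hmem
  obtain ⟨s, hsm, hs'⟩ : ∃ s, s < m ∧ ∀ r ∈ f.support.erase m, r ≤ s := by
    rcases (f.support.erase m).eq_empty_or_nonempty with he | he
    · exact ⟨m - 1, by linarith, by rw [he]; simp⟩
    · refine ⟨(f.support.erase m).max' he, ?_, fun r hr => Finset.le_max' _ _ hr⟩
      have h1 := Finset.max'_mem _ he
      rw [Finset.mem_erase] at h1
      exact lt_of_le_of_ne (Finset.le_max' _ _ h1.2) h1.1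
  apply hfm
  have h2 : f m = - ∑ r ∈ f.support.erase m, f r := by
    have h3 := hsum
    rw [Finsupp.sum, ← Finset.add_sum_erase _ _ hmem] at h3
    exact eq_neg_of_add_eq_zero_left h3
  refine indep_lt h hsm ?_ (hf m).2
  rw [h2]
  exact Submodule.neg_mem _ (Submodule.sum_mem _ fun r hr => Gr_mono (hs' r hr) (hf r).1)

theorem Wt_indep [FiniteDimensional ℝ V] {T T' : Module.End ℝ V} (h : T' * T = 1)
    {r : ℝ} (f : ℝ →₀ V) (hf : ∀ s, f s ∈ Wt T T' s) {x : V} (hx : x ∈ Wt T T' r)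
    (hsum : (f.sum fun _ x => x) = x) : f = Finsupp.single r x := by
  classical
  have h1 : f - Finsupp.single r x = 0 := by
    apply Wt_finsupp_eq_zero h
    · intro s
      rw [Finsupp.sub_apply]
      refine Submodule.sub_mem _ (hf s) ?_
      by_cases hs : r = s
      · subst hs; simpa using hx
      · rw [Finsupp.single_eq_of_ne (Ne.symm hs)]; exact Submodule.zero_mem _
    · rw [Finsupp.sum_sub_index (by intros; rfl), hsum, Finsupp.sum_single_index rfl, sub_self]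
  exact sub_eq_zero.1 h1

/-- intersection of a modulus space with a sum of the others -/
theorem Wt_inf_iSup [FiniteDimensional ℝ V] {T T' : Module.End ℝ V} (h : T' * T = 1) {r : ℝ}
    (p : ℝ → Submodule ℝ V) (hp : ∀ s, p s ≤ Wt T T' s)
    {x : V} (hx : x ∈ Wt T T' r) (hx' : x ∈ ⨆ s, p s) : x ∈ p r := by
  rw [Submodule.mem_iSup_iff_exists_finsupp] at hx'
  obtain ⟨f, hf, hsum⟩ := hx'
  have h1 := Wt_indep h f (fun s => hp s (hf s)) hx hsum
  have h2 : f r = x := by rw [h1, Finsupp.single_eq_same]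
  rw [← h2]; exact hf r

end grow

end Vale.Agent.P188.H269
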