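import Vale.Agent.P188.H269.Lie

/-!
The ideal generated by the non-neutral directions, for a group acting on a nilpotent Lie algebra.
-/

namespace Vale.Agent.P188.H269

open Module
open scoped commutatorElement

universe u v

section ideal

/-- comparison of two automorphisms which agree modulo an ideal -/
theorem mem_of_agree {V : Type v} [AddCommGroup V] [Module ℝ V] [FiniteDimensional ℝ V]
    {T T' S S' : Module.End ℝ V} (h : T' * T = 1) (h' : T * T' = 1)
    (A I : Submodule ℝ V) (hIT : ∀ x ∈ I, T x ∈ I) (hIT' : ∀ x ∈ I, T' x ∈ I)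
    (hAS : ∀ x ∈ A, S x ∈ A) (hAS' : ∀ x ∈ A, S' x ∈ A)
    (hS : ∀ x ∈ A, S x - T x ∈ I) (hS' : ∀ x ∈ A, S' x - T' x ∈ I)
    (hI : ∀ s : ℝ, s ≠ 0 → Wt T T' s ≤ I) {r : ℝ} (hr : r ≠ 0) {x : V} (hx : x ∈ A)
    (hxr : x ∈ Wt S S' r) : x ∈ I := by
  classical
  let q : Module.End ℝ (V ⧸ I) := I.mapQ I T hIT
  let q' : Module.End ℝ (V ⧸ I) := I.mapQ I T' hIT'
  have hq : q' * q = 1 := by
    apply Submodule.linearMap_qext
    ext y
    have := congrArg (fun B : Module.End ℝ V => B y) h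
    simp only [Module.End.mul_apply, Module.End.one_apply] at this
    simp [q, q', this]
  have hq' : q * q' = 1 := by
    apply Submodule.linearMap_qext
    ext y
    have := congrArg (fun B : Module.End ℝ V => B y) h'
    simp only [Module.End.mul_apply, Module.End.one_apply] at this
    simp [q, q', this]
  -- the class of `x` has modulus `r`
  have h1 : I.mkQ x ∈ Wt q q' r := by
    let f : A →ₗ[ℝ] V ⧸ I := I.mkQ ∘ₗ A.subtype
    have hf1 : f ⟨x, hx⟩ ∈ Gr q r := by
      refine Gr_map (T := S.restrict hAS) f ?_ (Gr_restrict A hAS hx hxr.1)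
      intro y
      change I.mkQ (S y) = q (I.mkQ y)
      have h2 : I.mkQ (S y) = I.mkQ (T y) := by
        rw [← sub_eq_zero, ← map_sub]
        exact (Submodule.Quotient.mk_eq_zero I).2 (hS y y.2)
      rw [h2]; rfl
    have hf2 : f ⟨x, hx⟩ ∈ Gr q' (-r) := by
      refine Gr_map (T := S'.restrict hAS') f ?_ (Gr_restrict A hAS' hx hxr.2)
      intro y
      change I.mkQ (S' y) = q' (I.mkQ y)
      have h2 : I.mkQ (S' y) = I.mkQ (T' y) := by
        rw [← sub_eq_zero, ← map_sub]
        exact (Submodule.Quotient.mk_eq_zero I).2 (hS' y y.2)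
      rw [h2]; rfl
    exact ⟨hf1, hf2⟩
  -- the class of `x` is neutral
  have h3 : I.mkQ x ∈ Wt q q' 0 := by
    obtain ⟨f, hf, _, hsum⟩ := exists_decomp1 h h' ⊤ (fun _ _ => trivial) (fun _ _ => trivial)
      (Submodule.mem_top : x ∈ (⊤ : Submodule ℝ V))
    have h4 : I.mkQ x = I.mkQ (f 0) := by
      rw [← hsum, Finsupp.sum, map_sum, Finset.sum_eq_single (0 : ℝ)]
      · intro s _ hs
        exact (Submodule.Quotient.mk_eq_zero I).2 (hI s hs (hf s))
      · intro hs
        rw [Finsupp.notMem_support_iff] at hs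
        rw [hs, map_zero]
    rw [h4]
    exact Wt_map I.mkQ (fun y => rfl) (fun y => rfl) (hf 0)
  have h5 : I.mkQ x = 0 := by
    rcases lt_or_gt_of_ne hr with hlt | hgt
    · exact indep_lt hq hlt h1.1 (by rw [neg_zero]; simpa using h3.2)
    · exact indep_lt hq hgt h3.1 h1.2
  exact (Submodule.Quotient.mk_eq_zero I).1 h5

variable {G : Type u} [Group G]
variable {V : Type v} [LieRing V] [LieAlgebra ℝ V] [FiniteDimensional ℝ V]

/-- A group `G` acting by automorphisms on a nilpotent real Lie algebra, with a normal subgroup `N`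
acting by inner unipotent automorphisms and abelian quotient `G / N`. -/
structure LRep (N : Subgroup G) (ρ : G →* Module.End ℝ V) : Prop where
  comm : ∀ a b : G, ⁅a, b⁆ ∈ N
  lie : ∀ g, ∀ x y : V, ρ g ⁅x, y⁆ = ⁅ρ g x, ρ g y⁆
  unip : ∀ n ∈ N, ∀ I : LieIdeal ℝ V, ∀ x ∈ I, ρ n x - x ∈ (⁅(⊤ : LieIdeal ℝ V), I⁆ : LieIdeal ℝ V)
  nil : LieModule.IsNilpotent V V

variable {N : Subgroup G} [hNn : N.Normal] {ρ : G →* Module.End ℝ V}

omit hNn in
theorem LRep.unipOn (H : LRep N ρ) : UnipOn N ρ := by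
  obtain ⟨k, hk⟩ := H.nil.nilpotent ℝ
  refine ⟨fun j => (LieModule.lowerCentralSeries ℝ V V j).toSubmodule, k, ?_, ?_, ?_⟩
  · simp
  · simp only [hk]; rfl
  · intro n hn j x hx
    have := H.unip n hn (LieModule.lowerCentralSeries ℝ V V j) x hx
    rw [← LieModule.lowerCentralSeries_succ] at this
    exact this

/-- the ideal attached to one element of the group -/
def eId (ρ : G →* Module.End ℝ V) (t : G) : LieIdeal ℝ V := eI (ρ t) (ρ t⁻¹)

omit hNn in
/-- non-neutral vectors of `t n` are in the ideal of `t` -/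
theorem LRep.Wt_mul_le (H : LRep N ρ) (t : G) {n : G} (hn : n ∈ N) {r : ℝ} (hr : r ≠ 0) {x : V}
    (hx : x ∈ Wt (ρ (t * n)) (ρ (t * n)⁻¹) r) : x ∈ eId ρ t := by
  set e := eId ρ t with he
  have h := rho_inv_mul ρ t
  have h' := rho_mul_inv ρ t
  have heT : ∀ x ∈ e, ρ t x ∈ e := eI_inv h h' (H.lie t)
  have heT' : ∀ x ∈ e, ρ t⁻¹ x ∈ e := by
    rw [he]; unfold eId; rw [eI_symm]; exact eI_inv h' h (H.lie t⁻¹)
  -- every characteristic-type ideal is invariant
  have hlcs : ∀ (g : G) (k : ℕ), ∀ x ∈ LieModule.lowerCentralSeries ℝ V V k,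
      ρ g x ∈ LieModule.lowerCentralSeries ℝ V V k := by
    intro g k
    induction k with
    | zero => intro x _; rw [LieModule.lowerCentralSeries_zero]; exact LieSubmodule.mem_top _
    | succ k ih =>
      rw [LieModule.lowerCentralSeries_succ]
      exact lie_inv (I := ⊤) (J := LieModule.lowerCentralSeries ℝ V V k) (H.lie g)
        (fun x _ => LieSubmodule.mem_top _) ih
  have hNinv : ∀ n ∈ N, ∀ I : LieIdeal ℝ V, ∀ x ∈ I, ρ n x ∈ I := by
    intro n hn I x hx
    have h1 := H.unip n hn I x hx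
    have h2 : ρ n x - x ∈ I := LieSubmodule.lie_le_right _ _ h1
    have h3 := add_mem h2 hx
    rwa [sub_add_cancel] at h3
  have hsup : ∀ (I J : LieIdeal ℝ V) (T : Module.End ℝ V), (∀ x ∈ I, T x ∈ I) →
      (∀ x ∈ J, T x ∈ J) → ∀ x ∈ I ⊔ J, T x ∈ I ⊔ J := by
    intro I J T hI hJ x hx
    obtain ⟨a, ha, b, hb, rfl⟩ := (LieSubmodule.mem_sup I J x).1 hx
    rw [map_add]
    exact add_mem ((le_sup_left : I ≤ I ⊔ J) (hI a ha)) ((le_sup_right : J ≤ I ⊔ J) (hJ b hb))
  have key : ∀ k, x ∈ LieModule.lowerCentralSeries ℝ V V k ⊔ e := by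
    intro k
    induction k with
    | zero => rw [LieModule.lowerCentralSeries_zero, top_sup_eq]; exact LieSubmodule.mem_top _
    | succ k ih =>
      set A : LieIdeal ℝ V := LieModule.lowerCentralSeries ℝ V V k ⊔ e with hA
      set I : LieIdeal ℝ V := LieModule.lowerCentralSeries ℝ V V (k + 1) ⊔ e with hI
      have hAI : (⁅(⊤ : LieIdeal ℝ V), A⁆ : LieIdeal ℝ V) ≤ I := by
        rw [hA, hI, LieSubmodule.lie_sup, LieModule.lowerCentralSeries_succ]
        exact sup_le_sup_left (LieSubmodule.lie_le_right _ _) _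
      have hAt : ∀ x ∈ A, ρ t x ∈ A := hsup _ _ _ (hlcs t k) heT
      have hAt' : ∀ x ∈ A, ρ t⁻¹ x ∈ A := hsup _ _ _ (hlcs t⁻¹ k) heT'
      have hIt : ∀ x ∈ I, ρ t x ∈ I := hsup _ _ _ (hlcs t (k + 1)) heT
      have hIt' : ∀ x ∈ I, ρ t⁻¹ x ∈ I := hsup _ _ _ (hlcs t⁻¹ (k + 1)) heT'
      refine mem_of_agree h h' A.toSubmodule I.toSubmodule hIt hIt' ?_ ?_ ?_ ?_ ?_ hr ih hx
      · intro y hy
        rw [map_mul, Module.End.mul_apply]
        exact hAt _ (hNinv n hn A y hy)
      · intro y hy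
        rw [mul_inv_rev, map_mul, Module.End.mul_apply]
        exact hNinv _ (N.inv_mem hn) A _ (hAt' y hy)
      · intro y hy
        rw [map_mul, Module.End.mul_apply, ← map_sub]
        exact hIt _ (hAI (H.unip n hn A y hy))
      · intro y hy
        rw [mul_inv_rev, map_mul, Module.End.mul_apply]
        exact hAI (H.unip _ (N.inv_mem hn) A _ (hAt' y hy))
      · intro s hs y hy
        exact (le_sup_right : e ≤ I) (Wt_le_eI hs hy)
  obtain ⟨k, hk⟩ := H.nil.nilpotent ℝ
  have h6 := key k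
  rwa [hk, bot_sup_eq] at h6

omit hNn in
/-- the ideal is invariant under the whole group -/
theorem LRep.eId_inv (H : LRep N ρ) (t g : G) : ∀ x ∈ eId ρ t, ρ g x ∈ eId ρ t := by
  let Y : LieIdeal ℝ V :=
    { (eId ρ t).toSubmodule.comap (ρ g) with
      lie_mem := by
        intro v y hy
        change ρ g ⁅v, y⁆ ∈ eId ρ t
        rw [H.lie]
        exact (eId ρ t).lie_mem hy }
  have h1 : eId ρ t ≤ Y := by
    conv_lhs => unfold eId eI
    rw [LieSubmodule.lieSpan_le]
    intro x hx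
    change ρ g x ∈ eId ρ t
    refine Submodule.iSup_induction (fun r : {r : ℝ // r ≠ 0} => Wt (ρ t) (ρ t⁻¹) r)
      (motive := fun x => ρ g x ∈ eId ρ t) hx ?_ ?_ ?_
    · intro r z hz
      have hn : ⁅t⁻¹, g⁆ ∈ N := H.comm _ _
      refine H.Wt_mul_le t hn r.2 ?_
      have e1 : t * ⁅t⁻¹, g⁆ = g * t * g⁻¹ := by rw [commutatorElement_def]; group
      rw [e1]
      refine Wt_map (ρ g) ?_ ?_ hz
      · intro y
        rw [← Module.End.mul_apply, ← Module.End.mul_apply, ← map_mul, ← map_mul]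
        congr 2; group
      · intro y
        rw [← Module.End.mul_apply, ← Module.End.mul_apply, ← map_mul, ← map_mul]
        congr 2; group
    · rw [map_zero]; exact zero_mem _
    · intro a b ha hb
      rw [map_add]; exact add_mem ha hb
  exact fun x hx => h1 hx

end ideal

end Vale.Agent.P188.H269
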