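import Vale.Agent.P188.H269.Cartan4
import Vale.Agent.P188.H615.BchV
import Vale.Agent.P188.H796.Ll

/-!
The group `S` of a Malcev basis satisfies the hypotheses of the Cartan block.
-/

open scoped commutatorElement

universe u

namespace Vale.Agent.P188.H269

open Vale.Agent.P188.H796 Vale.Agent.P188.H615

variable {Γ : Type u} [Group Γ] {N : Subgroup Γ} [hN : N.Normal] {d n : ℕ} (D : MB N d n)

/-- **the group `S` satisfies `ExpS`** -/
theorem expS (habel : ∀ a b : Γ, ⁅a, b⁆ ∈ N) : ExpS D.AdE (D.ex : D.R.V → D.S) where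
  zero := by
    rw [MB.ex, D.R.Ex_zero, map_one]
  neg v := by
    rw [MB.ex, D.R.Ex_neg, map_inv]; rfl
  inj := D.ex_injective
  conj s v := by
    rw [D.AdE_apply, D.ex_Ad]
  mul_ideal I v w hw := by
    have h := Lo_Ex_mul_Ex' D.R (H := ⊤) (I := I.toSubmodule)
      (I' := (⁅(⊤ : LieIdeal ℝ D.R.V), I⁆ : LieIdeal ℝ D.R.V).toSubmodule) le_top
      (LieSubmodule.lie_le_right _ _)
      (fun x _ y hy => LieSubmodule.lie_mem_lie (LieSubmodule.mem_top x) hy)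
      (v := v) (w := w) trivial hw
    refine ⟨_, h, ?_⟩
    rw [MB.ex, MB.ex, MB.ex, ← map_mul]
    congr 1
    apply D.R.Lo_injective
    rw [D.R.Lo_Ex]
    abel
  mul_sub h v w hv hw := by
    have h1 := (ExS D.R h.toSubmodule (fun x hx y hy => h.lie_mem hx hy)).mul_mem
      (x := D.R.Ex v) (y := D.R.Ex w)
      ((mem_ExS D.R).2 (by rw [D.R.Lo_Ex]; exact hv)) ((mem_ExS D.R).2 (by rw [D.R.Lo_Ex]; exact hw))
    refine ⟨_, (mem_ExS D.R).1 h1, ?_⟩
    rw [MB.ex, MB.ex, MB.ex, ← map_mul, D.R.Ex_Lo]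
  comm a b := by
    obtain ⟨k, hk⟩ := D.comm_mem habel a b
    refine ⟨D.R.Lo k, ?_⟩
    rw [MB.ex, D.R.Ex_Lo, hk]
  lie s x y := D.Ad_lie s x y
  ad v U U' hU h x hx := by
    rw [D.AdE_apply, MB.ex, D.Ad_inN]
    refine Adn_Ex_sub_mem' D.R (H := Submodule.span ℝ {v}) hU ?_
      (Submodule.mem_span_singleton_self v) hx
    intro y hy z hz
    obtain ⟨c, rfl⟩ := Submodule.mem_span_singleton.1 hy
    rw [smul_lie]
    exact U'.smul_mem c (h z hz)
  nil := inferInstance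

theorem expS_N (habel : ∀ a b : Γ, ⁅a, b⁆ ∈ N) :
    (expS D habel).N = (D.inN : D.R.NR →* D.S).range := by
  ext s
  rw [ExpS.mem_N]
  constructor
  · rintro ⟨v, rfl⟩
    exact ⟨D.R.Ex v, rfl⟩
  · rintro ⟨k, rfl⟩
    refine ⟨D.R.Lo k, ?_⟩
    rw [MB.ex, D.R.Ex_Lo]

end Vale.Agent.P188.H269
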