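import Vale.Agent.P188.H269.Wei

/-!
The ideal generated by the expanding and contracting directions.
-/

namespace Vale.Agent.P188.H269

open Module
open scoped commutatorElement

universe u v

section lie

variable {V : Type v} [LieRing V] [LieAlgebra ℝ V] [FiniteDimensional ℝ V]

theorem pow_lie {T : Module.End ℝ V} (hT : ∀ x y : V, T ⁅x, y⁆ = ⁅T x, T y⁆) (n : ℕ) (x y : V) :
    (T ^ n) ⁅x, y⁆ = ⁅(T ^ n) x, (T ^ n) y⁆ := by
  induction n generalizing x y with
  | zero => simp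
  | succ n ih =>
    rw [pow_succ, Module.End.mul_apply, Module.End.mul_apply, Module.End.mul_apply, hT, ih]

/-- brackets of growth vectors -/
theorem lie_mem_Gr {T : Module.End ℝ V} (hT : ∀ x y : V, T ⁅x, y⁆ = ⁅T x, T y⁆) {r s : ℝ}
    {x y : V} (hx : x ∈ Gr T r) (hy : y ∈ Gr T s) : ⁅x, y⁆ ∈ Gr T (r + s) := by
  intro φ ε hε
  let b := Module.finBasis ℝ V
  obtain ⟨C, hC0, hC⟩ := Gr.bound_fin hx b.coord (half_pos hε)
  obtain ⟨D, hD0, hD⟩ := Gr.bound_fin hy b.coord (half_pos hε)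
  refine ⟨∑ i, ∑ j, C * D * |φ ⁅b i, b j⁆|, fun n => ?_⟩
  have hexp : ∀ u v : V, ⁅u, v⁆ = ∑ i, ∑ j, (b.coord i u * b.coord j v) • ⁅b i, b j⁆ := by
    intro u v
    conv_lhs => rw [← b.sum_repr u, ← b.sum_repr v]
    rw [sum_lie_sum]
    refine Finset.sum_congr rfl fun i _ => Finset.sum_congr rfl fun j _ => ?_
    rw [smul_lie, lie_smul, smul_smul]; rfl
  rw [pow_lie hT, hexp, map_sum, Finset.sum_mul]
  refine (Finset.abs_sum_le_sum_abs _ _).trans (Finset.sum_le_sum fun i _ => ?_)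
  rw [map_sum, Finset.sum_mul]
  refine (Finset.abs_sum_le_sum_abs _ _).trans (Finset.sum_le_sum fun j _ => ?_)
  rw [map_smul, smul_eq_mul, abs_mul, abs_mul]
  have h1 : Real.exp ((r + s + ε) * n) =
      Real.exp ((r + ε / 2) * n) * Real.exp ((s + ε / 2) * n) := by
    rw [← Real.exp_add]; congr 1; ring
  rw [h1]
  calc |b.coord i ((T ^ n) x)| * |b.coord j ((T ^ n) y)| * |φ ⁅b i, b j⁆|
      ≤ (C * Real.exp ((r + ε / 2) * n)) * (D * Real.exp ((s + ε / 2) * n)) *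
        |φ ⁅b i, b j⁆| := by
        apply mul_le_mul_of_nonneg_right _ (abs_nonneg _)
        exact mul_le_mul (hC i n) (hD j n) (abs_nonneg _) (mul_nonneg hC0 (Real.exp_pos _).le)
    _ = _ := by ring

theorem lie_mem_Wt {T T' : Module.End ℝ V} (hT : ∀ x y : V, T ⁅x, y⁆ = ⁅T x, T y⁆)
    (hT' : ∀ x y : V, T' ⁅x, y⁆ = ⁅T' x, T' y⁆) {r s : ℝ}
    {x y : V} (hx : x ∈ Wt T T' r) (hy : y ∈ Wt T T' s) : ⁅x, y⁆ ∈ Wt T T' (r + s) :=
  ⟨lie_mem_Gr hT hx.1 hy.1, by
    rw [neg_add]; exact lie_mem_Gr hT' hx.2 hy.2⟩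

/-- the span of the non-neutral directions of one automorphism -/
def XW (T T' : Module.End ℝ V) : Submodule ℝ V := ⨆ r : {r : ℝ // r ≠ 0}, Wt T T' r

theorem Wt_le_XW {T T' : Module.End ℝ V} {r : ℝ} (hr : r ≠ 0) : Wt T T' r ≤ XW T T' :=
  le_iSup (fun r : {r : ℝ // r ≠ 0} => Wt T T' r) ⟨r, hr⟩

/-- the ideal generated by the non-neutral directions of one automorphism -/
def eI (T T' : Module.End ℝ V) : LieIdeal ℝ V := LieSubmodule.lieSpan ℝ V (XW T T' : Set V)

theorem XW_le_eI {T T' : Module.End ℝ V} : XW T T' ≤ (eI T T').toSubmodule :=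
  fun _ hx => LieSubmodule.subset_lieSpan hx

theorem Wt_le_eI {T T' : Module.End ℝ V} {r : ℝ} (hr : r ≠ 0) {x : V} (hx : x ∈ Wt T T' r) :
    x ∈ eI T T' := XW_le_eI (Wt_le_XW hr hx)

variable {T T' : Module.End ℝ V}

/-- `e = X + [e, e]` -/
theorem eI_le (h : T' * T = 1) (h' : T * T' = 1) (hT : ∀ x y : V, T ⁅x, y⁆ = ⁅T x, T y⁆)
    (hT' : ∀ x y : V, T' ⁅x, y⁆ = ⁅T' x, T' y⁆) :
    (eI T T').toSubmodule ≤ XW T T' ⊔ (⁅eI T T', eI T T'⁆ : LieIdeal ℝ V).toSubmodule := by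
  set e := eI T T' with he
  set Y : Submodule ℝ V := XW T T' ⊔ (⁅e, e⁆ : LieIdeal ℝ V).toSubmodule with hY
  -- `[v, x] ∈ Y` for `x` non-neutral
  have h1 : ∀ (v : V), ∀ x ∈ XW T T', ⁅v, x⁆ ∈ Y := by
    intro v x hx
    have hv : v ∈ ⨆ s, Wt T T' s := by rw [iSup_Wt_eq_top h h']; trivial
    refine Submodule.iSup_induction (fun s => Wt T T' s) (motive := fun v => ⁅v, x⁆ ∈ Y) hv
      ?_ ?_ ?_
    · intro s w hw
      refine Submodule.iSup_induction (fun r : {r : ℝ // r ≠ 0} => Wt T T' r)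
        (motive := fun x => ⁅w, x⁆ ∈ Y) hx ?_ ?_ ?_
      · intro r z hz
        by_cases hs : s = 0
        · subst hs
          have h2 := lie_mem_Wt hT hT' hw hz
          rw [zero_add] at h2
          exact Submodule.mem_sup_left (Wt_le_XW r.2 h2)
        · exact Submodule.mem_sup_right
            (LieSubmodule.lie_mem_lie (Wt_le_eI hs hw) (Wt_le_eI r.2 hz))
      · rw [lie_zero]; exact Submodule.zero_mem _
      · intro a b ha hb
        rw [lie_add]; exact Submodule.add_mem _ ha hb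
    · rw [zero_lie]; exact Submodule.zero_mem _
    · intro a b ha hb
      rw [add_lie]; exact Submodule.add_mem _ ha hb
  have h2 : ∀ (v : V), ∀ y ∈ Y, ⁅v, y⁆ ∈ Y := by
    intro v y hy
    obtain ⟨a, ha, b, hb, rfl⟩ := Submodule.mem_sup.1 hy
    rw [lie_add]
    refine Submodule.add_mem _ (h1 v a ha) (Submodule.mem_sup_right ?_)
    exact (⁅e, e⁆ : LieIdeal ℝ V).lie_mem hb
  let YI : LieIdeal ℝ V := { Y with lie_mem := fun {v y} hy => h2 v y hy }
  have h3 : e ≤ YI := by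
    rw [he]
    unfold eI
    rw [LieSubmodule.lieSpan_le]
    intro x hx
    exact Submodule.mem_sup_left (show x ∈ XW T T' from hx)
  exact h3

/-- the ideal is invariant -/
theorem eI_inv (h : T' * T = 1) (_h' : T * T' = 1) (hT : ∀ x y : V, T ⁅x, y⁆ = ⁅T x, T y⁆) :
    ∀ x ∈ eI T T', T x ∈ eI T T' := by
  -- `{y | T y ∈ e}` is an ideal
  let Y : LieIdeal ℝ V :=
    { (eI T T').toSubmodule.comap T with
      lie_mem := by
        intro v y hy
        change T ⁅v, y⁆ ∈ eI T T'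
        rw [hT]
        exact (eI T T').lie_mem hy }
  have h1 : eI T T' ≤ Y := by
    conv_lhs => unfold eI
    rw [LieSubmodule.lieSpan_le]
    intro x hx
    change T x ∈ eI T T'
    refine Submodule.iSup_induction (fun r : {r : ℝ // r ≠ 0} => Wt T T' r)
      (motive := fun x => T x ∈ eI T T') hx ?_ ?_ ?_
    · intro r z hz
      exact Wt_le_eI r.2 (Wt_self h hz)
    · rw [map_zero]; exact zero_mem _
    · intro a b ha hb
      rw [map_add]; exact add_mem ha hb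
  exact fun x hx => h1 hx

theorem XW_symm : XW T T' = XW T' T := by
  apply le_antisymm
  · refine iSup_le fun r x hx => ?_
    exact Wt_le_XW (neg_ne_zero.2 r.2) (Wt_symm hx)
  · refine iSup_le fun r x hx => ?_
    exact Wt_le_XW (neg_ne_zero.2 r.2) (Wt_symm hx)

theorem eI_symm : eI T T' = eI T' T := by unfold eI; rw [XW_symm]

theorem lie_inv (hT : ∀ x y : V, T ⁅x, y⁆ = ⁅T x, T y⁆) {I J : LieIdeal ℝ V}
    (hI : ∀ x ∈ I, T x ∈ I) (hJ : ∀ x ∈ J, T x ∈ J) :
    ∀ y ∈ (⁅I, J⁆ : LieIdeal ℝ V), T y ∈ (⁅I, J⁆ : LieIdeal ℝ V) := by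
  intro y hy
  have hy' : y ∈ (⁅I, J⁆ : LieIdeal ℝ V).toSubmodule := hy
  rw [LieSubmodule.lieIdeal_oper_eq_linear_span'] at hy'
  refine Submodule.span_induction (p := fun y _ => T y ∈ (⁅I, J⁆ : LieIdeal ℝ V)) ?_ ?_ ?_ ?_ hy'
  · rintro _ ⟨a, ha, b, hb, rfl⟩
    rw [hT]
    exact LieSubmodule.lie_mem_lie (hI a ha) (hJ b hb)
  · rw [map_zero]; exact zero_mem _
  · intro x y _ _ hx hy
    rw [map_add]; exact add_mem hx hy
  · intro c x _ hx
    rw [map_smul]; exact (⁅I, J⁆ : LieIdeal ℝ V).smul_mem c hx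

/-- neutral vectors of the ideal are in its derived ideal -/
theorem neutral_mem (h : T' * T = 1) (h' : T * T' = 1) (hT : ∀ x y : V, T ⁅x, y⁆ = ⁅T x, T y⁆)
    (hT' : ∀ x y : V, T' ⁅x, y⁆ = ⁅T' x, T' y⁆) {x : V} (hx : x ∈ eI T T')
    (hx0 : x ∈ Wt T T' 0) : x ∈ (⁅eI T T', eI T T'⁆ : LieIdeal ℝ V) := by
  classical
  set D : LieIdeal ℝ V := ⁅eI T T', eI T T'⁆ with hD
  have hinv' : ∀ a ∈ eI T T', T' a ∈ eI T T' := by
    rw [eI_symm]; exact eI_inv h' h hT'
  have hDT : ∀ y ∈ D.toSubmodule, T y ∈ D.toSubmodule :=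
    fun y hy => lie_inv hT (eI_inv h h' hT) (eI_inv h h' hT) y hy
  have hDT' : ∀ y ∈ D.toSubmodule, T' y ∈ D.toSubmodule :=
    fun y hy => lie_inv hT' hinv' hinv' y hy
  -- the sum of the spaces `p s`
  let p : ℝ → Submodule ℝ V := fun s => if s = 0 then D.toSubmodule ⊓ Wt T T' 0 else Wt T T' s
  have hp : ∀ s, p s ≤ Wt T T' s := by
    intro s
    by_cases hs : s = 0
    · subst hs; simp only [p, if_true]; exact inf_le_right
    · simp only [p, if_neg hs]; exact le_rfl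
  have hxp : x ∈ ⨆ s, p s := by
    obtain ⟨a, ha, b, hb, rfl⟩ := Submodule.mem_sup.1 (eI_le h h' hT hT' hx)
    refine Submodule.add_mem _ ?_ ?_
    · have : XW T T' ≤ ⨆ s, p s := by
        refine iSup_le fun r => ?_
        have h1 : Wt T T' r = p r := by simp only [p, if_neg r.2]
        rw [h1]; exact le_iSup p r
      exact this ha
    · obtain ⟨f, hf, hfD, rfl⟩ := exists_decomp1 h h' D.toSubmodule hDT hDT' hb
      refine Submodule.sum_mem _ fun s _ => ?_
      refine Submodule.mem_iSup_of_mem s ?_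
      by_cases hs : s = 0
      · subst hs; simp only [p, if_true]; exact ⟨hfD 0, hf 0⟩
      · simp only [p, if_neg hs]; exact hf s
  have h3 := Wt_inf_iSup h p hp hx0 hxp
  simp only [p, if_true] at h3
  exact h3.1

/-- if a non-neutral modulus space is contained in `[V, V]` then it is contained in `[e, e]` -/
theorem Wt_le_derived (h : T' * T = 1) (h' : T * T' = 1) (hT : ∀ x y : V, T ⁅x, y⁆ = ⁅T x, T y⁆)
    (hT' : ∀ x y : V, T' ⁅x, y⁆ = ⁅T' x, T' y⁆) (hnil : LieModule.IsNilpotent V V) {r : ℝ}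
    (hr : r ≠ 0) (hle : Wt T T' r ≤ (⁅(⊤ : LieIdeal ℝ V), (⊤ : LieIdeal ℝ V)⁆ :
      LieIdeal ℝ V).toSubmodule) :
    Wt T T' r ≤ (⁅eI T T', eI T T'⁆ : LieIdeal ℝ V).toSubmodule := by
  classical
  set D : LieIdeal ℝ V := ⁅eI T T', eI T T'⁆ with hD
  -- homogeneous brackets
  let Z : ℝ → Submodule ℝ V := fun q =>
    Submodule.span ℝ {z | ∃ s u : ℝ, s + u = q ∧ ∃ a ∈ Wt T T' s, ∃ b ∈ Wt T T' u, ⁅a, b⁆ = z}
  have hZ : ∀ q, Z q ≤ Wt T T' q := by
    intro q
    rw [Submodule.span_le]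
    rintro _ ⟨s, w, hsw, a, ha, b, hb, rfl⟩
    rw [← hsw]
    exact lie_mem_Wt hT hT' ha hb
  have hbr : ∀ a b : V, ⁅a, b⁆ ∈ ⨆ q, Z q := by
    intro a b
    have ha : a ∈ ⨆ s, Wt T T' s := by rw [iSup_Wt_eq_top h h']; trivial
    have hb : b ∈ ⨆ s, Wt T T' s := by rw [iSup_Wt_eq_top h h']; trivial
    refine Submodule.iSup_induction (fun s => Wt T T' s) (motive := fun a => ⁅a, b⁆ ∈ ⨆ q, Z q) ha
      ?_ ?_ ?_
    · intro s a ha
      refine Submodule.iSup_induction (fun s => Wt T T' s)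
        (motive := fun b => ⁅a, b⁆ ∈ ⨆ q, Z q) hb ?_ ?_ ?_
      · intro w b hb
        exact Submodule.mem_iSup_of_mem (s + w)
          (Submodule.subset_span ⟨s, w, rfl, a, ha, b, hb, rfl⟩)
      · rw [lie_zero]; exact Submodule.zero_mem _
      · intro x y hx hy
        rw [lie_add]; exact Submodule.add_mem _ hx hy
    · rw [zero_lie]; exact Submodule.zero_mem _
    · intro x y hx hy
      rw [add_lie]; exact Submodule.add_mem _ hx hy
  have hWZ : Wt T T' r ≤ Z r := by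
    intro x hx
    refine Wt_inf_iSup h Z hZ hx ?_
    have h1 := hle hx
    have h2 : (⁅(⊤ : LieIdeal ℝ V), (⊤ : LieIdeal ℝ V)⁆ : LieIdeal ℝ V).toSubmodule ≤
        ⨆ q, Z q := by
      rw [LieSubmodule.lieIdeal_oper_eq_linear_span', Submodule.span_le]
      rintro _ ⟨a, _, b, _, rfl⟩
      exact hbr a b
    exact h2 h1
  -- iteration
  have key : ∀ k, Wt T T' r ≤ (LieModule.lowerCentralSeries ℝ V V k ⊔ D).toSubmodule := by
    intro k
    induction k with
    | zero => rw [LieModule.lowerCentralSeries_zero, top_sup_eq]; exact le_top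
    | succ k ih =>
      set J : LieIdeal ℝ V := LieModule.lowerCentralSeries ℝ V V k ⊔ D with hJ
      have h3 : ⁅(⊤ : LieIdeal ℝ V), J⁆ ≤ LieModule.lowerCentralSeries ℝ V V (k + 1) ⊔ D := by
        rw [hJ, LieSubmodule.lie_sup, LieModule.lowerCentralSeries_succ]
        exact sup_le_sup_left (LieSubmodule.lie_le_right _ _) _
      refine hWZ.trans ?_
      rw [Submodule.span_le]
      rintro _ ⟨s, w, hsw, a, ha, b, hb, rfl⟩
      by_cases hs : s = 0
      · subst hs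
        rw [zero_add] at hsw
        subst hsw
        exact h3 (LieSubmodule.lie_mem_lie (LieSubmodule.mem_top a) (ih hb))
      · by_cases hw : w = 0
        · subst hw
          rw [add_zero] at hsw
          subst hsw
          have h4 : ⁅b, a⁆ ∈ LieModule.lowerCentralSeries ℝ V V (k + 1) ⊔ D :=
            h3 (LieSubmodule.lie_mem_lie (LieSubmodule.mem_top b) (ih ha))
          rw [← lie_skew]
          exact neg_mem h4
        · have h5 : ⁅a, b⁆ ∈ D := LieSubmodule.lie_mem_lie (Wt_le_eI hs ha) (Wt_le_eI hw hb)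
          exact (le_sup_right : D ≤ _) h5
  obtain ⟨k, hk⟩ := hnil.nilpotent ℝ
  have h6 := key k
  rw [hk, bot_sup_eq] at h6
  exact h6

end lie

end Vale.Agent.P188.H269
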