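import Vale.Agent.P188.H269.Wei
import Vale.Agent.P188.H131.DetOne
import Vale.Agent.P188.H131.Tri

/-!
The determinant of a representation is the product of its weights.
-/

open Module Finset
open scoped commutatorElement

universe u v w

namespace Vale.Agent.P188.H269

section mult

variable {G : Type u} [Group G]

/-- a linear map which multiplies the norm by `r` on a subspace of `ℂ` -/
theorem abs_det_le_of_norm {W : Type v} [NormedAddCommGroup W] [NormedSpace ℝ W]
    [FiniteDimensional ℝ W] (T : W →ₗ[ℝ] W) {r : ℝ} (hT : ∀ x, ‖T x‖ ≤ Real.exp r * ‖x‖) :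
    |LinearMap.det T| ≤ Real.exp (r * finrank ℝ W) := by
  have h := H131.abs_det_le_exp T (normSeminorm ℝ W) (fun x hx => norm_eq_zero.1 hx) (ε := r)
    (fun x => hT x)
  rwa [← Real.exp_nat_mul, mul_comm] at h

/-- the determinant on the quotient by the kernel of an eigenfunctional -/
theorem log_det_quot {V : Type v} [AddCommGroup V] [Module ℝ V] [FiniteDimensional ℝ V]
    {ρ : G →* Module.End ℝ V} {l : V →ₗ[ℝ] ℂ} {χ : G → ℂ} (h : EigOn ρ ⊤ l χ) (g : G)
    (hg : LinearMap.ker l ≤ (LinearMap.ker l).comap (ρ g)) :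
    LinearMap.det ((LinearMap.ker l).mapQ (LinearMap.ker l) (ρ g) hg) ≠ 0 ∧
    Real.log |LinearMap.det ((LinearMap.ker l).mapQ (LinearMap.ker l) (ρ g) hg)| =
      finrank ℝ (V ⧸ LinearMap.ker l) * Real.log ‖χ g‖ := by
  have hinv : ∀ a, LinearMap.ker l ≤ (LinearMap.ker l).comap (ρ a) := by
    intro a x hx
    rw [Submodule.mem_comap, LinearMap.mem_ker, h.eig a x trivial, LinearMap.mem_ker.1 hx, mul_zero]
  let e := l.quotKerEquivRange
  let Q : G → Module.End ℝ (V ⧸ LinearMap.ker l) := fun a =>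
    (LinearMap.ker l).mapQ (LinearMap.ker l) (ρ a) (hinv a)
  let T : G → (LinearMap.range l →ₗ[ℝ] LinearMap.range l) := fun a =>
    (e : (V ⧸ LinearMap.ker l) →ₗ[ℝ] LinearMap.range l) ∘ₗ Q a ∘ₗ
      (e.symm : LinearMap.range l →ₗ[ℝ] (V ⧸ LinearMap.ker l))
  have hdet : ∀ a, LinearMap.det (T a) = LinearMap.det (Q a) := fun a => LinearMap.det_conj _ e
  have hT : ∀ a (z : LinearMap.range l), ((T a z : LinearMap.range l) : ℂ) = χ a * z := by
    intro a z
    obtain ⟨_, ⟨x, rfl⟩⟩ := z
    have h1 : e.symm ⟨l x, ⟨x, rfl⟩⟩ = (LinearMap.ker l).mkQ x := by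
      rw [LinearEquiv.symm_apply_eq]
      rfl
    change ((e (Q a (e.symm ⟨l x, ⟨x, rfl⟩⟩)) : LinearMap.range l) : ℂ) = _
    rw [h1]
    change l (ρ a x) = _
    rw [h.eig a x trivial]
  have hfin : finrank ℝ (LinearMap.range l) = finrank ℝ (V ⧸ LinearMap.ker l) :=
    (LinearEquiv.finrank_eq e).symm
  have hle : ∀ a, |LinearMap.det (Q a)| ≤
      Real.exp (Real.log ‖χ a‖ * finrank ℝ (V ⧸ LinearMap.ker l)) := by
    intro a
    have h1 := abs_det_le_of_norm (T a) (r := Real.log ‖χ a‖) (fun z => by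
      have h2 : ‖T a z‖ = ‖((T a z : LinearMap.range l) : ℂ)‖ := rfl
      rw [Real.exp_log (norm_pos_iff.2 (h.ne_zero a)), h2, hT, norm_mul]
      exact le_rfl)
    rwa [hdet, hfin] at h1
  have hmul : LinearMap.det (Q g) * LinearMap.det (Q g⁻¹) = 1 := by
    rw [← LinearMap.det_comp]
    have : Q g ∘ₗ Q g⁻¹ = LinearMap.id := by
      apply Submodule.linearMap_qext
      ext x
      change (LinearMap.ker l).mkQ (ρ g (ρ g⁻¹ x)) = (LinearMap.ker l).mkQ x
      rw [← Module.End.mul_apply, rho_mul_inv, Module.End.one_apply]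
    rw [this, LinearMap.det_id]
  have hne : LinearMap.det (Q g) ≠ 0 := left_ne_zero_of_mul_eq_one hmul
  have hne' : LinearMap.det (Q g⁻¹) ≠ 0 := right_ne_zero_of_mul_eq_one hmul
  refine ⟨hne, ?_⟩
  have h1 := Real.log_le_log (abs_pos.2 hne) (hle g)
  have h2 := Real.log_le_log (abs_pos.2 hne') (hle g⁻¹)
  rw [Real.log_exp] at h1 h2
  rw [h.inv', norm_inv, Real.log_inv] at h2
  have h3 : Real.log |LinearMap.det (Q g)| + Real.log |LinearMap.det (Q g⁻¹)| = 0 := by
    rw [← Real.log_mul (abs_ne_zero.2 hne) (abs_ne_zero.2 hne'), ← abs_mul, hmul, abs_one,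
      Real.log_one]
  change Real.log |LinearMap.det (Q g)| = _
  linarith

/-- **the determinant is the product of the weights, and every weight occurs** -/
theorem exists_mult {N : Subgroup G} [hNn : N.Normal] (hcomm : ∀ a b : G, ⁅a, b⁆ ∈ N) :
    ∀ (n : ℕ) {V : Type v} [AddCommGroup V] [Module ℝ V] [FiniteDimensional ℝ V]
    (ρ : G →* Module.End ℝ V) (_ : UnipOn N ρ) (_ : finrank ℝ V = n),
    ∃ m : List (G → ℝ), (∀ b ∈ m, b ∈ Wts ρ ⊤) ∧ (∀ b ∈ Wts ρ ⊤, b ∈ m) ∧
      ∀ g, LinearMap.det (ρ g) ≠ 0 ∧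
        Real.log |LinearMap.det (ρ g)| = (m.map fun b => b g).sum := by
  intro n
  induction n using Nat.strong_induction_on with
  | _ n ih =>
  intro V _ _ _ ρ hU hn
  by_cases hV : (⊤ : Submodule ℝ V) = ⊥
  · have hsub : Subsingleton V := (Submodule.subsingleton_iff ℝ).1
      (subsingleton_of_bot_eq_top hV.symm)
    refine ⟨[], by simp, ?_, ?_⟩
    · rintro b ⟨A, _, l, χ, hE, _⟩
      obtain ⟨x, _, hx⟩ := hE.ne
      rw [Subsingleton.elim x 0, map_zero] at hx
      exact absurd rfl hx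
    · intro g
      have h1 : ρ g = LinearMap.id := by
        ext x; exact Subsingleton.elim _ _
      rw [h1, LinearMap.det_id]
      simp
  · obtain ⟨l, χ, h, _⟩ := exists_eigOn hcomm ρ hU ⊤ ⊥ (fun _ _ _ => trivial) (by
      intro g x hx
      rw [Submodule.mem_bot] at hx ⊢
      rw [hx, map_zero]) (bot_lt_iff_ne_bot.2 hV)
    have hK : ∀ g, ∀ x ∈ LinearMap.ker l, ρ g x ∈ LinearMap.ker l := by
      intro g x hx
      rw [LinearMap.mem_ker, h.eig g x trivial, LinearMap.mem_ker.1 hx, mul_zero]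
    have hlt : LinearMap.ker l < ⊤ := by
      rw [lt_top_iff_ne_top]
      intro htop
      obtain ⟨x, _, hx⟩ := h.ne
      apply hx
      have : x ∈ LinearMap.ker l := by rw [htop]; trivial
      exact this
    have hfr : finrank ℝ (LinearMap.ker l) < n := by
      rw [← hn, ← finrank_top ℝ V]
      exact Submodule.finrank_lt_finrank_of_lt hlt
    obtain ⟨m', hm1, hm2, hm3⟩ := ih _ hfr (resR ρ (LinearMap.ker l) hK) (hU.res _ hK) rfl
    have hj : 0 < finrank ℝ (V ⧸ LinearMap.ker l) := by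
      rw [Module.finrank_pos_iff]
      exact Submodule.Quotient.nontrivial_iff.2 hlt.ne
    refine ⟨List.replicate (finrank ℝ (V ⧸ LinearMap.ker l)) (fun g => Real.log ‖χ g‖) ++ m',
      ?_, ?_, ?_⟩
    · intro b hb
      rcases List.mem_append.1 hb with hb | hb
      · rw [List.eq_of_mem_replicate hb]
        exact ⟨⊤, le_top, l, χ, h, fun _ => rfl⟩
      · obtain ⟨A, _, l1, χ1, hE, hb1⟩ := hm1 b hb
        obtain ⟨p, hp⟩ := (LinearMap.ker l).exists_isCompl
        -- extend the functional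
        let π : V →ₗ[ℝ] LinearMap.ker l := Submodule.projectionOnto (LinearMap.ker l) p hp
        have hπ : ∀ x : LinearMap.ker l, π (x : V) = x :=
          fun x => Submodule.projectionOnto_apply_left hp x
        refine ⟨A.map (LinearMap.ker l).subtype, le_top, l1 ∘ₗ π, χ1, ⟨?_, ?_, ?_⟩, hb1⟩
        · rintro g _ ⟨x, hx, rfl⟩
          exact ⟨resR ρ (LinearMap.ker l) hK g x, hE.inv g x hx, rfl⟩
        · obtain ⟨x, hx, hx0⟩ := hE.ne
          refine ⟨x, ⟨x, hx, rfl⟩, ?_⟩
          rw [LinearMap.comp_apply, hπ]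
          exact hx0
        · rintro g _ ⟨x, hx, rfl⟩
          have h1 := hE.eig g x hx
          rw [LinearMap.comp_apply, LinearMap.comp_apply]
          have h2 : ρ g ((LinearMap.ker l).subtype x) =
              ((resR ρ (LinearMap.ker l) hK g x : LinearMap.ker l) : V) := rfl
          rw [h2, hπ, h1]
          congr 2
          exact (hπ x).symm
    · rintro b ⟨A, _, l1, χ1, hE, hb1⟩
      by_cases hcase : ∃ x ∈ A ⊓ LinearMap.ker l, l1 x ≠ 0
      · refine List.mem_append_right _ (hm2 b ⟨A.comap (LinearMap.ker l).subtype, le_top,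
          l1 ∘ₗ (LinearMap.ker l).subtype, χ1, ⟨?_, ?_, ?_⟩, hb1⟩)
        · intro g x hx
          exact hE.inv g x hx
        · obtain ⟨x, hx, hx0⟩ := hcase
          exact ⟨⟨x, hx.2⟩, hx.1, hx0⟩
        · intro g x hx
          exact hE.eig g x hx
      · push Not at hcase
        refine List.mem_append_left _ ?_
        rw [List.mem_replicate]
        refine ⟨hj.ne', ?_⟩
        funext g
        rw [hb1 g]
        obtain ⟨x, hx, hx0⟩ := hE.ne
        obtain ⟨y, hyA, hy, hly⟩ := hE.exists_comp g hx hx0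
        refine (h.log_eq trivial hy fun h0 => hx0 ?_).symm
        rw [← hly]
        exact hcase y ⟨hyA, h0⟩
    · intro g
      have hKg : LinearMap.ker l ≤ (LinearMap.ker l).comap (ρ g) := fun x hx => hK g x hx
      obtain ⟨h1, h2⟩ := log_det_quot h g hKg
      obtain ⟨h3, h4⟩ := hm3 g
      have h5 := LinearMap.det_eq_det_mul_det (LinearMap.ker l) (ρ g) hKg
      have h6 : LinearMap.det ((ρ g).restrict hKg) =
          LinearMap.det (resR ρ (LinearMap.ker l) hK g) := rfl
      rw [h6] at h5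
      refine ⟨by rw [h5]; exact mul_ne_zero h3 h1, ?_⟩
      rw [h5, abs_mul, Real.log_mul (abs_ne_zero.2 h3) (abs_ne_zero.2 h1), h4, h2,
        List.map_append, List.sum_append, List.map_replicate, List.sum_replicate, nsmul_eq_mul]
      ring

end mult

end Vale.Agent.P188.H269
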