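import Vale.Agent.P188.H616.M5

/-!
# P188: the measure of `N_R = ker η`
-/

set_option linter.all false

open MeasureTheory Set

namespace Vale.Agent.P188.Z1.RModel.F6

variable {S : Type} [Group S] [MeasurableSpace S] {Γ : Type} [Group Γ]
  {V : Type} [AddCommGroup V] [Module ℝ V] {k : ℕ} (M : RModel S Γ V k)

theorem ker_meas : MeasurableSet ((M.η.ker : Subgroup S) : Set S) := by
  have : ((M.η.ker : Subgroup S) : Set S) = {x | M.η x = 1} := by
    ext x
    exact MonoidHom.mem_ker
  rw [this]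
  exact M.η_meas 1

theorem ker_emb : MeasurableEmbedding (Subtype.val : M.η.ker → S) :=
  MeasurableEmbedding.subtype_coe (ker_meas M)

/-- the measure on `ker η` -/
noncomputable def nuK : Measure M.η.ker := M.μ.comap Subtype.val

theorem nuK_image (A : Set M.η.ker) : nuK M A = M.μ (Subtype.val '' A) :=
  (ker_emb M).comap_apply _ _

/-- `ν (val ⁻¹ A) = μ (A ∩ ker η)` -/
theorem nuK_preimage (A : Set S) : nuK M (Subtype.val ⁻¹' A) = M.μ (A ∩ (M.η.ker : Set S)) := by
  rw [nuK_image]
  congr 1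
  ext x
  constructor
  · rintro ⟨y, hy, rfl⟩
    exact ⟨hy, y.2⟩
  · rintro ⟨h1, h2⟩
    exact ⟨⟨x, h2⟩, h1, rfl⟩

theorem nuK_eq : nuK M = Measure.sum fun i => (sfiniteSeq M.μ i).comap Subtype.val := by
  ext A hA
  rw [nuK_image, Measure.sum_apply _ hA]
  have h1 : MeasurableSet (Subtype.val '' A : Set S) := (ker_emb M).measurableSet_image.2 hA
  conv_lhs => rw [← sum_sfiniteSeq M.μ]
  rw [Measure.sum_apply _ h1]
  refine tsum_congr fun i => ?_
  exact ((ker_emb M).comap_apply _ _).symm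

instance nuK_sfinite : SFinite (nuK M) := by
  rw [nuK_eq]
  have : ∀ i, IsFiniteMeasure ((sfiniteSeq M.μ i).comap (Subtype.val : M.η.ker → S)) := by
    intro i
    refine ⟨?_⟩
    rw [(ker_emb M).comap_apply]
    exact measure_lt_top _ _
  infer_instance

/-- two-sided invariance, for all sets -/
theorem nuK_inv (n e : M.η.ker) (A : Set M.η.ker) :
    nuK M {v | n * v * e ∈ A} ≤ nuK M A := by
  rw [nuK_image, nuK_image]
  have hmp : MeasurePreserving (fun x : S => (n : S) * x * (e : S)) M.μ M.μ :=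
    (M.mp (e : S)).comp (M.mpl (n : S))
  refine le_trans (measure_mono ?_) (mp_le M hmp _)
  rintro _ ⟨v, hv, rfl⟩
  exact ⟨n * v * e, hv, rfl⟩

end Vale.Agent.P188.Z1.RModel.F6
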