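import Vale.Agent.P188.Z1.Inst

/-!
# P188: projections to the weight spaces
-/

set_option linter.all false

open MeasureTheory Set

namespace Vale.Agent.P188.H269

open Vale.Agent.P188.H796 Vale.Agent.P188.H615
open Vale.Agent.P188.H530 (hgt)

/-- projections of an independent family with sum `⊤` -/
theorem exists_proj_abs {W ι : Type*} [AddCommGroup W] [Module ℝ W] (p : ι → Submodule ℝ W)
    (h : iSupIndep p) (ht : ⨆ i, p i = ⊤) : ∃ P : ι → W →ₗ[ℝ] W, (∀ b, ∀ v ∈ p b, P b v = v) ∧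
      (∀ b b', b ≠ b' → ∀ v ∈ p b', P b v = 0) ∧ ∀ b v, P b v ∈ p b := by
  have hc : ∀ b, IsCompl (p b) (⨆ j, ⨆ (_ : j ≠ b), p j) := by
    intro b
    refine ⟨h b, ?_⟩
    rw [codisjoint_iff, eq_top_iff, ← ht]
    refine iSup_le fun j => ?_
    by_cases hj : j = b
    · subst hj; exact le_sup_left
    · exact le_trans (le_iSup₂_of_le j hj le_rfl) le_sup_right
  refine ⟨fun b => (p b).subtype.comp ((p b).projectionOnto _ (hc b)), ?_, ?_, ?_⟩
  · intro b v hv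
    have := Submodule.projectionOnto_apply_left (hc b) ⟨v, hv⟩
    rw [LinearMap.comp_apply]
    rw [this]
    rfl
  · intro b b' hne v hv
    have h1 : v ∈ ⨆ j, ⨆ (_ : j ≠ b), p j :=
      (le_iSup₂_of_le (f := fun j (_ : j ≠ b) => p j) b' (Ne.symm hne) le_rfl) hv
    have := Submodule.projectionOnto_apply_right (hc b) ⟨v, h1⟩
    rw [LinearMap.comp_apply]
    rw [this, map_zero]
  · intro b v
    exact ((p b).projectionOnto _ (hc b) v).2

section proj

variable {Γ : Type} [Group Γ] {k : ℕ} {η : Γ →* Multiplicative (Fin k → ℤ)} {d n : ℕ}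
  (D : MB η.ker d n) (hη : Function.Surjective η) {t : D.S}

/-- the values at a separating element determine the weights -/
theorem wt_t_inj (hs : Sep D.AdE t) {b b' : (Fin k → ℝ) →L[ℝ] ℝ} (hb : b ∈ WtF D hη)
    (hb' : b' ∈ WtF D hη) (h : b (hgt (D.θ η) t) = b' (hgt (D.θ η) t)) : b = b' := by
  by_cases h0 : b = 0
  · subst h0
    by_contra hne
    exact wt_t_ne D hη hs hb' (Ne.symm hne) (by rw [← h, _root_.zero_apply])
  · by_cases h0' : b' = 0
    · subst h0'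
      exact absurd (by rw [h, _root_.zero_apply]) (wt_t_ne D hη hs hb h0)
    · have h1 := ((mem_WtF D hη).1 hb).resolve_left h0
      have h2 := ((mem_WtF D hη).1 hb').resolve_left h0'
      have h3 := hs.2 _ h1 _ h2 h
      exact clm_ext D hη fun s => congrFun h3 s

/-- **independence of the weight spaces** -/
theorem Vwt_indep (hs : Sep D.AdE t) : iSupIndep (Vwt D hη t) := by
  intro b
  rw [Submodule.disjoint_def]
  intro x hx hx'
  by_cases hb : b ∈ WtF D hη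
  · set p : ℝ → Submodule ℝ D.R.V := fun r =>
      ⨆ j : {j : (Fin k → ℝ) →L[ℝ] ℝ // j ≠ b ∧ j (hgt (D.θ η) t) = r}, Vwt D hη t j with hp
    have hle : ∀ r, p r ≤ Wt (D.AdE t) (D.AdE t⁻¹) r := by
      intro r
      refine iSup_le ?_
      rintro ⟨j, hj, rfl⟩
      exact Vwt_le D hη t j
    have hmem : x ∈ ⨆ r, p r := by
      refine (iSup₂_le ?_ : (⨆ j, ⨆ (_ : j ≠ b), Vwt D hη t j) ≤ ⨆ r, p r) hx'
      intro j hj
      refine le_trans ?_ (le_iSup p (j (hgt (D.θ η) t)))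
      exact le_iSup (fun j : {j' : (Fin k → ℝ) →L[ℝ] ℝ // j' ≠ b ∧
        j' (hgt (D.θ η) t) = j (hgt (D.θ η) t)} => Vwt D hη t j) ⟨j, hj, rfl⟩
    have h1 := Wt_inf_iSup (rho_inv_mul D.AdE t) p hle (Vwt_le D hη t b hx) hmem
    have h2 : p (b (hgt (D.θ η) t)) = ⊥ := by
      rw [eq_bot_iff]
      refine iSup_le ?_
      rintro ⟨j, hj, hjt⟩
      by_cases hj' : j ∈ WtF D hη
      · exact absurd (wt_t_inj D hη hs hj' hb hjt) hj
      · show Vwt D hη t j ≤ ⊥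
        rw [Vwt_of_not D hη t hj']
    rw [h2, Submodule.mem_bot] at h1
    exact h1
  · rw [Vwt_of_not D hη t hb, Submodule.mem_bot] at hx
    exact hx

/-- **projections to the weight spaces** -/
theorem exists_projV (hs : Sep D.AdE t) : ∃ P : ((Fin k → ℝ) →L[ℝ] ℝ) → (D.R.V →ₗ[ℝ] D.R.V),
    (∀ b, ∀ v ∈ Vwt D hη t b, P b v = v) ∧
    (∀ b b', b ≠ b' → ∀ v ∈ Vwt D hη t b', P b v = 0) ∧ ∀ b v, P b v ∈ Vwt D hη t b :=
  exists_proj_abs _ (Vwt_indep D hη hs) (iSup_Vwt D hη)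

end proj

end Vale.Agent.P188.H269

namespace Vale.Agent.P188.Z1

open Vale.Agent.P188.H796 Vale.Agent.P188.H615 Vale.Agent.P188.H269

variable {Γ : Type} [Group Γ] {k : ℕ} {η : Γ →* Multiplicative (Fin k → ℤ)} {d n : ℕ}
  {D : MB η.ker d n} {hη : Function.Surjective η} {F : Set Γ} {t : D.S}
  {M : RModel D.S Γ D.R.V k}

/-- **projections to the weight spaces of the model** -/
theorem Conc.exists_proj (hM : Conc D hη F t M) :
    ∃ P : (Ht k →L[ℝ] ℝ) → (D.R.V →ₗ[ℝ] D.R.V), (∀ b, ∀ v ∈ M.Vw b, P b v = v) ∧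
      (∀ b b', b ≠ b' → ∀ v ∈ M.Vw b', P b v = 0) := by
  obtain ⟨P, h1, h2, _⟩ := exists_projV D hη hM.sep
  rw [hM.Vw_eq]
  exact ⟨P, h1, h2⟩

/-- projections to the weight spaces of the model, with the range -/
theorem Conc.exists_proj' (hM : Conc D hη F t M) :
    ∃ P : (Ht k →L[ℝ] ℝ) → (D.R.V →ₗ[ℝ] D.R.V), (∀ b, ∀ v ∈ M.Vw b, P b v = v) ∧
      (∀ b b', b ≠ b' → ∀ v ∈ M.Vw b', P b v = 0) ∧ ∀ b v, P b v ∈ M.Vw b := by
  rw [hM.Vw_eq]
  exact exists_projV D hη hM.sep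

theorem Conc.Vw_indep (hM : Conc D hη F t M) : iSupIndep M.Vw := by
  rw [hM.Vw_eq]
  exact Vwt_indep D hη hM.sep

theorem Conc.iSup_Vw (hM : Conc D hη F t M) : ⨆ b, M.Vw b = ⊤ := by
  rw [hM.Vw_eq]
  exact iSup_Vwt D hη

end Vale.Agent.P188.Z1
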