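import Vale.Agent.P188.H269.Inst
import Vale.Agent.P188.H530.CrossZ
import Vale.Agent.P188.H796.InstA

/-!
Block RM-b of the real model: weights and weight spaces.
-/

open Finset
open scoped commutatorElement

universe u v w

namespace Vale.Agent.P188.H269

open Vale.Agent.P188.H796 Vale.Agent.P188.H615
open Vale.Agent.P188.H530 (hgt)

section clm

variable {G : Type u} [Group G] {k : ℕ}

/-- an additive function of the height is a linear form of the height -/
theorem exists_clm' (η : G →* Multiplicative (Fin k → ℤ)) (hη : Function.Surjective η)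
    (f : G → ℝ) (hf : ∀ x y, f (x * y) = f x + f y) (h0 : ∀ x, η x = 1 → f x = 0) :
    ∃ b : (Fin k → ℝ) →L[ℝ] ℝ, ∀ g, b (hgt η g) = f g := by
  classical
  choose lift hlift using hη
  have hker : ∀ x y : G, η x = η y → f x = f y := by
    intro x y h
    have h1 : η (x⁻¹ * y) = 1 := by rw [map_mul, map_inv, h, inv_mul_cancel]
    have h2 := hf x (x⁻¹ * y)
    rw [mul_inv_cancel_left, h0 _ h1, add_zero] at h2
    exact h2.symm
  let ψ : (Fin k → ℤ) →+ ℝ :=
    { toFun := fun q => f (lift (Multiplicative.ofAdd q))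
      map_zero' := h0 _ (by rw [hlift]; rfl)
      map_add' := by
        intro q q'
        rw [hker (lift (Multiplicative.ofAdd (q + q')))
          (lift (Multiplicative.ofAdd q) * lift (Multiplicative.ofAdd q')) (by
            rw [map_mul, hlift, hlift, hlift]; rfl), hf] }
  have hψ : ∀ q : Fin k → ℤ, ψ q = ∑ i, (q i : ℝ) * ψ (Pi.single i 1) := by
    intro q
    have e : q = ∑ i, q i • (Pi.single i 1 : Fin k → ℤ) := by
      funext j
      simp [Finset.sum_apply, Pi.single_apply]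
    conv_lhs => rw [e]
    rw [map_sum]
    refine Finset.sum_congr rfl fun i _ => ?_
    rw [map_zsmul, zsmul_eq_mul]
  refine ⟨∑ i, ψ (Pi.single i 1) • ContinuousLinearMap.proj i, fun g => ?_⟩
  have h1 : f g = ψ (Multiplicative.toAdd (η g)) := by
    refine hker _ _ ?_
    rw [hlift]
    rfl
  rw [h1, hψ]
  simp only [_root_.sum_apply, _root_.smul_apply,
    ContinuousLinearMap.proj_apply, smul_eq_mul, hgt]
  exact Finset.sum_congr rfl fun i _ => mul_comm _ _

/-- linear forms are determined by the integral heights -/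
theorem clm_ext_int {b b' : (Fin k → ℝ) →L[ℝ] ℝ}
    (h : ∀ q : Fin k → ℤ, b (fun i => (q i : ℝ)) = b' (fun i => (q i : ℝ))) : b = b' := by
  classical
  refine ContinuousLinearMap.ext fun x => ?_
  have h2 : ∀ i : Fin k, b (Pi.single i 1) = b' (Pi.single i 1) := by
    intro i
    have e : (fun j => ((Pi.single i 1 : Fin k → ℤ) j : ℝ)) = Pi.single i 1 := by
      funext j
      by_cases hij : j = i
      · subst hij; simp
      · simp [hij]
    have := h (Pi.single i 1)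
    rwa [e] at this
  have e : x = ∑ i, x i • (Pi.single i 1 : Fin k → ℝ) := by
    funext j
    simp [Finset.sum_apply, Pi.single_apply]
  rw [e, map_sum, map_sum]
  simp [h2]

end clm

section eig

variable {G : Type u} [Group G] {V : Type v} [AddCommGroup V] [Module ℝ V]
  {ρ : G →* Module.End ℝ V} {A : Submodule ℝ V} {l : V →ₗ[ℝ] ℂ} {χ : G → ℂ}

/-- the eigenvalues of unipotent elements are one -/
theorem EigOn.eq_one_of_unip (h : EigOn ρ A l χ) {N : Subgroup G} (hU : UnipOn N ρ) {n : G}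
    (hn : n ∈ N) : χ n = 1 := by
  obtain ⟨E, d, h0, hd, hE⟩ := hU
  obtain ⟨x, hx, hx0⟩ := h.ne
  have key : ∀ j : ℕ, ∃ y ∈ A, y ∈ E j ∧ l y = (χ n - 1) ^ j * l x := by
    intro j
    induction j with
    | zero => exact ⟨x, hx, by rw [h0]; trivial, by simp⟩
    | succ j ih =>
      obtain ⟨y, hy, hyE, hly⟩ := ih
      refine ⟨ρ n y - y, A.sub_mem (h.inv n y hy) hy, hE n hn j y hyE, ?_⟩
      rw [map_sub, h.eig n y hy, hly, pow_succ]; ring
  obtain ⟨y, _, hyE, hly⟩ := key d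
  rw [hd, Submodule.mem_bot] at hyE
  rw [hyE, map_zero] at hly
  rcases mul_eq_zero.1 hly.symm with h1 | h1
  · exact sub_eq_zero.1 (eq_zero_of_pow_eq_zero h1)
  · exact absurd h1 hx0

end eig

section weights

variable {Γ : Type} [Group Γ] {k : ℕ} {η : Γ →* Multiplicative (Fin k → ℤ)} {d n : ℕ}
  (D : MB η.ker d n)

/-- the Cartan hypotheses -/
theorem HS : ExpS D.AdE (D.ex : D.R.V → D.S) := expS D (comm_mem_ker η)

theorem θ_one_iff (s : D.S) : D.θ η s = 1 ↔ s ∈ (HS D).N := by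
  rw [ExpS.mem_N]
  constructor
  · exact D.ex_of_θ s
  · rintro ⟨v, rfl⟩
    exact D.θ_ex v

/-- weights are linear forms of the height -/
theorem exists_clm_of_Wts (hη : Function.Surjective η) {b' : D.S → ℝ}
    (hb : b' ∈ Wts D.AdE ⊤) : ∃ b : (Fin k → ℝ) →L[ℝ] ℝ, ∀ s, b (hgt (D.θ η) s) = b' s := by
  obtain ⟨A, _, l, χ, hE, hb⟩ := hb
  refine exists_clm' (D.θ η) (D.θ_surjective hη) b' ?_ ?_
  · intro x y
    rw [hb, hb, hb, hE.log_mul]
  · intro x hx
    have h1 := hE.eq_one_of_unip (HS D).lrep.unipOn ((θ_one_iff D x).1 hx)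
    rw [hb, h1, norm_one, Real.log_one]

/-- `b` is a weight of `Ad` -/
def IsWt (b : (Fin k → ℝ) →L[ℝ] ℝ) : Prop :=
  (fun s : D.S => b (hgt (D.θ η) s)) ∈ Wts D.AdE ⊤

/-- `b` is a nonzero weight of the abelianization of `V` -/
def IsGen (b : (Fin k → ℝ) →L[ℝ] ℝ) : Prop :=
  b ≠ 0 ∧ ∃ (l : D.R.V →ₗ[ℝ] ℂ) (χ : D.S → ℂ), EigOn D.AdE ⊤ l χ ∧
    (∀ x y : D.R.V, l ⁅x, y⁆ = 0) ∧ ∀ s, b (hgt (D.θ η) s) = Real.log ‖χ s‖

theorem IsGen.isWt {b : (Fin k → ℝ) →L[ℝ] ℝ} (h : IsGen D b) : IsWt D b := by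
  obtain ⟨_, l, χ, hE, _, hb⟩ := h
  exact ⟨⊤, le_top, l, χ, hE, hb⟩

theorem hgt_surj (hη : Function.Surjective η) (q : Fin k → ℤ) :
    ∃ s : D.S, hgt (D.θ η) s = fun i => (q i : ℝ) := by
  obtain ⟨s, hs⟩ := D.θ_surjective hη (Multiplicative.ofAdd q)
  refine ⟨s, ?_⟩
  funext i
  simp [hgt, hs]

theorem clm_ext (hη : Function.Surjective η) {b b' : (Fin k → ℝ) →L[ℝ] ℝ}
    (h : ∀ s : D.S, b (hgt (D.θ η) s) = b' (hgt (D.θ η) s)) : b = b' := by
  refine clm_ext_int fun q => ?_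
  obtain ⟨s, hs⟩ := hgt_surj D hη q
  rw [← hs]
  exact h s

theorem finite_isWt (hη : Function.Surjective η) : {b | IsWt D b}.Finite := by
  have hN := (HS D).normal
  have hfin := finite_Wts (HS D).lrep.comm D.AdE (HS D).lrep.unipOn ⊤ (fun _ _ _ => trivial)
  refine Set.Finite.of_finite_image (f := fun b => fun s : D.S => b (hgt (D.θ η) s))
    (hfin.subset ?_) ?_
  · rintro _ ⟨b, hb, rfl⟩
    exact hb
  · intro b _ b' _ h
    exact clm_ext D hη fun s => congrFun h s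

theorem finite_isGen (hη : Function.Surjective η) : {b | IsGen D b}.Finite :=
  (finite_isWt D hη).subset fun _ h => h.isWt

/-- the finite set of weights (and `0`) -/
noncomputable def WtF (hη : Function.Surjective η) : Finset ((Fin k → ℝ) →L[ℝ] ℝ) :=
  open Classical in insert 0 (finite_isWt D hη).toFinset

/-- the finite set of nonzero generator weights -/
noncomputable def ΦF (hη : Function.Surjective η) : Finset ((Fin k → ℝ) →L[ℝ] ℝ) :=
  (finite_isGen D hη).toFinset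

variable (hη : Function.Surjective η)

theorem mem_WtF {b : (Fin k → ℝ) →L[ℝ] ℝ} : b ∈ WtF D hη ↔ b = 0 ∨ IsWt D b := by
  classical
  unfold WtF
  rw [Finset.mem_insert, Set.Finite.mem_toFinset]; rfl

theorem mem_ΦF {b : (Fin k → ℝ) →L[ℝ] ℝ} : b ∈ ΦF D hη ↔ IsGen D b := by
  unfold ΦF
  rw [Set.Finite.mem_toFinset]; rfl

theorem zero_mem_WtF : (0 : (Fin k → ℝ) →L[ℝ] ℝ) ∈ WtF D hη := (mem_WtF D hη).2 (Or.inl rfl)

theorem ΦF_sub : ΦF D hη ⊆ WtF D hη := fun _ hb =>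
  (mem_WtF D hη).2 (Or.inr ((mem_ΦF D hη).1 hb).isWt)

theorem ΦF_ne {b : (Fin k → ℝ) →L[ℝ] ℝ} (hb : b ∈ ΦF D hη) : b ≠ 0 := ((mem_ΦF D hη).1 hb).1

variable (t : D.S)

/-- the weight spaces -/
noncomputable def Vwt (b : (Fin k → ℝ) →L[ℝ] ℝ) : Submodule ℝ D.R.V :=
  open Classical in if b ∈ WtF D hη then W D.AdE t (b (hgt (D.θ η) t)) else ⊥

theorem Vwt_of_mem {b : (Fin k → ℝ) →L[ℝ] ℝ} (hb : b ∈ WtF D hη) :
    Vwt D hη t b = W D.AdE t (b (hgt (D.θ η) t)) := if_pos hb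

theorem Vwt_of_not {b : (Fin k → ℝ) →L[ℝ] ℝ} (hb : b ∉ WtF D hη) : Vwt D hη t b = ⊥ := if_neg hb

theorem Vwt_zero : Vwt D hη t 0 = W D.AdE t 0 := by
  rw [Vwt_of_mem D hη t (zero_mem_WtF D hη), _root_.zero_apply]

theorem Vwt_le (b : (Fin k → ℝ) →L[ℝ] ℝ) : Vwt D hη t b ≤ W D.AdE t (b (hgt (D.θ η) t)) := by
  by_cases hb : b ∈ WtF D hη
  · rw [Vwt_of_mem D hη t hb]
  · rw [Vwt_of_not D hη t hb]; exact bot_le

variable {t}

/-- nonzero weights do not vanish on `t` -/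
theorem wt_t_ne (hs : Sep D.AdE t) {b : (Fin k → ℝ) →L[ℝ] ℝ} (hb : b ∈ WtF D hη) (hb0 : b ≠ 0) :
    b (hgt (D.θ η) t) ≠ 0 := by
  intro h
  rcases (mem_WtF D hη).1 hb with h1 | h1
  · exact hb0 h1
  · apply hb0
    have h2 := hs.1 _ h1 h
    exact clm_ext D hη fun s => by
      rw [_root_.zero_apply]
      exact congrFun h2 s

theorem Vwt_e (hs : Sep D.AdE t) {b : (Fin k → ℝ) →L[ℝ] ℝ} (hb0 : b ≠ 0) :
    Vwt D hη t b ≤ (eId D.AdE t).toSubmodule := by
  by_cases hb : b ∈ WtF D hη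
  · rw [Vwt_of_mem D hη t hb]
    intro x hx
    exact Wt_le_eI (wt_t_ne D hη hs hb hb0) hx
  · rw [Vwt_of_not D hη t hb]; exact bot_le

theorem Vwt_inv {c : D.S} (hc : c ∈ (HS D).C t) {b : (Fin k → ℝ) →L[ℝ] ℝ} {v : D.R.V}
    (hv : v ∈ Vwt D hη t b) : D.AdE c v ∈ Vwt D hη t b := by
  by_cases hb : b ∈ WtF D hη
  · rw [Vwt_of_mem D hη t hb] at hv ⊢
    exact (HS D).C_inv hc _ v hv
  · rw [Vwt_of_not D hη t hb, Submodule.mem_bot] at hv
    rw [hv, map_zero]
    exact Submodule.zero_mem _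

/-- the Cartan group acts on the weight spaces through the weights -/
theorem Vwt_le_C (hs : Sep D.AdE t) {c : D.S} (hc : c ∈ (HS D).C t) (b : (Fin k → ℝ) →L[ℝ] ℝ) :
    Vwt D hη t b ≤ W D.AdE c (b (hgt (D.θ η) c)) := by
  by_cases hb : b ∈ WtF D hη
  · rw [Vwt_of_mem D hη t hb]
    by_cases hbW : IsWt D b
    · exact (HS D).W_le hs hbW hc
    · rcases (mem_WtF D hη).1 hb with h1 | h1
      · subst h1
        rw [_root_.zero_apply, _root_.zero_apply]
        by_cases h0 : W D.AdE t 0 = ⊥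
        · rw [h0]; exact bot_le
        · obtain ⟨b, hb, hbt⟩ := (HS D).exists_weight t h0
          have hb0 : b = 0 := hs.1 b hb hbt
          have h1 := (HS D).W_le hs hb hc
          rw [hbt, hb0] at h1
          exact h1
      · exact absurd h1 hbW
  · rw [Vwt_of_not D hη t hb]; exact bot_le

include hη in
/-- the heights of the Cartan group -/
theorem exists_C (q : Multiplicative (Fin k → ℤ)) :
    ∃ c ∈ (HS D).C t, D.θ η c = q := by
  obtain ⟨s, hs⟩ := D.θ_surjective hη q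
  obtain ⟨x, _, hx⟩ := (HS D).exists_mul_mem_C t s
  exact ⟨_, hx, by rw [map_mul, D.θ_ex, one_mul, hs]⟩

include hη in
theorem clm_ext_C {b b' : (Fin k → ℝ) →L[ℝ] ℝ}
    (h : ∀ c ∈ (HS D).C t, b (hgt (D.θ η) c) = b' (hgt (D.θ η) c)) : b = b' := by
  refine clm_ext_int fun q => ?_
  obtain ⟨c, hc, hcq⟩ := exists_C D hη (t := t) (Multiplicative.ofAdd q)
  have h1 : hgt (D.θ η) c = fun i => (q i : ℝ) := by
    funext i
    simp [hgt, hcq]
  rw [← h1]
  exact h c hc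

include hη in
/-- a linear form which gives the moduli of the Cartan group on a nonzero vector is a weight -/
theorem exists_wt_of_C (hs : Sep D.AdE t) {b : (Fin k → ℝ) →L[ℝ] ℝ} {x : D.R.V} (hx0 : x ≠ 0)
    (hx : ∀ c ∈ (HS D).C t, x ∈ W D.AdE c (b (hgt (D.θ η) c))) : IsWt D b := by
  have h1 : W D.AdE t (b (hgt (D.θ η) t)) ≠ ⊥ := by
    intro h
    have := hx t ((HS D).t_mem_C t)
    rw [h, Submodule.mem_bot] at this
    exact hx0 this
  obtain ⟨b', hb', hbt⟩ := (HS D).exists_weight t h1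
  obtain ⟨b₁, hb₁⟩ := exists_clm_of_Wts D hη hb'
  have h2 : b₁ = b := by
    refine clm_ext_C D hη (t := t) fun c hc => ?_
    have h3 : x ∈ W D.AdE t (b' t) := by
      rw [hbt]; exact hx t ((HS D).t_mem_C t)
    have h4 := (HS D).W_le hs hb' hc h3
    have h5 := hx c hc
    by_contra hne
    rw [← hb₁] at h4
    exact hx0 (Wt_disjoint (rho_inv_mul D.AdE c) hne h4 h5)
  rw [← h2]
  unfold IsWt
  have : (fun s : D.S => b₁ (hgt (D.θ η) s)) = b' := funext hb₁
  rw [this]; exact hb'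

/-- **the grading** -/
theorem lie_Vwt (hs : Sep D.AdE t) {b b' : (Fin k → ℝ) →L[ℝ] ℝ} {x y : D.R.V}
    (hx : x ∈ Vwt D hη t b) (hy : y ∈ Vwt D hη t b') : ⁅x, y⁆ ∈ Vwt D hη t (b + b') := by
  by_cases h0 : ⁅x, y⁆ = 0
  · rw [h0]; exact Submodule.zero_mem _
  · have h1 : ∀ c ∈ (HS D).C t, ⁅x, y⁆ ∈ W D.AdE c ((b + b') (hgt (D.θ η) c)) := by
      intro c hc
      rw [_root_.add_apply]
      exact (HS D).lie_W c (Vwt_le_C D hη hs hc b hx) (Vwt_le_C D hη hs hc b' hy)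
    have h2 : b + b' ∈ WtF D hη :=
      (mem_WtF D hη).2 (Or.inr (exists_wt_of_C D hη hs h0 h1))
    rw [Vwt_of_mem D hη t h2]
    exact h1 t ((HS D).t_mem_C t)

/-- `V` is the sum of the weight spaces -/
theorem iSup_Vwt : ⨆ b, Vwt D hη t b = ⊤ := by
  rw [eq_top_iff, ← iSup_Wt_eq_top (rho_inv_mul D.AdE t) (rho_mul_inv D.AdE t)]
  refine iSup_le fun r => ?_
  change W D.AdE t r ≤ _
  by_cases h0 : W D.AdE t r = ⊥
  · rw [h0]; exact bot_le
  · obtain ⟨b', hb', hbt⟩ := (HS D).exists_weight t h0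
    obtain ⟨b, hb⟩ := exists_clm_of_Wts D hη hb'
    have hbW : IsWt D b := by
      unfold IsWt
      rw [show (fun s : D.S => b (hgt (D.θ η) s)) = b' from funext hb]
      exact hb'
    refine le_trans ?_ (le_iSup (fun b => Vwt D hη t b) b)
    rw [Vwt_of_mem D hη t ((mem_WtF D hη).2 (Or.inr hbW)), hb, hbt]

end weights

end Vale.Agent.P188.H269
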