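import Vale.Agent.P188.H269.RMb1

/-!
Block RM-b of the real model: generation by the generator weight spaces, crossed homomorphisms.
-/

open Finset
open scoped commutatorElement

universe u v w

namespace Vale.Agent.P188.H269

open Vale.Agent.P188.H796 Vale.Agent.P188.H615
open Vale.Agent.P188.H530 (hgt Crossed)
open Vale.Agent.P188.H754 (GenWeight)

section nil

variable {V : Type v} [LieRing V] [LieAlgebra ℝ V]

/-- a subalgebra which generates an ideal modulo its derived ideal is the whole ideal -/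
theorem le_of_le_sup (hnil : LieModule.IsNilpotent V V) (e : LieIdeal ℝ V)
    (P : LieSubalgebra ℝ V) (hPe : ∀ x ∈ P, x ∈ e)
    (h0 : e.toSubmodule ≤ P.toSubmodule ⊔ (⁅e, e⁆ : LieIdeal ℝ V).toSubmodule) :
    ∀ x ∈ e, x ∈ P := by
  let C : ℕ → LieIdeal ℝ V := fun k => Nat.rec e (fun _ I => ⁅e, I⁆) k
  have hC0 : C 0 = e := rfl
  have hCs : ∀ k, C (k + 1) = ⁅e, C k⁆ := fun k => rfl
  have hClcs : ∀ k, C k ≤ LieModule.lowerCentralSeries ℝ V V k := by
    intro k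
    induction k with
    | zero => rw [LieModule.lowerCentralSeries_zero]; exact le_top
    | succ k ih =>
      rw [hCs, LieModule.lowerCentralSeries_succ]
      exact LieSubmodule.mono_lie le_top ih
  have hCe : ∀ k, C k ≤ e := by
    intro k
    cases k with
    | zero => exact le_rfl
    | succ k => rw [hCs]; exact LieSubmodule.lie_le_left _ _
  have key : ∀ k, e.toSubmodule ≤ P.toSubmodule ⊔ (C k).toSubmodule := by
    intro k
    induction k with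
    | zero => rw [hC0]; exact le_sup_right
    | succ k ih =>
      have h1 : (⁅e, e⁆ : LieIdeal ℝ V).toSubmodule ≤ P.toSubmodule ⊔ (C (k + 1)).toSubmodule := by
        rw [LieSubmodule.lieIdeal_oper_eq_linear_span', Submodule.span_le]
        rintro _ ⟨a, ha, b, hb, rfl⟩
        obtain ⟨p, hp, c, hc, rfl⟩ := Submodule.mem_sup.1 (ih ha)
        obtain ⟨p', hp', c', hc', rfl⟩ := Submodule.mem_sup.1 (ih hb)
        have e1 : ⁅p + c, p' + c'⁆ = ⁅p, p'⁆ + (⁅p, c'⁆ - ⁅p', c⁆ + ⁅c, c'⁆) := by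
          rw [add_lie, lie_add, lie_add, ← lie_skew c p']; abel
        rw [e1]
        refine Submodule.add_mem _ (Submodule.mem_sup_left (P.lie_mem hp hp'))
          (Submodule.mem_sup_right ?_)
        rw [hCs]
        exact add_mem (sub_mem (LieSubmodule.lie_mem_lie (hPe p hp) hc')
          (LieSubmodule.lie_mem_lie (hPe p' hp') hc))
          (LieSubmodule.lie_mem_lie (hCe k hc) hc')
      exact h0.trans (sup_le le_sup_left h1)
  obtain ⟨k, hk⟩ := hnil.nilpotent ℝ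
  intro x hx
  have h6 := key k hx
  have h7 : C k = ⊥ := by
    rw [eq_bot_iff, ← hk]; exact hClcs k
  rw [h7] at h6
  simpa using h6

end nil

section gen

variable {Γ : Type} [Group Γ] {k : ℕ} {η : Γ →* Multiplicative (Fin k → ℤ)} {d n : ℕ}
  (D : MB η.ker d n) (hη : Function.Surjective η) {t : D.S}

/-- a nonzero modulus of `t` not contained in `[V, V]` comes from a generator weight -/
theorem exists_gen_of_not (hs : Sep D.AdE t) {r : ℝ} (hr : r ≠ 0)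
    (h : ¬ W D.AdE t r ≤ (⁅(⊤ : LieIdeal ℝ D.R.V), (⊤ : LieIdeal ℝ D.R.V)⁆ :
      LieIdeal ℝ D.R.V).toSubmodule) : ∃ b ∈ ΦF D hη, W D.AdE t r = Vwt D hη t b := by
  have hN := (HS D).normal
  obtain ⟨l, χ, hE, hbr, hlog⟩ := (HS D).lrep.exists_char t h
  obtain ⟨b, hb⟩ := exists_clm_of_Wts D hη (b' := fun s => Real.log ‖χ s‖)
    ⟨⊤, le_top, l, χ, hE, fun _ => rfl⟩
  have hbt : b (hgt (D.θ η) t) = r := by rw [hb, hlog]
  have hb0 : b ≠ 0 := by
    rintro rfl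
    apply hr
    rw [← hbt, _root_.zero_apply]
  have hbΦ : b ∈ ΦF D hη := (mem_ΦF D hη).2 ⟨hb0, l, χ, hE, hbr, hb⟩
  exact ⟨b, hbΦ, by rw [Vwt_of_mem D hη t (ΦF_sub D hη hbΦ), hbt]⟩

/-- **the generator weight spaces generate `e`** -/
theorem gen_e (hs : Sep D.AdE t) : ∀ v ∈ eId D.AdE t,
    v ∈ LieSubalgebra.lieSpan ℝ D.R.V {x | ∃ b, b ∈ ΦF D hη ∧ x ∈ Vwt D hη t b} := by
  set e := eId D.AdE t with he
  set P := LieSubalgebra.lieSpan ℝ D.R.V {x | ∃ b, b ∈ ΦF D hη ∧ x ∈ Vwt D hη t b} with hP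
  have hh := rho_inv_mul D.AdE t
  have hh' := rho_mul_inv D.AdE t
  have hsub : ∀ b ∈ ΦF D hη, Vwt D hη t b ≤ P.toSubmodule := fun b hb x hx =>
    LieSubalgebra.subset_lieSpan ⟨b, hb, hx⟩
  have hPe : ∀ x ∈ P, x ∈ e := by
    let K : LieSubalgebra ℝ D.R.V :=
      { e.toSubmodule with lie_mem' := fun {x y} _ hy => e.lie_mem hy }
    have h1 : P ≤ K := by
      rw [hP, LieSubalgebra.lieSpan_le]
      rintro x ⟨b, hb, hx⟩
      exact Vwt_e D hη hs (ΦF_ne D hη hb) hx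
    exact fun x hx => h1 hx
  refine le_of_le_sup (HS D).nil e P hPe ?_
  refine (eI_le hh hh' ((HS D).lie t) ((HS D).lie t⁻¹)).trans (sup_le ?_ le_sup_right)
  refine iSup_le fun r => ?_
  by_cases h : W D.AdE t (r : ℝ) ≤ (⁅(⊤ : LieIdeal ℝ D.R.V), (⊤ : LieIdeal ℝ D.R.V)⁆ :
      LieIdeal ℝ D.R.V).toSubmodule
  · exact (Wt_le_derived hh hh' ((HS D).lie t) ((HS D).lie t⁻¹) (HS D).nil r.2 h).trans
      le_sup_right
  · obtain ⟨b, hb, hbr⟩ := exists_gen_of_not D hη hs r.2 h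
    change W D.AdE t (r : ℝ) ≤ _
    rw [hbr]
    exact (hsub b hb).trans le_sup_left

/-- the sum of the weight spaces with weights in a submonoid is a subalgebra -/
noncomputable def VM (hs : Sep D.AdE t) (M : AddSubmonoid ((Fin k → ℝ) →L[ℝ] ℝ)) :
    LieSubalgebra ℝ D.R.V :=
  { (⨆ b : M, Vwt D hη t b : Submodule ℝ D.R.V) with
    lie_mem' := by
      intro x y hx hy
      change ⁅x, y⁆ ∈ (⨆ b : M, Vwt D hη t b : Submodule ℝ D.R.V)
      change x ∈ (⨆ b : M, Vwt D hη t b : Submodule ℝ D.R.V) at hx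
      change y ∈ (⨆ b : M, Vwt D hη t b : Submodule ℝ D.R.V) at hy
      refine Submodule.iSup_induction (fun b : M => Vwt D hη t b)
        (motive := fun x => ⁅x, y⁆ ∈ (⨆ b : M, Vwt D hη t b : Submodule ℝ D.R.V)) hx ?_ ?_ ?_
      · intro b x hx
        refine Submodule.iSup_induction (fun b : M => Vwt D hη t b)
          (motive := fun y => ⁅x, y⁆ ∈ (⨆ b : M, Vwt D hη t b : Submodule ℝ D.R.V)) hy ?_ ?_ ?_
        · intro b' y hy
          exact Submodule.mem_iSup_of_mem (b + b') (lie_Vwt D hη hs hx hy)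
        · rw [lie_zero]; exact Submodule.zero_mem _
        · intro y y' hy hy'
          rw [lie_add]; exact Submodule.add_mem _ hy hy'
      · rw [zero_lie]; exact Submodule.zero_mem _
      · intro x x' hx hx'
        rw [add_lie]; exact Submodule.add_mem _ hx hx' }

theorem VM_eq (hs : Sep D.AdE t) (M : AddSubmonoid ((Fin k → ℝ) →L[ℝ] ℝ)) :
    (VM D hη hs M).toSubmodule = ⨆ b : M, Vwt D hη t b := rfl

/-- `V` is generated by the neutral space and the generator weight spaces -/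
theorem VM_top (hs : Sep D.AdE t) :
    (⨆ b : AddSubmonoid.closure (ΦF D hη : Set ((Fin k → ℝ) →L[ℝ] ℝ)), Vwt D hη t b :
      Submodule ℝ D.R.V) = ⊤ := by
  set M := AddSubmonoid.closure (ΦF D hη : Set ((Fin k → ℝ) →L[ℝ] ℝ)) with hM
  rw [← VM_eq D hη hs, eq_top_iff]
  intro x _
  refine le_of_le_sup (HS D).nil ⊤ (VM D hη hs M) (fun x _ => LieSubmodule.mem_top x) ?_ x
    (LieSubmodule.mem_top x)
  have h1 : ((⊤ : LieIdeal ℝ D.R.V)).toSubmodule =
      ⨆ r, Wt (D.AdE t) (D.AdE t⁻¹) r := by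
    rw [iSup_Wt_eq_top (rho_inv_mul D.AdE t) (rho_mul_inv D.AdE t)]; rfl
  rw [h1]
  refine iSup_le fun r => ?_
  change W D.AdE t r ≤ _
  by_cases hr : r = 0
  · subst hr
    refine le_trans ?_ le_sup_left
    rw [VM_eq, ← Vwt_zero D hη t]
    exact le_iSup (fun b : M => Vwt D hη t b) 0
  · by_cases h : W D.AdE t (r : ℝ) ≤ (⁅(⊤ : LieIdeal ℝ D.R.V), (⊤ : LieIdeal ℝ D.R.V)⁆ :
      LieIdeal ℝ D.R.V).toSubmodule
    · exact h.trans le_sup_right
    · obtain ⟨b, hb, hbr⟩ := exists_gen_of_not D hη hs hr h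
      refine le_trans ?_ le_sup_left
      rw [VM_eq, hbr]
      exact le_iSup (fun b : M => Vwt D hη t b)
        ⟨b, AddSubmonoid.subset_closure (Finset.mem_coe.2 hb)⟩

/-- weights have nonzero weight spaces -/
theorem Vwt_ne_bot {b : (Fin k → ℝ) →L[ℝ] ℝ} (hb : IsWt D b) : Vwt D hη t b ≠ ⊥ := by
  obtain ⟨A, _, l, χ, hE, hl⟩ := hb
  obtain ⟨x, hx, hx0⟩ := hE.ne
  obtain ⟨y, _, hy, hly⟩ := hE.exists_comp t hx hx0
  intro h
  have h1 : b (hgt (D.θ η) t) = Real.log ‖χ t‖ := hl t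
  have h2 : y ∈ Vwt D hη t b := by
    rw [Vwt_of_mem D hη t ((mem_WtF D hη).2 (Or.inr ⟨A, le_top, l, χ, hE, hl⟩)), h1]
    exact hy
  rw [h, Submodule.mem_bot] at h2
  apply hx0
  rw [← hly, h2, map_zero]

/-- **every weight is a sum of generator weights** -/
theorem wt_mem_closure (hs : Sep D.AdE t) {b : (Fin k → ℝ) →L[ℝ] ℝ} (hb : b ∈ WtF D hη) :
    b ∈ AddSubmonoid.closure (ΦF D hη : Set ((Fin k → ℝ) →L[ℝ] ℝ)) := by
  classical
  set M := AddSubmonoid.closure (ΦF D hη : Set ((Fin k → ℝ) →L[ℝ] ℝ)) with hM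
  rcases (mem_WtF D hη).1 hb with rfl | hbW
  · exact M.zero_mem
  have hne := Vwt_ne_bot D hη (t := t) hbW
  obtain ⟨y, hy, hy0⟩ := (Submodule.ne_bot_iff _).1 hne
  rw [Vwt_of_mem D hη t hb] at hy
  let p : ℝ → Submodule ℝ D.R.V := fun s =>
    ⨆ b' : {b' : M // (b' : (Fin k → ℝ) →L[ℝ] ℝ) (hgt (D.θ η) t) = s}, Vwt D hη t (b' : M)
  have hp : ∀ s, p s ≤ Wt (D.AdE t) (D.AdE t⁻¹) s := by
    intro s
    refine iSup_le fun b' => ?_
    have h1 := Vwt_le D hη t ((b' : M) : (Fin k → ℝ) →L[ℝ] ℝ)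
    rw [b'.2] at h1
    exact h1
  have hyp : y ∈ ⨆ s, p s := by
    have h1 : y ∈ (⨆ b : M, Vwt D hη t b : Submodule ℝ D.R.V) := by
      rw [VM_top D hη hs]; trivial
    refine (iSup_le fun b' : M => ?_ :
      (⨆ b : M, Vwt D hη t b : Submodule ℝ D.R.V) ≤ ⨆ s, p s) h1
    refine le_trans ?_ (le_iSup p ((b' : (Fin k → ℝ) →L[ℝ] ℝ) (hgt (D.θ η) t)))
    exact le_iSup (fun b'' : {b'' : M // (b'' : (Fin k → ℝ) →L[ℝ] ℝ) (hgt (D.θ η) t) =
      (b' : (Fin k → ℝ) →L[ℝ] ℝ) (hgt (D.θ η) t)} => Vwt D hη t (b'' : M)) ⟨b', rfl⟩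
  have h2 := Wt_inf_iSup (rho_inv_mul D.AdE t) p hp hy hyp
  have h3 : ∃ b' : {b' : M // (b' : (Fin k → ℝ) →L[ℝ] ℝ) (hgt (D.θ η) t) =
      b (hgt (D.θ η) t)}, Vwt D hη t (b' : M) ≠ ⊥ := by
    by_contra hcon
    push Not at hcon
    apply hy0
    have : p (b (hgt (D.θ η) t)) = ⊥ := by
      simp only [p]
      exact iSup_eq_bot.2 hcon
    rw [this, Submodule.mem_bot] at h2
    exact h2
  obtain ⟨⟨b', hb't⟩, hb'⟩ := h3
  have h4 : (b' : (Fin k → ℝ) →L[ℝ] ℝ) ∈ WtF D hη := by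
    by_contra hcon
    exact hb' (Vwt_of_not D hη t hcon)
  have h5 : (b' : (Fin k → ℝ) →L[ℝ] ℝ) = b := by
    rcases (mem_WtF D hη).1 h4 with h6 | h6
    · rw [h6] at hb't ⊢
      have h7 := hs.1 _ hbW (by rw [← hb't, _root_.zero_apply])
      exact (clm_ext D hη fun s => by
        rw [_root_.zero_apply]
        exact congrFun h7 s).symm
    · have h7 := hs.2 _ h6 _ hbW hb't
      exact clm_ext D hη fun s => congrFun h7 s
  rw [← h5]
  exact b'.2

/-! ### generator weights of `Γ` -/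

/-- an eigenfunctional killing brackets is additive on the group -/
theorem l_Lo_mul {l : D.R.V →ₗ[ℝ] ℂ} (hl : ∀ x y : D.R.V, l ⁅x, y⁆ = 0) (x y : D.R.NR) :
    l (D.R.Lo (x * y)) = l (D.R.Lo x) + l (D.R.Lo y) := by
  have h := Lo_Ex_mul_Ex' D.R (H := ⊤) (I := ⊤)
      (I' := (⁅(⊤ : LieIdeal ℝ D.R.V), (⊤ : LieIdeal ℝ D.R.V)⁆ : LieIdeal ℝ D.R.V).toSubmodule)
      le_rfl le_top (fun x _ y _ => LieSubmodule.lie_mem_lie (LieSubmodule.mem_top x)
        (LieSubmodule.mem_top y)) (v := D.R.Lo x) (w := D.R.Lo y) trivial trivial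
  rw [D.R.Ex_Lo, D.R.Ex_Lo] at h
  have h2 : ∀ z ∈ (⁅(⊤ : LieIdeal ℝ D.R.V), (⊤ : LieIdeal ℝ D.R.V)⁆ :
      LieIdeal ℝ D.R.V).toSubmodule, l z = 0 := by
    intro z hz
    have h3 : (⁅(⊤ : LieIdeal ℝ D.R.V), (⊤ : LieIdeal ℝ D.R.V)⁆ :
      LieIdeal ℝ D.R.V).toSubmodule ≤ LinearMap.ker l := by
      rw [LieSubmodule.lieIdeal_oper_eq_linear_span', Submodule.span_le]
      rintro _ ⟨a, _, b, _, rfl⟩
      exact hl a b
    exact h3 hz
  have h4 := h2 _ h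
  rw [map_sub, map_sub] at h4
  linear_combination h4

theorem l_Lo_pow {l : D.R.V →ₗ[ℝ] ℂ} (hl : ∀ x y : D.R.V, l ⁅x, y⁆ = 0) (x : D.R.NR) (m : ℕ) :
    l (D.R.Lo (x ^ m)) = m * l (D.R.Lo x) := by
  have h0 : l (D.R.Lo 1) = 0 := by
    have := l_Lo_mul D hl 1 1
    rw [mul_one] at this
    linear_combination -this
  induction m with
  | zero => rw [pow_zero, h0]; simp
  | succ m ih => rw [pow_succ, l_Lo_mul D hl, ih]; push_cast; ring

/-- an additive functional which vanishes on `N` vanishes -/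
theorem l_zero_of_N {l : D.R.V →ₗ[ℝ] ℂ} (hl : ∀ x y : D.R.V, l ⁅x, y⁆ = 0)
    (h : ∀ y : η.ker, l (D.R.Lo (D.R.ι y)) = 0) : ∀ v, l v = 0 := by
  intro v
  obtain ⟨C, hC, hCc⟩ := H131.isCompact_closure_cube D.R
  obtain ⟨M, hM⟩ := D.R.exists_Lo_le hC
  let L : D.R.V →L[ℝ] ℂ := LinearMap.toContinuousLinearMap l
  have hb : ∀ s ∈ D.R.cube, ‖l (D.R.Lo s)‖ ≤ ‖L‖ * M := by
    intro s hs
    refine (L.le_opNorm (D.R.Lo s)).trans ?_
    exact mul_le_mul_of_nonneg_left (hM s (hCc hs)) (norm_nonneg _)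
  have hlog1 : l (D.R.Lo 1) = 0 := by
    have := l_Lo_mul D hl 1 1
    rw [mul_one] at this
    linear_combination -this
  have hb' : ∀ s : D.R.NR, ‖l (D.R.Lo s)‖ ≤ ‖L‖ * M := by
    intro s
    obtain ⟨x, c, hc, rfl⟩ := D.R.exists_cube_left s
    rw [l_Lo_mul D hl, h, zero_add]
    have h1 : l (D.R.Lo c) = - l (D.R.Lo c⁻¹) := by
      have := l_Lo_mul D hl c c⁻¹
      rw [mul_inv_cancel, hlog1] at this
      linear_combination -this
    rw [h1, norm_neg]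
    exact hb _ hc
  by_contra hv
  have hpos : 0 < ‖l v‖ := norm_pos_iff.2 hv
  obtain ⟨m, hm⟩ := exists_nat_gt (‖L‖ * M / ‖l v‖)
  have h2 := hb' ((D.R.Ex v) ^ m)
  rw [l_Lo_pow D hl, D.R.Lo_Ex, norm_mul, Complex.norm_natCast] at h2
  rw [div_lt_iff₀ hpos] at hm
  linarith

/-- **the generator weight of `Γ` attached to an eigenfunctional** -/
theorem exists_genWeight_of {l : D.R.V →ₗ[ℝ] ℂ} {χ : D.S → ℂ} (hE : EigOn D.AdE ⊤ l χ)
    (hl : ∀ x y : D.R.V, l ⁅x, y⁆ = 0) :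
    ∃ w : GenWeight η.ker, (∀ g, w.ρ g = χ (D.inΓ g)) ∧
      ∀ (y : Γ) (hy : y ∈ η.ker), w.φ y = l (D.R.Lo (D.R.ι ⟨y, hy⟩)) := by
  classical
  refine ⟨{
    ρ := { toFun := fun g => χ (D.inΓ g)
           map_one' := by rw [map_one, hE.one]
           map_mul' := fun a b => by rw [map_mul, hE.mul] }
    φ := fun y => if hy : y ∈ η.ker then l (D.R.Lo (D.R.ι ⟨y, hy⟩)) else 0
    φ_mul := ?_
    φ_conj := ?_
    φ_ne := ?_ }, fun g => rfl, fun y hy => dif_pos hy⟩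
  · intro x hx y hy
    rw [dif_pos hx, dif_pos hy, dif_pos (mul_mem hx hy), ← l_Lo_mul D hl, ← map_mul]
    rfl
  · intro g y hy
    have hgy : g * y * g⁻¹ ∈ η.ker := (MonoidHom.normal_ker η).conj_mem y hy g
    rw [dif_pos hy, dif_pos hgy]
    change _ = χ (D.inΓ g) * _
    rw [← hE.eig (D.inΓ g) (D.R.Lo (D.R.ι ⟨y, hy⟩)) trivial]
    congr 1
    apply D.ex_injective
    rw [D.AdE_apply, D.ex_Ad, MB.ex, MB.ex, D.R.Ex_Lo, D.R.Ex_Lo]
    have h1 : ∀ z : η.ker, D.inN (D.R.ι z) = D.inΓ (z : Γ) := fun z => (D.P.inG_coe z).symm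
    rw [h1, h1, ← map_inv, ← map_mul, ← map_mul]
  · by_contra hcon
    push Not at hcon
    obtain ⟨x, _, hx0⟩ := hE.ne
    apply hx0
    refine l_zero_of_N D hl (fun y => ?_) x
    have := hcon y y.2
    rwa [dif_pos y.2] at this

/-- **field `crossed`** -/
theorem exists_crossed_gen {b : (Fin k → ℝ) →L[ℝ] ℝ} (hb : b ∈ ΦF D hη) :
    Nonempty (Crossed (hgt ((D.θ η).comp D.inΓ)) b) := by
  obtain ⟨hb0, l, χ, hE, hl, hχ⟩ := (mem_ΦF D hη).1 hb
  obtain ⟨w, hw, _⟩ := exists_genWeight_of D hE hl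
  have h1 : ∀ g, b (hgt η g) = Real.log ‖w.ρ g‖ := by
    intro g
    rw [hw, ← hχ, D.hgt_inΓ]
  obtain ⟨c, _, _⟩ := H530.exists_crossed η w h1 hb0 hη
  rw [D.θ_comp]
  exact ⟨c⟩

/-- the finite set of elements needed in `A` for the field `crossed` -/
theorem exists_F1 : ∃ F1 : Finset Γ, ∀ b ∈ ΦF D hη,
    ∃ c : Crossed (hgt ((D.θ η).comp D.inΓ)) b, c.u ∈ F1 := by
  classical
  refine ⟨(ΦF D hη).attach.image fun b => (Classical.choice (exists_crossed_gen D hη b.2)).u,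
    fun b hb => ⟨Classical.choice (exists_crossed_gen D hη hb), ?_⟩⟩
  exact Finset.mem_image.2 ⟨⟨b, hb⟩, Finset.mem_attach _ _, rfl⟩

end gen

end Vale.Agent.P188.H269
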