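import Vale.Agent.P188.H269.RMb2
import Vale.Agent.P188.H269.Mult
import Vale.Agent.P188.H131.ModelC

/-!
Block RM-b of the real model: unimodularity.
-/

open Module Finset MeasureTheory MeasureTheory.Measure
open scoped commutatorElement

universe u v w

namespace Vale.Agent.P188.H269

open Vale.Agent.P188.H796 Vale.Agent.P188.H615 Vale.Agent.P188.H131
open Vale.Agent.P188.H530 (hgt Crossed)

section det

variable {N : Type u} [Group N] {d n : ℕ} (D : MB N d n)

include D in
theorem countable_N : Countable N := by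
  have : Function.Injective fun (y : N) (i : Fin d) => D.c i y := by
    intro x y h
    rw [← D.prod_c x, ← D.prod_c y]
    have h1 : ∀ i, D.c i x = D.c i y := fun i => congrFun h i
    simp only [h1]
  exact this.countable

/-- automorphisms of `N` act on the Lie algebra with determinant one -/
theorem abs_det_AdV (θ : MulAut N) :
    |LinearMap.det ((D.AdV θ : D.R.V ≃ₗ[ℝ] D.R.V) : D.R.V →ₗ[ℝ] D.R.V)| = 1 := by
  have hc := countable_N D
  set T : D.R.V →ₗ[ℝ] D.R.V := ((D.AdV θ : D.R.V ≃ₗ[ℝ] D.R.V) : D.R.V →ₗ[ℝ] D.R.V) with hT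
  let μ : Measure D.R.V := Measure.addHaar
  have hK : IsHaarMeasure (muK D.R μ) := isHaar_muK D.R μ
  have hmp : MeasurePreserving (D.actM θ) (muK D.R μ) (muK D.R μ) :=
    NR_aut D.R (muK D.R μ) (D.actM θ) (D.continuous_actM θ) (by
      have h1 : ((D.actM θ).symm : D.R.NR → D.R.NR) = D.actM θ⁻¹ := by
        rw [map_inv]; rfl
      rw [h1]
      exact D.continuous_actM θ⁻¹) θ (D.actM_ι θ)
  have hT0 : LinearMap.det T ≠ 0 := by
    rw [hT]
    exact (LinearEquiv.isUnit_det' _).ne_zero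
  let B : Set D.R.V := Metric.ball 0 1
  have hB : MeasurableSet B := Metric.isOpen_ball.measurableSet
  have hA : MeasurableSet (D.R.Lo ⁻¹' B) := D.R.continuous_Lo.measurable hB
  have hv : ∀ U : Set D.R.V, MeasurableSet U → muK D.R μ (D.R.Lo ⁻¹' U) = μ U := by
    intro U hU
    unfold muK
    rw [map_apply D.R.continuous_Ex.measurable (D.R.continuous_Lo.measurable hU)]
    congr 1
    ext v
    rw [Set.mem_preimage, Set.mem_preimage, D.R.Lo_Ex]
  have h1 := hmp.measure_preimage hA.nullMeasurableSet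
  have h2 : (D.actM θ) ⁻¹' (D.R.Lo ⁻¹' B) = D.R.Lo ⁻¹' (T ⁻¹' B) := by
    ext s
    rw [Set.mem_preimage, Set.mem_preimage, Set.mem_preimage, Set.mem_preimage, D.Lo_actM]
    rfl
  have hTB : MeasurableSet (T ⁻¹' B) := by
    have : Continuous T := LinearMap.continuous_of_finiteDimensional T
    exact this.measurable hB
  rw [h2, hv _ hTB, hv _ hB, addHaar_preimage_linearMap μ hT0] at h1
  have hB0 : μ B ≠ 0 := (Metric.isOpen_ball.measure_ne_zero μ ⟨0, by simp⟩)
  have hBf : μ B ≠ ⊤ := (measure_ball_lt_top).ne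
  have h3 : ENNReal.ofReal |(LinearMap.det T)⁻¹| = 1 := by
    have h4 : ENNReal.ofReal |(LinearMap.det T)⁻¹| * μ B = 1 * μ B := by rw [h1, one_mul]
    exact (ENNReal.mul_left_inj hB0 hBf).1 h4
  rw [ENNReal.ofReal_eq_one, abs_inv] at h3
  exact inv_eq_one.1 h3

end det

section conc

variable {Γ : Type} [Group Γ] {k : ℕ} {η : Γ →* Multiplicative (Fin k → ℤ)} {d n : ℕ}
  (D : MB η.ker d n)

/-- **`S` is unimodular on the Lie algebra** -/
theorem abs_det_AdE (s : D.S) : |LinearMap.det (D.AdE s)| = 1 := by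
  obtain ⟨x, g, rfl⟩ := D.P.exists_eq s
  have h1 : LinearMap.det (D.AdE (D.P.inK x)) = 1 := by
    have hx : D.P.inK x ∈ (HS D).N := by
      rw [ExpS.mem_N]
      exact ⟨D.R.Lo x, by rw [MB.ex, D.R.Ex_Lo]⟩
    obtain ⟨E, c, h0, hc, hE⟩ := (HS D).lrep.unipOn
    exact det_eq_one E h0 hc fun i u hu => hE _ hx i u hu
  have h2 : |LinearMap.det (D.AdE (D.P.inG g))| = 1 := by
    have : D.AdE (D.P.inG g) = ((D.AdΓ g : D.R.V ≃ₗ[ℝ] D.R.V) : D.R.V →ₗ[ℝ] D.R.V) := by
      refine LinearMap.ext fun v => ?_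
      rw [D.AdE_apply]
      exact D.Ad_inΓ g v
    rw [this]
    exact abs_det_AdV D _
  rw [map_mul, map_mul, h1, one_mul, h2]

variable (hη : Function.Surjective η)

include hη in
/-- the list of weights: all of them occur, and their sum is zero -/
theorem exists_wt_list : ∃ L : List ((Fin k → ℝ) →L[ℝ] ℝ), (∀ b ∈ L, IsWt D b) ∧
    (∀ b, IsWt D b → b ∈ L) ∧ L.sum = 0 := by
  classical
  have hN := (HS D).normal
  obtain ⟨m, hm1, hm2, hm3⟩ := exists_mult (HS D).lrep.comm _ D.AdE (HS D).lrep.unipOn rfl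
  have hch : ∀ b' ∈ m, ∃ b : (Fin k → ℝ) →L[ℝ] ℝ, ∀ s, b (hgt (D.θ η) s) = b' s :=
    fun b' hb' => exists_clm_of_Wts D hη (hm1 b' hb')
  let c : (D.S → ℝ) → ((Fin k → ℝ) →L[ℝ] ℝ) := fun b' =>
    if h : ∃ b : (Fin k → ℝ) →L[ℝ] ℝ, ∀ s, b (hgt (D.θ η) s) = b' s then h.choose else 0
  have hc : ∀ b' ∈ m, ∀ s, c b' (hgt (D.θ η) s) = b' s := by
    intro b' hb'
    have h := hch b' hb'
    simp only [c, dif_pos h]
    exact h.choose_spec
  refine ⟨m.map c, ?_, ?_, ?_⟩
  · intro b hb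
    obtain ⟨b', hb', rfl⟩ := List.mem_map.1 hb
    unfold IsWt
    rw [show (fun s : D.S => c b' (hgt (D.θ η) s)) = b' from funext (hc b' hb')]
    exact hm1 b' hb'
  · intro b hb
    have h1 := hm2 _ hb
    refine List.mem_map.2 ⟨_, h1, ?_⟩
    exact clm_ext D hη fun s => hc _ h1 s
  · refine clm_ext D hη fun s => ?_
    rw [_root_.zero_apply]
    have h1 := (hm3 s).2
    rw [abs_det_AdE, Real.log_one] at h1
    have h2 : ∀ l : List (D.S → ℝ), (∀ b' ∈ l, b' ∈ m) →
        (l.map c).sum (hgt (D.θ η) s) = (l.map fun b => b s).sum := by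
      intro l
      induction l with
      | nil => intro _; simp
      | cons a l ih =>
        intro hl
        rw [List.map_cons, List.sum_cons, _root_.add_apply, List.map_cons, List.sum_cons,
          ih fun b' hb' => hl b' (List.mem_cons_of_mem _ hb'),
          hc a (hl a List.mem_cons_self)]
    rw [h2 m fun _ h => h, ← h1]

/-- **fields `mult`, `mult_pos`, `unimod`** -/
theorem exists_unimod {t : D.S} (hs : Sep D.AdE t) : ∃ mult : ((Fin k → ℝ) →L[ℝ] ℝ) → ℝ,
    (∀ b ∈ ΦF D hη, 0 < mult b) ∧ ∑ b ∈ ΦF D hη, mult b • b = 0 := by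
  classical
  obtain ⟨L, hL1, hL2, hL0⟩ := exists_wt_list D hη
  -- coefficients
  have hco : ∀ b : (Fin k → ℝ) →L[ℝ] ℝ, ∃ f : ((Fin k → ℝ) →L[ℝ] ℝ) → ℕ,
      (b ∈ L → ∑ a ∈ ΦF D hη, f a • a = b) ∧ (b ∈ ΦF D hη → f b = 1) := by
    intro b
    by_cases hb : b ∈ ΦF D hη
    · refine ⟨fun a => if a = b then 1 else 0, fun _ => ?_, fun _ => if_pos rfl⟩
      rw [Finset.sum_eq_single b]
      · simp
      · intro a _ hab
        simp [hab]
      · intro h; exact absurd hb h
    · by_cases hbL : b ∈ L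
      · have h1 := wt_mem_closure D hη hs ((mem_WtF D hη).2 (Or.inr (hL1 b hbL)))
        obtain ⟨f, _, hf⟩ := AddSubmonoid.mem_closure_finset.1 h1
        exact ⟨f, fun _ => hf, fun h => absurd h hb⟩
      · exact ⟨0, fun h => absurd h hbL, fun h => absurd h hb⟩
  choose f hf1 hf2 using hco
  refine ⟨fun a => (((L.map fun b => f b a).sum : ℕ) : ℝ), ?_, ?_⟩
  · intro a ha
    have haL : a ∈ L := hL2 a ((mem_ΦF D hη).1 ha).isWt
    have h1 : f a a ≤ (L.map fun b => f b a).sum :=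
      List.single_le_sum (fun _ _ => Nat.zero_le _) _ (List.mem_map.2 ⟨a, haL, rfl⟩)
    rw [hf2 a ha] at h1
    change (0 : ℝ) < (((L.map fun b => f b a).sum : ℕ) : ℝ)
    exact Nat.cast_pos.2 h1
  · have h2 : ∀ l : List ((Fin k → ℝ) →L[ℝ] ℝ), (∀ b ∈ l, b ∈ L) →
        ∑ a ∈ ΦF D hη, (((l.map fun b => f b a).sum : ℕ) : ℝ) • a = l.sum := by
      intro l
      induction l with
      | nil => intro _; simp
      | cons b l ih =>
        intro hl
        rw [List.sum_cons, ← ih fun b' hb' => hl b' (List.mem_cons_of_mem _ hb'),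
          ← hf1 b (hl b List.mem_cons_self), ← Finset.sum_add_distrib]
        refine Finset.sum_congr rfl fun a _ => ?_
        rw [List.map_cons, List.sum_cons]
        push_cast
        rw [add_smul, hf1 b (hl b List.mem_cons_self), Nat.cast_smul_eq_nsmul]
    rw [h2 L fun _ h => h, hL0]

end conc

end Vale.Agent.P188.H269
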