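import Vale.Agent.P188.H269.RMb2
import Vale.Agent.P188.H953.ExtHom

/-!
Block RM-b of the real model: the generator weights span.
-/

open Module Finset
open scoped commutatorElement

universe u v w

namespace Vale.Agent.P188.H269

open Vale.Agent.P188.H796 Vale.Agent.P188.H615
open Vale.Agent.P188.H530 (hgt Crossed)
open Vale.Agent.P188.H754 (GenWeight)

section approx

variable {k : ℕ}

/-- rational approximation: a vector killed by finitely many forms which bound the integral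
vectors is zero -/
theorem eq_zero_of_bound (S : Finset ((Fin k → ℝ) →L[ℝ] ℝ)) {c : ℝ} (hc : 0 < c)
    (h : ∀ q : Fin k → ℤ, q ≠ 0 → ∃ b ∈ S, c * ‖q‖ ≤ |b (fun i => (q i : ℝ))|)
    {w : Fin k → ℝ} (hw : ∀ b ∈ S, b w = 0) : w = 0 := by
  by_contra hne
  have hpos : 0 < ‖w‖ := norm_pos_iff.2 hne
  -- a bound of the norms
  obtain ⟨B, hB0, hB⟩ : ∃ B : ℝ, 0 ≤ B ∧ ∀ b ∈ S, ‖b‖ ≤ B :=
    ⟨∑ b ∈ S, ‖b‖, Finset.sum_nonneg fun _ _ => norm_nonneg _,
      fun b hb => Finset.single_le_sum (f := fun b => ‖b‖) (fun _ _ => norm_nonneg _) hb⟩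
  obtain ⟨n, hn⟩ := exists_nat_gt ((B / c + 1) / ‖w‖)
  rw [div_lt_iff₀ hpos] at hn
  let q : Fin k → ℤ := fun i => round (n * w i)
  have hq1 : ‖(fun i => (q i : ℝ)) - (n : ℝ) • w‖ ≤ 1 := by
    refine (pi_norm_le_iff_of_nonneg zero_le_one).2 fun i => ?_
    have h1 := abs_sub_round ((n : ℝ) * w i)
    have h2 : ((fun i => (q i : ℝ)) - (n : ℝ) • w) i = -((n : ℝ) * w i - round ((n : ℝ) * w i)) := by
      simp only [Pi.sub_apply, Pi.smul_apply, smul_eq_mul, q]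
      ring
    rw [h2, norm_neg, Real.norm_eq_abs]
    linarith
  have hqn : ‖(fun i => (q i : ℝ))‖ = ‖q‖ := by
    rw [Pi.norm_def, Pi.norm_def]
    congr 1
  have hq2 : (n : ℝ) * ‖w‖ ≤ ‖q‖ + 1 := by
    have h1 : (n : ℝ) * ‖w‖ = ‖(n : ℝ) • w‖ := by rw [norm_smul, Real.norm_natCast]
    rw [h1, ← hqn]
    have h2 := norm_sub_norm_le ((n : ℝ) • w) (fun i => (q i : ℝ))
    rw [norm_sub_rev] at h2
    linarith
  have hq0 : q ≠ 0 := by
    intro h0
    rw [h0, norm_zero, zero_add] at hq2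
    have : 0 ≤ B / c := by positivity
    linarith
  obtain ⟨b, hb, hbq⟩ := h q hq0
  have h3 : b (fun i => (q i : ℝ)) = b ((fun i => (q i : ℝ)) - (n : ℝ) • w) := by
    rw [map_sub, map_smul, hw b hb, smul_zero, sub_zero]
  have h4 : |b (fun i => (q i : ℝ))| ≤ B := by
    rw [h3, ← Real.norm_eq_abs]
    refine (b.le_opNorm _).trans ?_
    calc ‖b‖ * ‖(fun i => (q i : ℝ)) - (n : ℝ) • w‖ ≤ B * 1 :=
          mul_le_mul (hB b hb) hq1 (norm_nonneg _) hB0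
      _ = B := mul_one B
  have h5 : ‖q‖ ≤ B / c := by
    rw [le_div_iff₀ hc]
    linarith
  linarith

end approx

section span

variable {Γ : Type} [Group Γ] {k : ℕ} {η : Γ →* Multiplicative (Fin k → ℤ)} {d n : ℕ}
  (D : MB η.ker d n) (hη : Function.Surjective η)

/-- the generator weights of `N` are generator weights of `V` -/
theorem exists_gen_of_genWeight (w : GenWeight η.ker) :
    ∃ b : (Fin k → ℝ) →L[ℝ] ℝ, (∀ g, b (hgt η g) = Real.log ‖w.ρ g‖) ∧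
      (b ≠ 0 → b ∈ ΦF D hη) := by
  have hE := H953.eigOn_lam D w
  obtain ⟨b, hb⟩ := exists_clm_of_Wts D hη
    (b' := fun s => Real.log ‖((H953.chS D w s : ℂˣ) : ℂ)‖)
    ⟨⊤, le_top, _, _, hE, fun _ => rfl⟩
  refine ⟨b, fun g => ?_, fun hb0 => (mem_ΦF D hη).2 ⟨hb0, _, _, hE, H953.lam_lie D w, hb⟩⟩
  rw [← D.hgt_inΓ, hb, H953.chS_inΓ]

/-- **field `Φ_span`** -/
theorem Φ_span (hw : ∃ c : ℝ, 0 < c ∧ ∀ g : Γ, η g ≠ 1 → ∃ w : GenWeight η.ker,
      c * ‖Multiplicative.toAdd (η g)‖ ≤ |Real.log ‖w.ρ g‖|) :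
    ∀ w : Fin k → ℝ, (∀ b ∈ ΦF D hη, b w = 0) → w = 0 := by
  obtain ⟨c, hc, hcb⟩ := hw
  intro w hwb
  refine eq_zero_of_bound (ΦF D hη) hc (fun q hq => ?_) hwb
  obtain ⟨g, hg⟩ := hη (Multiplicative.ofAdd q)
  have hg1 : η g ≠ 1 := by
    rw [hg]
    intro h
    exact hq (Multiplicative.ofAdd.injective h)
  obtain ⟨ω, hω⟩ := hcb g hg1
  obtain ⟨b, hb, hbΦ⟩ := exists_gen_of_genWeight D hη ω
  have hq' : hgt η g = fun i => (q i : ℝ) := by
    funext i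
    simp [hgt, hg]
  rw [hg, toAdd_ofAdd] at hω
  have hqpos : 0 < ‖q‖ := norm_pos_iff.2 hq
  refine ⟨b, hbΦ ?_, ?_⟩
  · rintro rfl
    have h1 := hb g
    rw [_root_.zero_apply] at h1
    rw [← h1, abs_zero] at hω
    nlinarith
  · rw [← hq', hb]
    exact hω

end span

end Vale.Agent.P188.H269
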