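import Vale.Agent.P188.H269.Span
import Vale.Agent.P188.H754.Malcev1

/-!
Real representations of a group with a normal subgroup acting unipotently and abelian quotient:
eigenfunctionals.
-/

namespace Vale.Agent.P188.H269

open Module
open scoped commutatorElement

universe u v

section rep

variable {G : Type u} [Group G] {V : Type v} [AddCommGroup V] [Module ℝ V]

/-- unipotent action of `N` -/
def UnipOn (N : Subgroup G) (ρ : G →* Module.End ℝ V) : Prop :=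
  ∃ (E : ℕ → Submodule ℝ V) (d : ℕ), E 0 = ⊤ ∧ E d = ⊥ ∧
    ∀ n ∈ N, ∀ j, ∀ x ∈ E j, ρ n x - x ∈ E (j + 1)

/-- restriction to an invariant subspace -/
def resR (ρ : G →* Module.End ℝ V) (A : Submodule ℝ V) (hA : ∀ g, ∀ x ∈ A, ρ g x ∈ A) :
    G →* Module.End ℝ A where
  toFun g := (ρ g).restrict (hA g)
  map_one' := by ext x; simp
  map_mul' a b := by ext x; simp

theorem resR_coe (ρ : G →* Module.End ℝ V) (A : Submodule ℝ V) (hA : ∀ g, ∀ x ∈ A, ρ g x ∈ A)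
    (g : G) (x : A) : ((resR ρ A hA g x : A) : V) = ρ g x := rfl

theorem UnipOn.res {N : Subgroup G} {ρ : G →* Module.End ℝ V} (h : UnipOn N ρ)
    (A : Submodule ℝ V) (hA : ∀ g, ∀ x ∈ A, ρ g x ∈ A) : UnipOn N (resR ρ A hA) := by
  obtain ⟨E, d, h0, hd, hE⟩ := h
  refine ⟨fun j => (E j).comap A.subtype, d, ?_, ?_, ?_⟩
  · simp only [h0, Submodule.comap_top]
  · simp only [hd]
    rw [eq_bot_iff]
    intro x hx
    simpa using hx
  · intro n hn j x hx
    exact hE n hn j x hx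

theorem rho_inv_mul (ρ : G →* Module.End ℝ V) (g : G) : ρ g⁻¹ * ρ g = 1 := by
  rw [← map_mul, inv_mul_cancel, map_one]

theorem rho_mul_inv (ρ : G →* Module.End ℝ V) (g : G) : ρ g * ρ g⁻¹ = 1 := by
  rw [← map_mul, mul_inv_cancel, map_one]

/-- existence of an eigenfunctional vanishing on a proper invariant subspace -/
theorem exists_eigenfunctional [FiniteDimensional ℝ V] {N : Subgroup G} [hNn : N.Normal]
    (hcomm : ∀ a b : G, ⁅a, b⁆ ∈ N) (ρ : G →* Module.End ℝ V) (hU : UnipOn N ρ)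
    (B : Submodule ℝ V) (hB : ∀ g, ∀ x ∈ B, ρ g x ∈ B) (hBt : B ≠ ⊤) :
    ∃ (l : V →ₗ[ℝ] ℂ) (χ : G → ℂ), l ≠ 0 ∧ (∀ x ∈ B, l x = 0) ∧
      ∀ g x, l (ρ g x) = χ g * l x := by
  classical
  obtain ⟨E, d, h0, hd, hE⟩ := hU
  let K : ℕ → Submodule ℂ (V →ₗ[ℝ] ℂ) := fun j =>
    { carrier := {l | (∀ x ∈ B, l x = 0) ∧ ∀ x ∈ E j, l x = 0}
      zero_mem' := ⟨fun x _ => rfl, fun x _ => rfl⟩
      add_mem' := by
        intro a b ha hb
        exact ⟨fun x hx => by rw [LinearMap.add_apply, ha.1 x hx, hb.1 x hx, add_zero],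
          fun x hx => by rw [LinearMap.add_apply, ha.2 x hx, hb.2 x hx, add_zero]⟩
      smul_mem' := by
        intro c a ha
        exact ⟨fun x hx => by rw [LinearMap.smul_apply, ha.1 x hx, smul_zero],
          fun x hx => by rw [LinearMap.smul_apply, ha.2 x hx, smul_zero]⟩ }
  have hK0 : K 0 = ⊥ := by
    rw [eq_bot_iff]
    intro l hl
    rw [Submodule.mem_bot]
    ext x
    exact hl.2 x (by rw [h0]; trivial)
  have hKd : K d ≠ ⊥ := by
    obtain ⟨f, hf0, hf⟩ := Submodule.exists_le_ker_of_lt_top B (lt_top_iff_ne_top.2 hBt)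
    let l : V →ₗ[ℝ] ℂ := Complex.ofRealLI.toLinearMap ∘ₗ f
    have hl : l ∈ K d := by
      refine ⟨fun x hx => ?_, fun x hx => ?_⟩
      · have : f x = 0 := hf hx
        change ((f x : ℝ) : ℂ) = 0
        rw [this]; rfl
      · rw [hd, Submodule.mem_bot] at hx
        rw [hx, map_zero]
    intro hbot
    rw [hbot, Submodule.mem_bot] at hl
    apply hf0
    ext x
    have h1 := congrArg (fun m : V →ₗ[ℝ] ℂ => m x) hl
    have h2 : ((f x : ℝ) : ℂ) = 0 := h1
    simpa using h2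
  have hex : ∃ j, K j ≠ ⊥ := ⟨d, hKd⟩
  obtain ⟨i, hi⟩ : ∃ i, Nat.find hex = i + 1 := by
    refine Nat.exists_eq_succ_of_ne_zero ?_
    intro h
    have := Nat.find_spec hex
    rw [h] at this
    exact this hK0
  have hKi : K i = ⊥ := by
    by_contra hne
    exact Nat.find_min hex (by omega : i < Nat.find hex) hne
  have hKi1 : K (i + 1) ≠ ⊥ := hi ▸ Nat.find_spec hex
  obtain ⟨l0, hl0, hl0ne⟩ := Submodule.exists_mem_ne_zero_of_ne_bot hKi1
  -- the invariant functionals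
  let W0 : Submodule ℂ (V →ₗ[ℝ] ℂ) :=
    { carrier := {l | (∀ x ∈ B, l x = 0) ∧ ∀ n ∈ N, ∀ x, l (ρ n x) = l x}
      zero_mem' := ⟨fun x _ => rfl, fun _ _ x => rfl⟩
      add_mem' := by
        intro a b ha hb
        exact ⟨fun x hx => by rw [LinearMap.add_apply, ha.1 x hx, hb.1 x hx, add_zero],
          fun n hn x => by
            rw [LinearMap.add_apply, ha.2 n hn x, hb.2 n hn x, LinearMap.add_apply]⟩
      smul_mem' := by
        intro c a ha
        exact ⟨fun x hx => by rw [LinearMap.smul_apply, ha.1 x hx, smul_zero],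
          fun n hn x => by rw [LinearMap.smul_apply, ha.2 n hn x, LinearMap.smul_apply]⟩ }
  have hl0W : l0 ∈ W0 := by
    refine ⟨hl0.1, fun n hn x => ?_⟩
    have h1 : l0 ∘ₗ ρ n - l0 ∈ K i := by
      refine ⟨fun x hx => ?_, fun x hx => ?_⟩
      · rw [LinearMap.sub_apply, LinearMap.comp_apply, hl0.1 x hx, hl0.1 _ (hB n x hx), sub_self]
      · rw [LinearMap.sub_apply, LinearMap.comp_apply, ← map_sub]
        exact hl0.2 _ (hE n hn i x hx)
    rw [hKi, Submodule.mem_bot] at h1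
    have h2 := congrArg (fun m : V →ₗ[ℝ] ℂ => m x) h1
    simp only [LinearMap.sub_apply, LinearMap.comp_apply, LinearMap.zero_apply] at h2
    exact sub_eq_zero.1 h2
  have hnt : Nontrivial W0 :=
    Submodule.nontrivial_iff_ne_bot.2 fun h => hl0ne (by rw [h] at hl0W; exact hl0W)
  have hmem : ∀ g : G, ∀ l ∈ W0, (l ∘ₗ ρ g) ∈ W0 := by
    intro g l hl
    refine ⟨fun x hx => hl.1 _ (hB g x hx), fun n hn x => ?_⟩
    have h1 : ρ g (ρ n x) = ρ (g * n * g⁻¹) (ρ g x) := by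
      rw [← Module.End.mul_apply, ← Module.End.mul_apply, ← map_mul, ← map_mul]
      congr 2
      group
    rw [LinearMap.comp_apply, LinearMap.comp_apply, h1]
    exact hl.2 _ (hNn.conj_mem n hn g) _
  let f : G → Module.End ℂ W0 := fun g =>
    { toFun := fun l => ⟨(l : V →ₗ[ℝ] ℂ) ∘ₗ ρ g, hmem g l l.2⟩
      map_add' := fun a b => rfl
      map_smul' := fun c a => rfl }
  have hfc : ∀ a b, Commute (f a) (f b) := by
    intro a b
    refine LinearMap.ext fun l => Subtype.ext (LinearMap.ext fun x => ?_)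
    change (l : V →ₗ[ℝ] ℂ) (ρ b (ρ a x)) = (l : V →ₗ[ℝ] ℂ) (ρ a (ρ b x))
    have h1 : ρ b (ρ a x) = ρ ⁅b, a⁆ (ρ a (ρ b x)) := by
      rw [← Module.End.mul_apply, ← Module.End.mul_apply, ← Module.End.mul_apply, ← map_mul,
        ← map_mul, ← map_mul]
      congr 2
      rw [commutatorElement_def]; group
    rw [h1]
    exact l.2.2 _ (hcomm b a) _
  obtain ⟨χ, l, hl, hχ⟩ := H754.exists_common_eigenvector f hfc
  refine ⟨l, χ, fun h => hl (Subtype.ext h), l.2.1, fun g x => ?_⟩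
  have h1 := congrArg (fun m : W0 => (m : V →ₗ[ℝ] ℂ) x) (hχ g)
  exact h1

/-- descending step -/
theorem exists_step [FiniteDimensional ℝ V] {N : Subgroup G} [hNn : N.Normal]
    (hcomm : ∀ a b : G, ⁅a, b⁆ ∈ N) (ρ : G →* Module.End ℝ V) (hU : UnipOn N ρ)
    (A B : Submodule ℝ V) (hA : ∀ g, ∀ x ∈ A, ρ g x ∈ A) (hB : ∀ g, ∀ x ∈ B, ρ g x ∈ B)
    (hBA : B < A) :
    ∃ (l : V →ₗ[ℝ] ℂ) (χ : G → ℂ), (∃ x ∈ A, l x ≠ 0) ∧ (∀ x ∈ B, l x = 0) ∧
      ∀ g, ∀ x ∈ A, l (ρ g x) = χ g * l x := by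
  obtain ⟨l, χ, hl, hlB, hχ⟩ := exists_eigenfunctional hcomm (resR ρ A hA) (hU.res A hA)
    (B.comap A.subtype) (fun g x hx => hB g x hx) (by
      intro h
      apply not_le_of_gt hBA
      intro x hx
      have : (⟨x, hx⟩ : A) ∈ B.comap A.subtype := by rw [h]; trivial
      exact this)
  obtain ⟨l', hl'⟩ := LinearMap.exists_extend l
  have hval : ∀ x (hx : x ∈ A), l' x = l ⟨x, hx⟩ := by
    intro x hx
    have := congrArg (fun m : A →ₗ[ℝ] ℂ => m ⟨x, hx⟩) hl'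
    exact this
  refine ⟨l', χ, ?_, ?_, ?_⟩
  · by_contra hcon
    push Not at hcon
    apply hl
    ext x
    have := hcon x x.2
    rw [hval x x.2] at this
    exact this
  · intro x hx
    rw [hval x (hBA.le hx)]
    exact hlB _ hx
  · intro g x hx
    rw [hval x hx, hval _ (hA g x hx)]
    exact hχ g ⟨x, hx⟩

/-- decomposition inside a subspace invariant under one automorphism -/
theorem exists_decomp1 [FiniteDimensional ℝ V] {T T' : Module.End ℝ V} (h : T' * T = 1)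
    (h' : T * T' = 1) (A : Submodule ℝ V) (hA : ∀ x ∈ A, T x ∈ A) (hA' : ∀ x ∈ A, T' x ∈ A)
    {x : V} (hx : x ∈ A) :
    ∃ f : ℝ →₀ V, (∀ r, f r ∈ Wt T T' r) ∧ (∀ r, f r ∈ A) ∧ (f.sum fun _ y => y) = x := by
  classical
  have htop := iSup_Wt_eq_top (T := T.restrict hA) (T' := T'.restrict hA') (by
    ext y
    have := congrArg (fun B : Module.End ℝ V => B (y : V)) h
    simpa using this) (by
    ext y
    have := congrArg (fun B : Module.End ℝ V => B (y : V)) h'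
    simpa using this)
  have hx' : (⟨x, hx⟩ : A) ∈ ⨆ r, Wt (T.restrict hA) (T'.restrict hA') r := by
    rw [htop]; trivial
  rw [Submodule.mem_iSup_iff_exists_finsupp] at hx'
  obtain ⟨f, hf, hsum⟩ := hx'
  refine ⟨f.mapRange A.subtype (map_zero _), ?_, ?_, ?_⟩
  · intro r
    rw [Finsupp.mapRange_apply]
    exact Wt_map A.subtype (fun y => rfl) (fun y => rfl) (hf r)
  · intro r
    rw [Finsupp.mapRange_apply]
    exact (f r).2
  · rw [Finsupp.sum_mapRange_index (by intros; rfl)]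
    have h1 := congrArg A.subtype hsum
    rw [Finsupp.sum, map_sum] at h1
    exact h1

/-- decomposition inside an invariant subspace -/
theorem exists_decomp [FiniteDimensional ℝ V] (ρ : G →* Module.End ℝ V)
    (A : Submodule ℝ V) (hA : ∀ g, ∀ x ∈ A, ρ g x ∈ A) (g : G) {x : V} (hx : x ∈ A) :
    ∃ f : ℝ →₀ V, (∀ r, f r ∈ Wt (ρ g) (ρ g⁻¹) r) ∧ (∀ r, f r ∈ A) ∧
      (f.sum fun _ y => y) = x :=
  exists_decomp1 (rho_inv_mul ρ g) (rho_mul_inv ρ g) A (hA g) (hA g⁻¹) hx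

/-- growth in an invariant subspace -/
theorem Gr_restrict {T : Module.End ℝ V} (A : Submodule ℝ V) (hA : ∀ x ∈ A, T x ∈ A) {r : ℝ}
    {x : V} (hx : x ∈ A) (hr : x ∈ Gr T r) : (⟨x, hx⟩ : A) ∈ Gr (T.restrict hA) r := by
  intro φ ε hε
  obtain ⟨ψ, hψ⟩ := LinearMap.exists_extend φ
  obtain ⟨C, hC⟩ := hr ψ ε hε
  refine ⟨C, fun n => ?_⟩
  have h1 : (((T.restrict hA ^ n) ⟨x, hx⟩ : A) : V) = (T ^ n) x :=
    pow_comm_map A.subtype (fun y => rfl) n ⟨x, hx⟩
  have h2 : φ ((T.restrict hA ^ n) ⟨x, hx⟩) = ψ ((T ^ n) x) := by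
    rw [← h1, ← hψ]; rfl
  rw [h2]
  exact hC n

/-- eigenvalues and growth -/
theorem log_le_of_mem_Gr {T : Module.End ℝ V} (l : V →ₗ[ℝ] ℂ) {c : ℂ} (hc : c ≠ 0) {x : V}
    (hx0 : l x ≠ 0) (hx : ∀ n : ℕ, l ((T ^ n) x) = c ^ n * l x) {r : ℝ} (hr : x ∈ Gr T r) :
    Real.log ‖c‖ ≤ r := by
  refine le_of_exp_bound (norm_pos_iff.2 hx0) fun ε hε => ?_
  obtain ⟨C, hC⟩ := hr (Complex.reLm ∘ₗ l) ε hε
  obtain ⟨D, hD⟩ := hr (Complex.imLm ∘ₗ l) ε hε
  refine ⟨C + D, fun n => ?_⟩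
  have h1 : ‖l x‖ * Real.exp (Real.log ‖c‖ * n) = ‖l ((T ^ n) x)‖ := by
    rw [hx, norm_mul, norm_pow, mul_comm (Real.log ‖c‖), Real.exp_nat_mul,
      Real.exp_log (norm_pos_iff.2 hc), mul_comm]
  rw [h1, add_mul]
  refine (Complex.norm_le_abs_re_add_abs_im _).trans (add_le_add (hC n) (hD n))

end rep

end Vale.Agent.P188.H269
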