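import Vale.Agent.P188.H269.Gen

/-!
Adapted seminorms: subexponential growth modulo the ideal `eId`, and final packaging.
-/

namespace Vale.Agent.P188.H269

open Module
open scoped commutatorElement

universe u v

section semi

theorem seminorm_bound (p : Seminorm ℝ ℂ) : ∃ K : ℝ, 0 ≤ K ∧ ∀ z, p z ≤ K * ‖z‖ := by
  refine ⟨p 1 + p Complex.I, add_nonneg (apply_nonneg _ _) (apply_nonneg _ _), fun z => ?_⟩
  have h1 : z = z.re • (1 : ℂ) + z.im • Complex.I := by
    simp [Complex.re_add_im]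
  conv_lhs => rw [h1]
  refine (map_add_le_add p _ _).trans ?_
  rw [map_smul_eq_mul, map_smul_eq_mul, add_mul, Real.norm_eq_abs, Real.norm_eq_abs]
  apply add_le_add
  · rw [mul_comm]
    exact mul_le_mul_of_nonneg_left (Complex.abs_re_le_norm z) (apply_nonneg _ _)
  · rw [mul_comm]
    exact mul_le_mul_of_nonneg_left (Complex.abs_im_le_norm z) (apply_nonneg _ _)

variable {G : Type u} [Group G]

/-- adapted seminorm for an isotypic subquotient -/
theorem exists_adapted {V : Type v} [AddCommGroup V] [Module ℝ V] [FiniteDimensional ℝ V]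
    {N : Subgroup G} [hNn : N.Normal] (hcomm : ∀ a b : G, ⁅a, b⁆ ∈ N)
    (ρ : G →* Module.End ℝ V) (hU : UnipOn N ρ) (B : Submodule ℝ V)
    (hB : ∀ g, ∀ x ∈ B, ρ g x ∈ B) (b : G → ℝ)
    (hb : ∀ A l χ, EigOn ρ A l χ → (∀ x ∈ B, l x = 0) → ∀ g, Real.log ‖χ g‖ = b g)
    (S : Finset G) {ε : ℝ} (hε : 0 < ε) (A : Submodule ℝ V) (hA : ∀ g, ∀ x ∈ A, ρ g x ∈ A)
    (hBA : B ≤ A) :
    ∃ q : Seminorm ℝ V, (∀ x ∈ A, q x = 0 ↔ x ∈ B) ∧
      ∀ g ∈ S, ∀ x ∈ A, q (ρ g x) ≤ Real.exp (b g + ε) * q x := by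
  classical
  generalize hn : finrank ℝ A = n
  induction n using Nat.strong_induction_on generalizing A with
  | _ n ih =>
  rcases hBA.eq_or_lt with heq | hlt
  · refine ⟨0, fun x hx => ?_, fun g _ x _ => by simp⟩
    rw [heq]
    exact ⟨fun _ => hx, fun _ => rfl⟩
  · obtain ⟨l, χ, hl, hl0⟩ := exists_eigOn hcomm ρ hU A B hA hB hlt
    obtain ⟨q', hq'0, hq'⟩ := ih _ (hn ▸ Submodule.finrank_lt_finrank_of_lt hl.ker_lt)
      (A ⊓ LinearMap.ker l) hl.ker_inv (le_inf hBA fun y hy => hl0 y hy) rfl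
    -- a linear section
    obtain ⟨σ, hσA, hσ⟩ : ∃ σ : ℂ →ₗ[ℝ] V, (∀ x ∈ A, σ (l x) ∈ A) ∧
        ∀ x ∈ A, l (σ (l x)) = l x := by
      let lA : A →ₗ[ℝ] ℂ := l ∘ₗ A.subtype
      obtain ⟨s, hs⟩ := LinearMap.exists_rightInverse_of_surjective lA.rangeRestrict
        (LinearMap.range_rangeRestrict lA)
      obtain ⟨σ, hσ⟩ := LinearMap.exists_extend (A.subtype ∘ₗ s)
      have hval : ∀ x (hx : x ∈ A), σ (l x) = (s ⟨l x, ⟨⟨x, hx⟩, rfl⟩⟩ : A) := by
        intro x hx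
        exact congrArg (fun m : (LinearMap.range lA) →ₗ[ℝ] V => m ⟨l x, ⟨⟨x, hx⟩, rfl⟩⟩) hσ
      refine ⟨σ, ?_, ?_⟩
      · intro x hx
        rw [hval x hx]; exact Submodule.coe_mem _
      · intro x hx
        rw [hval x hx]
        have h1 := congrArg (fun m : (LinearMap.range lA) →ₗ[ℝ] (LinearMap.range lA) =>
          (m ⟨l x, ⟨⟨x, hx⟩, rfl⟩⟩ : ℂ)) hs
        exact h1
    -- constants
    have hK : ∀ g : G, ∃ K : ℝ, 0 ≤ K ∧ ∀ z : ℂ,
        Real.exp (b g + ε) * q' (σ z) + q' (ρ g (σ z)) ≤ K * ‖z‖ := by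
      intro g
      obtain ⟨K1, h1, hK1⟩ := seminorm_bound (q'.comp σ)
      obtain ⟨K2, h2, hK2⟩ := seminorm_bound (q'.comp (ρ g ∘ₗ σ))
      refine ⟨Real.exp (b g + ε) * K1 + K2, by positivity, fun z => ?_⟩
      rw [add_mul, mul_assoc]
      exact add_le_add (mul_le_mul_of_nonneg_left (hK1 z) (Real.exp_pos _).le) (hK2 z)
    choose K hK0 hK using hK
    have hE : 0 < Real.exp ε - 1 := by
      have := Real.add_one_lt_exp hε.ne'
      linarith
    set M : ℝ := ∑ g ∈ S, K g / (Real.exp (b g) * (Real.exp ε - 1)) + 1 with hM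
    have hterm : ∀ g, 0 ≤ K g / (Real.exp (b g) * (Real.exp ε - 1)) := fun g =>
      div_nonneg (hK0 g) (mul_nonneg (Real.exp_pos _).le hE.le)
    have hM0 : 0 < M := by
      have := Finset.sum_nonneg fun g (_ : g ∈ S) => hterm g
      linarith
    have hMg : ∀ g ∈ S, K g + M * Real.exp (b g) ≤ M * Real.exp (b g + ε) := by
      intro g hg
      have h1 : K g / (Real.exp (b g) * (Real.exp ε - 1)) ≤ M := by
        have := Finset.single_le_sum (f := fun g => K g / (Real.exp (b g) * (Real.exp ε - 1)))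
          (fun g _ => hterm g) hg
        linarith
      rw [div_le_iff₀ (mul_pos (Real.exp_pos _) hE)] at h1
      rw [Real.exp_add]
      nlinarith
    let M' : NNReal := ⟨M, hM0.le⟩
    let q : Seminorm ℝ V := q' + M' • (normSeminorm ℝ ℂ).comp l
    have hq : ∀ x, q x = q' x + M * ‖l x‖ := fun x => rfl
    refine ⟨q, ?_, ?_⟩
    · intro x hx
      rw [hq]
      constructor
      · intro h0
        have h1 : 0 ≤ q' x := apply_nonneg _ _
        have h2 : 0 ≤ M * ‖l x‖ := by positivity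
        have h3 : M * ‖l x‖ = 0 := by linarith
        have h4 : l x = 0 := by
          rcases mul_eq_zero.1 h3 with h5 | h5
          · exact absurd h5 hM0.ne'
          · exact norm_eq_zero.1 h5
        exact (hq'0 x ⟨hx, h4⟩).1 (by linarith)
      · intro hxB
        rw [(hq'0 x ⟨hx, hl0 x hxB⟩).2 hxB, hl0 x hxB]; simp
    · intro g hg x hx
      rw [hq, hq]
      have ha : x - σ (l x) ∈ A ⊓ LinearMap.ker l :=
        ⟨A.sub_mem hx (hσA x hx), by
          change l (x - σ (l x)) = 0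
          rw [map_sub, hσ x hx, sub_self]⟩
      have h1 : q' (ρ g x) ≤ Real.exp (b g + ε) * q' x + K g * ‖l x‖ := by
        have e1 : ρ g x = ρ g (x - σ (l x)) + ρ g (σ (l x)) := by rw [← map_add, sub_add_cancel]
        have h2 : q' (x - σ (l x)) ≤ q' x + q' (σ (l x)) := map_sub_le_add q' _ _
        calc q' (ρ g x) ≤ q' (ρ g (x - σ (l x))) + q' (ρ g (σ (l x))) := by
              rw [e1]; exact map_add_le_add q' _ _
          _ ≤ Real.exp (b g + ε) * q' (x - σ (l x)) + q' (ρ g (σ (l x))) :=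
              add_le_add (hq' g hg _ ha) le_rfl
          _ ≤ Real.exp (b g + ε) * (q' x + q' (σ (l x))) + q' (ρ g (σ (l x))) :=
              add_le_add (mul_le_mul_of_nonneg_left h2 (Real.exp_pos _).le) le_rfl
          _ = Real.exp (b g + ε) * q' x +
              (Real.exp (b g + ε) * q' (σ (l x)) + q' (ρ g (σ (l x)))) := by ring
          _ ≤ _ := add_le_add le_rfl (hK g (l x))
      have h3 : ‖l (ρ g x)‖ = Real.exp (b g) * ‖l x‖ := by
        rw [hl.eig g x hx, norm_mul]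
        congr 1
        rw [← hb A l χ hl hl0 g, Real.exp_log (norm_pos_iff.2 (hl.ne_zero g))]
      rw [h3]
      have h4 := mul_le_mul_of_nonneg_right (hMg g hg) (norm_nonneg (l x))
      nlinarith

end semi

section final

variable {G : Type u} [Group G]
variable {V : Type v} [LieRing V] [LieAlgebra ℝ V] [FiniteDimensional ℝ V]
variable {N : Subgroup G} [hNn : N.Normal] {ρ : G →* Module.End ℝ V}

/-- **(E2)** the action on `V / e` is subexponential: adapted seminorms. -/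
theorem LRep.exists_seminorm (H : LRep N ρ) {t : G} (hs : Sep ρ t) (S : Finset G) {ε : ℝ}
    (hε : 0 < ε) : ∃ q : Seminorm ℝ V, (∀ x, q x = 0 ↔ x ∈ eId ρ t) ∧
      ∀ g ∈ S, ∀ x, q (ρ g x) ≤ Real.exp ε * q x := by
  obtain ⟨q, h1, h2⟩ := exists_adapted H.comm ρ H.unipOn (eId ρ t).toSubmodule (H.eId_inv t)
    (fun _ => 0) (fun A l χ hl h0 g => LRep.log_zero hs hl h0 g) S hε ⊤ (fun _ _ _ => trivial)
    le_top
  refine ⟨q, fun x => h1 x trivial, fun g hg x => ?_⟩
  have := h2 g hg x trivial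
  rwa [zero_add] at this

theorem seminorm_word {q : Seminorm ℝ V} {S : Finset G} {ε : ℝ}
    (h : ∀ g ∈ S, ∀ x, q (ρ g x) ≤ Real.exp ε * q x) (w : List G) (hw : ∀ g ∈ w, g ∈ S) (x : V) :
    q (ρ w.prod x) ≤ Real.exp (ε * w.length) * q x := by
  induction w with
  | nil => simp
  | cons g w ih =>
    rw [List.prod_cons, map_mul, Module.End.mul_apply]
    refine (h g (hw g (by simp)) _).trans ?_
    have h1 := ih fun k hk => hw k (by simp [hk])
    refine (mul_le_mul_of_nonneg_left h1 (Real.exp_pos _).le).trans (le_of_eq ?_)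
    rw [← mul_assoc, ← Real.exp_add, List.length_cons]
    congr 2; push_cast; ring

/-- a separating element and its inverse generate -/
theorem covers_of_sep {t : G} (hs : Sep ρ t) : Covers ρ ({t, t⁻¹} : Set G) := by
  rintro l χ hl _ ⟨g, hg⟩
  have hb : (fun g => Real.log ‖χ g‖) ∈ Wts ρ ⊤ := ⟨⊤, le_top, l, χ, hl, fun _ => rfl⟩
  have h0 : Real.log ‖χ t‖ ≠ 0 := by
    intro h0
    have h1 := hs.1 _ hb h0
    have h2 : Real.log ‖χ g‖ = 0 := congrFun h1 g
    apply hg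
    have h3 := norm_pos_iff.2 (hl.ne_zero g)
    rw [← Real.exp_log h3, h2, Real.exp_zero]
  rcases lt_or_gt_of_ne h0 with h | h
  · refine ⟨t⁻¹, by simp, ?_⟩
    rw [hl.inv', norm_inv]
    have h3 := norm_pos_iff.2 (hl.ne_zero t)
    have h4 : ‖χ t‖ < 1 := by
      by_contra hcon
      push Not at hcon
      have := Real.log_nonneg hcon
      linarith
    exact (one_lt_inv₀ h3).2 h4
  · refine ⟨t, by simp, ?_⟩
    by_contra hcon
    push Not at hcon
    have := Real.log_nonpos (norm_nonneg _) hcon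
    linarith

/-- growth bounds for arbitrary seminorms -/
theorem Gr.seminorm {V : Type v} [AddCommGroup V] [Module ℝ V] [FiniteDimensional ℝ V]
    {T : Module.End ℝ V} {r : ℝ} {x : V} (hx : x ∈ Gr T r) (p : Seminorm ℝ V) {ε : ℝ}
    (hε : 0 < ε) : ∃ C : ℝ, 0 ≤ C ∧ ∀ n : ℕ, p ((T ^ n) x) ≤ C * Real.exp ((r + ε) * n) := by
  classical
  let b := Module.finBasis ℝ V
  obtain ⟨C, hC0, hC⟩ := Gr.bound_fin hx b.coord hε
  refine ⟨∑ i, C * p (b i), Finset.sum_nonneg fun i _ => mul_nonneg hC0 (apply_nonneg _ _),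
    fun n => ?_⟩
  conv_lhs => rw [← b.sum_repr ((T ^ n) x)]
  rw [Finset.sum_mul]
  refine (Finset.le_sum_of_subadditive p (map_zero p).le (map_add_le_add p) _ _).trans
    (Finset.sum_le_sum fun i _ => ?_)
  rw [map_smul_eq_mul, Real.norm_eq_abs]
  have h1 := hC i n
  rw [Basis.coord_apply] at h1
  calc |b.repr ((T ^ n) x) i| * p (b i) ≤ (C * Real.exp ((r + ε) * n)) * p (b i) :=
        mul_le_mul_of_nonneg_right h1 (apply_nonneg _ _)
    _ = _ := by ring

/-- contracted vectors, in a seminorm -/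
theorem Cn.seminorm {V : Type v} [AddCommGroup V] [Module ℝ V] [FiniteDimensional ℝ V]
    {T : Module.End ℝ V} {x : V} (hx : x ∈ Cn T) (p : Seminorm ℝ V) :
    ∃ C : ℝ, ∃ lam > 0, 0 ≤ C ∧ ∀ n : ℕ, p ((T ^ n) x) ≤ C * Real.exp (-(lam * n)) := by
  obtain ⟨r, hr, hxr⟩ := hx
  obtain ⟨C, hC0, hC⟩ := Gr.seminorm hxr p (ε := -r / 2) (by linarith)
  refine ⟨C, -r / 2, by linarith, hC0, fun n => (hC n).trans (le_of_eq ?_)⟩
  congr 2; ring

/-- **(L2), final form.** -/
theorem LRep.main (H : LRep N ρ) : ∃ e : LieIdeal ℝ V,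
    (∀ g, ∀ x ∈ e, ρ g x ∈ e) ∧
    (∀ g, ∀ x ∈ Cn (ρ g), x ∈ e) ∧
    (∃ t : G, Covers ρ ({t, t⁻¹} : Set G)) ∧
    (∀ F : Set G, Covers ρ F → ∀ x, x ∈ PF ρ F ↔ x ∈ e) ∧
    (∀ (S : Finset G) (ε : ℝ), 0 < ε → ∃ q : Seminorm ℝ V, (∀ x, q x = 0 ↔ x ∈ e) ∧
      ∀ g ∈ S, ∀ x, q (ρ g x) ≤ Real.exp ε * q x) := by
  obtain ⟨t, hs⟩ := H.exists_sep
  exact ⟨eId ρ t, H.eId_inv t, fun g x hx => H.Cn_le hs g hx, ⟨t, covers_of_sep hs⟩,
    fun F hF x => H.mem_PF_iff hs hF x, fun S ε hε => H.exists_seminorm hs S hε⟩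

end final

end Vale.Agent.P188.H269
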