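import Vale.Agent.P188.H269.Grow

/-!
The spaces `Wt T T' r` span.
-/

namespace Vale.Agent.P188.H269

open Module

section cplx

/-- growth of generalised eigenvectors -/
theorem grow_gen {X : Type*} [NormedAddCommGroup X] [NormedSpace ℂ X] (A : Module.End ℂ X)
    {μ : ℂ} (hμ : μ ≠ 0) (m : ℕ) (y : X) (hy : ((A - μ • (1 : Module.End ℂ X)) ^ m) y = 0) :
    ∀ ε > 0, ∃ C : ℝ, 0 ≤ C ∧ ∀ n : ℕ,
      ‖(A ^ n) y‖ ≤ C * Real.exp ((Real.log ‖μ‖ + ε) * n) := by
  have hμ' : 0 < ‖μ‖ := norm_pos_iff.2 hμ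
  induction m generalizing y with
  | zero =>
    intro ε _
    refine ⟨0, le_rfl, fun n => ?_⟩
    simp only [pow_zero, Module.End.one_apply] at hy
    rw [hy, map_zero, norm_zero, zero_mul]
  | succ m ih =>
    intro ε hε
    set l := Real.log ‖μ‖ with hl
    set z := (A - μ • (1 : Module.End ℂ X)) y with hz
    have hz0 : ((A - μ • (1 : Module.End ℂ X)) ^ m) z = 0 := by
      rw [hz, ← Module.End.mul_apply, ← pow_succ]; exact hy
    obtain ⟨C, hC0, hC⟩ := ih z hz0 (ε / 2) (by linarith)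
    have hAy : A y = μ • y + z := by
      rw [hz, LinearMap.sub_apply, LinearMap.smul_apply, Module.End.one_apply]; abel
    have hexp : Real.exp l = ‖μ‖ := Real.exp_log hμ'
    -- linear growth
    have key : ∀ n : ℕ, ‖(A ^ n) y‖ ≤ (‖y‖ + C / ‖μ‖ * n) * Real.exp ((l + ε / 2) * n) := by
      intro n
      induction n with
      | zero => simp
      | succ n ihn =>
        have h1 : (A ^ (n + 1)) y = μ • (A ^ n) y + (A ^ n) z := by
          rw [pow_succ, Module.End.mul_apply, hAy, map_add, map_smul]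
        rw [h1]
        have h2 : Real.exp ((l + ε / 2) * ((n + 1 : ℕ) : ℝ)) =
            ‖μ‖ * Real.exp (ε / 2) * Real.exp ((l + ε / 2) * n) := by
          rw [← hexp, ← Real.exp_add, ← Real.exp_add]; congr 1; push_cast; ring
        have h3 : (1 : ℝ) ≤ Real.exp (ε / 2) := Real.one_le_exp (by linarith)
        have hEpos : 0 < Real.exp ((l + ε / 2) * n) := Real.exp_pos _
        have hfac : 0 ≤ (‖y‖ + C / ‖μ‖ * ((n + 1 : ℕ) : ℝ)) := by positivity
        calc ‖μ • (A ^ n) y + (A ^ n) z‖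
            ≤ ‖μ‖ * ‖(A ^ n) y‖ + ‖(A ^ n) z‖ := by
              refine (norm_add_le _ _).trans ?_
              rw [norm_smul]
          _ ≤ ‖μ‖ * ((‖y‖ + C / ‖μ‖ * n) * Real.exp ((l + ε / 2) * n)) +
              C * Real.exp ((l + ε / 2) * n) :=
              add_le_add (mul_le_mul_of_nonneg_left ihn hμ'.le) (hC n)
          _ = (‖y‖ + C / ‖μ‖ * ((n + 1 : ℕ) : ℝ)) *
              (‖μ‖ * 1 * Real.exp ((l + ε / 2) * n)) := by
              push_cast
              field_simp
              ring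
          _ ≤ (‖y‖ + C / ‖μ‖ * ((n + 1 : ℕ) : ℝ)) *
              (‖μ‖ * Real.exp (ε / 2) * Real.exp ((l + ε / 2) * n)) := by
              apply mul_le_mul_of_nonneg_left _ hfac
              apply mul_le_mul_of_nonneg_right _ hEpos.le
              exact mul_le_mul_of_nonneg_left h3 hμ'.le
          _ = _ := by rw [h2]
    refine ⟨‖y‖ + C / ‖μ‖ * (2 / ε), by positivity, fun n => (key n).trans ?_⟩
    have h4 : Real.exp ((l + ε) * n) = Real.exp (ε / 2 * n) * Real.exp ((l + ε / 2) * n) := by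
      rw [← Real.exp_add]; congr 1; ring
    rw [h4, ← mul_assoc]
    apply mul_le_mul_of_nonneg_right _ (Real.exp_pos _).le
    have h5 : ε / 2 * n + 1 ≤ Real.exp (ε / 2 * n) := Real.add_one_le_exp _
    have h6 : (1 : ℝ) ≤ Real.exp (ε / 2 * n) := Real.one_le_exp (by positivity)
    have h7 : (n : ℝ) ≤ 2 / ε * Real.exp (ε / 2 * n) := by
      have : (n : ℝ) = 2 / ε * (ε / 2 * n) := by field_simp
      rw [this]
      apply mul_le_mul_of_nonneg_left _ (by positivity)
      have h8 : ε / 2 * (2 / ε * (ε / 2 * (n : ℝ))) = ε / 2 * n := by field_simp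
      rw [h8]; linarith
    rw [add_mul]
    apply add_le_add
    · exact le_mul_of_one_le_right (norm_nonneg _) h6
    · rw [mul_assoc]
      exact mul_le_mul_of_nonneg_left h7 (by positivity)

variable {V : Type*} [AddCommGroup V] [Module ℝ V] [FiniteDimensional ℝ V]

/-- complexification of an operator, in the coordinates of a basis -/
noncomputable def cplx {ι : Type*} [Fintype ι] [DecidableEq ι] (b : Basis ι ℝ V)
    (T : Module.End ℝ V) : Module.End ℂ (ι → ℂ) :=
  Matrix.toLin' ((LinearMap.toMatrix b b T).map (algebraMap ℝ ℂ))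

theorem cplx_mul {ι : Type*} [Fintype ι] [DecidableEq ι] (b : Basis ι ℝ V)
    (S T : Module.End ℝ V) : cplx b (S * T) = cplx b S * cplx b T := by
  unfold cplx
  rw [LinearMap.toMatrix_mul, Matrix.map_mul, Matrix.toLin'_mul]
  rfl

theorem cplx_one {ι : Type*} [Fintype ι] [DecidableEq ι] (b : Basis ι ℝ V) :
    cplx b (1 : Module.End ℝ V) = 1 := by
  unfold cplx
  rw [LinearMap.toMatrix_one, Matrix.map_one _ (map_zero _) (map_one _), Matrix.toLin'_one]
  rfl

/-- real part -/
noncomputable def reMap {ι : Type*} [Fintype ι] (b : Basis ι ℝ V) : (ι → ℂ) →ₗ[ℝ] V where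
  toFun y := ∑ i, (y i).re • b i
  map_add' x y := by
    simp only [Pi.add_apply, Complex.add_re, add_smul, Finset.sum_add_distrib]
  map_smul' c x := by
    simp only [Pi.smul_apply, Complex.smul_re, smul_eq_mul, mul_smul, Finset.smul_sum,
      RingHom.id_apply]

theorem reMap_apply {ι : Type*} [Fintype ι] (b : Basis ι ℝ V) (y : ι → ℂ) :
    reMap b y = ∑ i, (y i).re • b i := rfl

theorem reMap_surj {ι : Type*} [Fintype ι] (b : Basis ι ℝ V) :
    Function.Surjective (reMap b) := by
  intro x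
  refine ⟨fun i => ((b.repr x i : ℝ) : ℂ), ?_⟩
  rw [reMap_apply]
  simp only [Complex.ofReal_re]
  exact b.sum_repr x

theorem reMap_cplx {ι : Type*} [Fintype ι] [DecidableEq ι] (b : Basis ι ℝ V)
    (T : Module.End ℝ V) (y : ι → ℂ) : reMap b (cplx b T y) = T (reMap b y) := by
  rw [reMap_apply, reMap_apply, map_sum]
  have h1 : ∀ i, (cplx b T y i).re = ∑ j, LinearMap.toMatrix b b T i j * (y j).re := by
    intro i
    unfold cplx
    rw [Matrix.toLin'_apply, Matrix.mulVec, dotProduct, Complex.re_sum]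
    refine Finset.sum_congr rfl fun j _ => ?_
    rw [Matrix.map_apply]
    simp
  have h2 : ∀ j, T (b j) = ∑ i, LinearMap.toMatrix b b T i j • b i := by
    intro j
    conv_lhs => rw [← b.sum_repr (T (b j))]
    refine Finset.sum_congr rfl fun i _ => ?_
    rw [LinearMap.toMatrix_apply]
  simp only [h1, map_smul, h2, Finset.sum_smul, Finset.smul_sum, smul_smul]
  rw [Finset.sum_comm]
  refine Finset.sum_congr rfl fun j _ => Finset.sum_congr rfl fun i _ => ?_
  rw [mul_comm]

theorem reMap_cplx_pow {ι : Type*} [Fintype ι] [DecidableEq ι] (b : Basis ι ℝ V)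
    (T : Module.End ℝ V) (n : ℕ) (y : ι → ℂ) :
    reMap b ((cplx b T ^ n) y) = (T ^ n) (reMap b y) := by
  induction n generalizing y with
  | zero => simp
  | succ n ih => rw [pow_succ, pow_succ, Module.End.mul_apply, Module.End.mul_apply, ih, reMap_cplx]

theorem reMap_mem_Gr {ι : Type*} [Fintype ι] [DecidableEq ι] (b : Basis ι ℝ V)
    (T : Module.End ℝ V) {μ : ℂ} (hμ : μ ≠ 0) (m : ℕ) (y : ι → ℂ)
    (hy : ((cplx b T - μ • (1 : Module.End ℂ (ι → ℂ))) ^ m) y = 0) :
    reMap b y ∈ Gr T (Real.log ‖μ‖) := by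
  intro φ ε hε
  obtain ⟨C, hC0, hC⟩ := grow_gen (cplx b T) hμ m y hy ε hε
  let L : (ι → ℂ) →L[ℝ] ℝ := LinearMap.toContinuousLinearMap (φ ∘ₗ reMap b)
  refine ⟨‖L‖ * C, fun n => ?_⟩
  rw [← reMap_cplx_pow, mul_assoc]
  have h1 : |φ (reMap b ((cplx b T ^ n) y))| = ‖L ((cplx b T ^ n) y)‖ := rfl
  rw [h1]
  exact (L.le_opNorm _).trans (mul_le_mul_of_nonneg_left (hC n) (norm_nonneg _))

theorem gen_inv {X : Type*} [AddCommGroup X] [Module ℂ X] {A A' : Module.End ℂ X}
    (h : A' * A = 1) (h' : A * A' = 1) {μ : ℂ} (hμ : μ ≠ 0) (m : ℕ) {y : X}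
    (hy : ((A - μ • (1 : Module.End ℂ X)) ^ m) y = 0) :
    ((A' - μ⁻¹ • (1 : Module.End ℂ X)) ^ m) y = 0 := by
  have h1 : A' - μ⁻¹ • (1 : Module.End ℂ X) =
      (-μ⁻¹) • (A' * (A - μ • (1 : Module.End ℂ X))) := by
    rw [mul_sub, h, mul_smul_comm, mul_one, smul_sub, smul_smul, neg_smul]
    have : -μ⁻¹ * μ = -1 := by field_simp
    rw [this, neg_smul, one_smul]; abel
  have hc : Commute A' (A - μ • (1 : Module.End ℂ X)) := by
    unfold Commute SemiconjBy
    rw [mul_sub, sub_mul, h, h', mul_smul_comm, smul_mul_assoc, mul_one, one_mul]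
  rw [h1, smul_pow, hc.mul_pow, LinearMap.smul_apply, Module.End.mul_apply, hy, map_zero,
    smul_zero]

theorem iSup_Wt_eq_top {T T' : Module.End ℝ V} (h : T' * T = 1) (h' : T * T' = 1) :
    ⨆ r, Wt T T' r = ⊤ := by
  classical
  rw [eq_top_iff]
  intro x _
  let b := Module.finBasis ℝ V
  obtain ⟨y, rfl⟩ := reMap_surj b x
  have hy : y ∈ ⨆ μ, (cplx b T).maxGenEigenspace μ := by
    rw [Module.End.iSup_maxGenEigenspace_eq_top]; trivial
  have hc : cplx b T' * cplx b T = 1 := by rw [← cplx_mul, h, cplx_one]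
  have hc' : cplx b T * cplx b T' = 1 := by rw [← cplx_mul, h', cplx_one]
  refine Submodule.iSup_induction (fun μ => (cplx b T).maxGenEigenspace μ)
    (motive := fun y => reMap b y ∈ ⨆ r, Wt T T' r) hy ?_ ?_ ?_
  · intro μ z hz
    rw [Module.End.mem_maxGenEigenspace] at hz
    obtain ⟨m, hm⟩ := hz
    by_cases hμ : μ = 0
    · subst hμ
      rw [zero_smul, sub_zero] at hm
      have h1 : z = 0 := by
        have h2 : cplx b T' ^ m * cplx b T ^ m = 1 := by
          clear hm
          induction m with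
          | zero => simp
          | succ n ih =>
            rw [pow_succ (cplx b T'), pow_succ' (cplx b T), mul_assoc,
              ← mul_assoc (cplx b T') (cplx b T), hc, one_mul, ih]
        have h3 := congrArg (fun B : Module.End ℂ _ => B z) h2
        simp only [Module.End.mul_apply, Module.End.one_apply, hm, map_zero] at h3
        exact h3.symm
      rw [h1, map_zero]; exact Submodule.zero_mem _
    · refine Submodule.mem_iSup_of_mem (Real.log ‖μ‖) ⟨reMap_mem_Gr b T hμ m z hm, ?_⟩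
      have h4 := reMap_mem_Gr b T' (inv_ne_zero hμ) m z (gen_inv hc hc' hμ m hm)
      rwa [norm_inv, Real.log_inv] at h4
  · rw [map_zero]; exact Submodule.zero_mem _
  · intro u v hu hv
    rw [map_add]; exact Submodule.add_mem _ hu hv

end cplx

end Vale.Agent.P188.H269
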