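import Vale.Agent.P188.Supp

/-!
Locally finite chains modulo 2.
-/

universe u v w

namespace Vale.Agent.P188.H269.T

open Finsupp Pointwise

variable {X : Type u} {Y : Type v} {Z : Type w}

/-- locally finite chains mod 2 -/
abbrev LC (X : Type u) := List X → ZMod 2

theorem fsum_swap {α β M : Type*} [AddCommMonoid M] (f : α → β → M)
    (h : {p : α × β | f p.1 p.2 ≠ 0}.Finite) :
    ∑ᶠ a, ∑ᶠ b, f a b = ∑ᶠ b, ∑ᶠ a, f a b := by
  classical
  set I := h.toFinset.image Prod.fst with hI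
  set J := h.toFinset.image Prod.snd with hJ
  have mI : ∀ a b, f a b ≠ 0 → a ∈ I := fun a b hab =>
    Finset.mem_image.2 ⟨(a, b), h.mem_toFinset.2 hab, rfl⟩
  have mJ : ∀ a b, f a b ≠ 0 → b ∈ J := fun a b hab =>
    Finset.mem_image.2 ⟨(a, b), h.mem_toFinset.2 hab, rfl⟩
  have h1 : ∀ a, ∑ᶠ b, f a b = ∑ b ∈ J, f a b := fun a =>
    finsum_eq_sum_of_support_subset _ (fun b hb => Finset.mem_coe.2 (mJ a b hb))
  have h2 : ∀ b, ∑ᶠ a, f a b = ∑ a ∈ I, f a b := fun b =>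
    finsum_eq_sum_of_support_subset _ (fun a ha => Finset.mem_coe.2 (mI a b ha))
  simp_rw [h1, h2]
  rw [finsum_eq_sum_of_support_subset (s := I), finsum_eq_sum_of_support_subset (s := J),
    Finset.sum_comm]
  · intro b hb
    obtain ⟨a, _, ha⟩ := Finset.exists_ne_zero_of_sum_ne_zero hb
    exact Finset.mem_coe.2 (mJ a b ha)
  · intro a ha
    obtain ⟨b, _, hb⟩ := Finset.exists_ne_zero_of_sum_ne_zero ha
    exact Finset.mem_coe.2 (mI a b hb)

/-- matrix entries mod 2 -/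
noncomputable def mt (T : Ch X →ₗ[ℤ] Ch Y) (l : List X) (l' : List Y) : ZMod 2 :=
  ((T (single l 1) l' : ℤ) : ZMod 2)

theorem mt_ne {T : Ch X →ₗ[ℤ] Ch Y} {l : List X} {l' : List Y} (h : mt T l l' ≠ 0) :
    T (single l 1) l' ≠ 0 := by
  intro h0
  apply h
  rw [mt, h0, Int.cast_zero]

/-- the action of a linear map on locally finite chains -/
noncomputable def lx (T : Ch X →ₗ[ℤ] Ch Y) (c : LC X) : LC Y :=
  open Classical in fun l' => if l' = [] then 0 else ∑ᶠ l, c l * mt T l l'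

theorem lx_nil (T : Ch X →ₗ[ℤ] Ch Y) (c : LC X) : lx T c [] = 0 := if_pos rfl

theorem lx_apply (T : Ch X →ₗ[ℤ] Ch Y) (c : LC X) {l' : List Y} (h : l' ≠ []) :
    lx T c l' = ∑ᶠ l, c l * mt T l l' := if_neg h

theorem lx_ne {T : Ch X →ₗ[ℤ] Ch Y} {c : LC X} {l' : List Y} (h : lx T c l' ≠ 0) :
    l' ≠ [] ∧ ∃ l, c l ≠ 0 ∧ mt T l l' ≠ 0 := by
  have h1 : l' ≠ [] := by
    rintro rfl
    exact h (lx_nil T c)
  refine ⟨h1, ?_⟩
  rw [lx_apply T c h1] at h
  by_contra hcon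
  push Not at hcon
  apply h
  have : (fun l => c l * mt T l l') = fun _ => 0 := by
    funext l
    by_cases hc : c l = 0
    · rw [hc, zero_mul]
    · rw [hcon l hc, mul_zero]
  rw [this, finsum_zero]

theorem lx_zero (T : Ch X →ₗ[ℤ] Ch Y) : lx T 0 = 0 := by
  funext l'
  by_contra h
  obtain ⟨_, l, h1, _⟩ := lx_ne h
  exact h1 rfl

theorem lx_add {T : Ch X →ₗ[ℤ] Ch Y} {c c' : LC X} {l' : List Y}
    (h : {l | c l ≠ 0 ∧ mt T l l' ≠ 0}.Finite) (h' : {l | c' l ≠ 0 ∧ mt T l l' ≠ 0}.Finite) :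
    lx T (c + c') l' = lx T c l' + lx T c' l' := by
  by_cases hn : l' = []
  · subst hn; rw [lx_nil, lx_nil, lx_nil, add_zero]
  · rw [lx_apply T _ hn, lx_apply T _ hn, lx_apply T _ hn, ← finsum_add_distrib]
    · congr 1
      funext l
      rw [Pi.add_apply, add_mul]
    · refine h.subset fun l hl => ?_
      exact ⟨left_ne_zero_of_mul hl, right_ne_zero_of_mul hl⟩
    · refine h'.subset fun l hl => ?_
      exact ⟨left_ne_zero_of_mul hl, right_ne_zero_of_mul hl⟩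

theorem mt_comp (T₁ : Ch X →ₗ[ℤ] Ch Y) (T₂ : Ch Y →ₗ[ℤ] Ch Z) (l : List X) (l'' : List Z) :
    mt (T₂ ∘ₗ T₁) l l'' = ∑ᶠ l', mt T₁ l l' * mt T₂ l' l'' := by
  classical
  set u := T₁ (single l 1) with hu
  have h1 : (T₂ ∘ₗ T₁) (single l 1) l'' = ∑ l' ∈ u.support, u l' * T₂ (single l' 1) l'' := by
    rw [LinearMap.comp_apply, ← hu]
    conv_lhs => rw [← Finsupp.sum_single u, Finsupp.sum, map_sum, Finsupp.finsetSum_apply]
    refine Finset.sum_congr rfl fun l' _ => ?_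
    have : single l' (u l') = (u l') • single l' (1 : ℤ) := by simp
    rw [this, map_smul, Finsupp.smul_apply, smul_eq_mul]
  rw [mt, h1, Int.cast_sum, finsum_eq_sum_of_support_subset (s := u.support)]
  · refine Finset.sum_congr rfl fun l' _ => ?_
    rw [Int.cast_mul]; rfl
  · intro l' hl'
    have := mt_ne (left_ne_zero_of_mul hl')
    exact Finset.mem_coe.2 (Finsupp.mem_support_iff.2 this)

theorem lx_comp (T₁ : Ch X →ₗ[ℤ] Ch Y) (T₂ : Ch Y →ₗ[ℤ] Ch Z) (c : LC X) {l'' : List Z}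
    (hn : l'' ≠ []) (h0 : mt T₂ [] l'' = 0)
    (hfin : {p : List X × List Y | c p.1 ≠ 0 ∧ mt T₁ p.1 p.2 ≠ 0 ∧ mt T₂ p.2 l'' ≠ 0}.Finite) :
    lx T₂ (lx T₁ c) l'' = lx (T₂ ∘ₗ T₁) c l'' := by
  rw [lx_apply _ _ hn, lx_apply _ _ hn]
  have h1 : ∀ l', lx T₁ c l' * mt T₂ l' l'' = ∑ᶠ l, c l * mt T₁ l l' * mt T₂ l' l'' := by
    intro l'
    by_cases hl' : l' = []
    · subst hl'
      rw [h0, mul_zero]
      simp
    · rw [lx_apply _ _ hl', finsum_mul]
  have h2 : ∀ l, c l * mt (T₂ ∘ₗ T₁) l l'' = ∑ᶠ l', c l * mt T₁ l l' * mt T₂ l' l'' := by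
    intro l
    rw [mt_comp, mul_finsum]
    congr 1
    funext l'
    rw [mul_assoc]
  simp_rw [h1, h2]
  rw [← fsum_swap]
  refine hfin.subset ?_
  rintro ⟨l, l'⟩ h
  refine ⟨left_ne_zero_of_mul (left_ne_zero_of_mul h), right_ne_zero_of_mul
    (left_ne_zero_of_mul h), right_ne_zero_of_mul h⟩

/-- sums of families -/
noncomputable def fs {ι : Type*} (d : ι → LC X) : LC X := fun l => ∑ᶠ i, d i l

theorem fs_ne {ι : Type*} {d : ι → LC X} {l : List X} (h : fs d l ≠ 0) : ∃ i, d i l ≠ 0 := by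
  by_contra hcon
  push Not at hcon
  apply h
  unfold fs
  rw [show (fun i => d i l) = fun _ => 0 from funext hcon, finsum_zero]

theorem lx_fs {ι : Type*} (T : Ch X →ₗ[ℤ] Ch Y) (d : ι → LC X) {l' : List Y}
    (hfin : {p : ι × List X | d p.1 p.2 ≠ 0 ∧ mt T p.2 l' ≠ 0}.Finite) :
    lx T (fs d) l' = ∑ᶠ i, lx T (d i) l' := by
  by_cases hn : l' = []
  · subst hn
    rw [lx_nil]
    simp_rw [lx_nil]
    rw [finsum_zero]
  · rw [lx_apply _ _ hn]
    simp_rw [lx_apply T _ hn]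
    have h1 : ∀ l, fs d l * mt T l l' = ∑ᶠ i, d i l * mt T l l' := by
      intro l
      rw [fs, finsum_mul]
    simp_rw [h1]
    rw [← fsum_swap]
    refine hfin.subset ?_
    rintro ⟨i, l⟩ h
    exact ⟨left_ne_zero_of_mul h, right_ne_zero_of_mul h⟩

/-- the boundary -/
noncomputable def db (c : LC X) : LC X := lx bd c

theorem mt_bd {l l' : List X} (h : mt bd l l' ≠ 0) : l' ⊆ l ∧ l'.length + 1 = l.length := by
  have h1 := mt_ne h
  rw [bd_single, one_smul] at h1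
  exact (mem_Sp.1 (dl_mem l)) l' h1

theorem finite_lists {W : Set X} (hW : W.Finite) (n : ℕ) :
    {l : List X | (∀ x ∈ l, x ∈ W) ∧ l.length = n}.Finite := by
  induction n with
  | zero =>
    apply (Set.finite_singleton ([] : List X)).subset
    rintro l ⟨_, hl⟩
    exact List.length_eq_zero_iff.mp hl
  | succ n ih =>
    apply (Set.Finite.image2 (fun x l => x :: l) hW ih).subset
    rintro l ⟨hl, hl'⟩
    rcases l with _ | ⟨x, t⟩
    · simp at hl'
    · refine ⟨x, hl x (by simp), t, ⟨fun y hy => hl y (by simp [hy]), ?_⟩, rfl⟩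
      simpa using hl'

section group

variable {Γ : Type u} [Group Γ]

/-- chains on lists of length `q` controlled by `A` with vertices in `V` -/
def Cd (A V : Set Γ) (q : ℕ) (c : LC Γ) : Prop :=
  ∀ l, c l ≠ 0 → l ∈ Ctl A ∧ l.length = q ∧ ∀ x ∈ l, x ∈ V

theorem Cd.mono {A A' V V' : Set Γ} {q : ℕ} {c : LC Γ} (h : Cd A V q c) (hA : A ⊆ A')
    (hV : V ⊆ V') : Cd A' V' q c := fun l hl =>
  ⟨Ctl_mono hA (h l hl).1, (h l hl).2.1, fun x hx => hV ((h l hl).2.2 x hx)⟩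

theorem Cd.zero (A V : Set Γ) (q : ℕ) : Cd A V q 0 := fun _ hl => absurd rfl hl

theorem Cd.add {A V : Set Γ} {q : ℕ} {c c' : LC Γ} (h : Cd A V q c) (h' : Cd A V q c') :
    Cd A V q (c + c') := by
  intro l hl
  by_cases hc : c l = 0
  · refine h' l fun h0 => hl ?_
    rw [Pi.add_apply, hc, h0, add_zero]
  · exact h l hc

theorem Cd.db {A V : Set Γ} {q : ℕ} {c : LC Γ} (h : Cd A V (q + 1) c) : Cd A V q (db c) := by
  intro l hl
  obtain ⟨_, l', h1, h2⟩ := lx_ne hl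
  obtain ⟨h3, h4⟩ := mt_bd h2
  obtain ⟨h5, h6, h7⟩ := h l' h1
  exact ⟨SubC_Ctl A l' h5 l h3, by omega, fun x hx => h7 x (h3 hx)⟩

/-- lists controlled by `A` containing a given vertex -/
theorem finite_ctl {A : Set Γ} (hA : A.Finite) (x : Γ) (q : ℕ) :
    {l : List Γ | l ∈ Ctl A ∧ l.length = q ∧ x ∈ l}.Finite := by
  refine (finite_lists (hA.image fun a => x * a) q).subset ?_
  rintro l ⟨h1, h2, h3⟩
  refine ⟨fun y hy => ⟨x⁻¹ * y, h1 x h3 y hy, by group⟩, h2⟩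

theorem Cd.fin {A V : Set Γ} {q : ℕ} {c : LC Γ} (h : Cd A V q c) (hA : A.Finite) {l : List Γ}
    (hl : l ≠ []) : {l' | c l' ≠ 0 ∧ mt bd l' l ≠ 0}.Finite := by
  obtain ⟨x, t, rfl⟩ := List.exists_cons_of_ne_nil hl
  refine (finite_ctl hA x q).subset ?_
  rintro l' ⟨h1, h2⟩
  exact ⟨(h l' h1).1, (h l' h1).2.1, (mt_bd h2).1 (by simp)⟩

theorem db_add {A V V' A' : Set Γ} {q q' : ℕ} {c c' : LC Γ} (h : Cd A V q c) (hA : A.Finite)
    (h' : Cd A' V' q' c') (hA' : A'.Finite) : db (c + c') = db c + db c' := by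
  funext l
  by_cases hl : l = []
  · subst hl
    rw [Pi.add_apply, db, db, db, lx_nil, lx_nil, lx_nil, add_zero]
  · exact lx_add (h.fin hA hl) (h'.fin hA' hl)

theorem db_zero : db (0 : LC X) = 0 := lx_zero _

theorem mt_bd_nil (l : List X) : mt bd [] l = 0 := by
  by_contra h
  have := (mt_bd h).2
  simp at this

theorem db_db {A V : Set Γ} {q : ℕ} {c : LC Γ} (h : Cd A V q c) (hA : A.Finite) :
    db (db c) = 0 := by
  funext l
  by_cases hl : l = []
  · subst hl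
    exact lx_nil _ _
  · rw [db, db, lx_comp _ _ _ hl (mt_bd_nil l)]
    · have : (bd ∘ₗ bd : Ch Γ →ₗ[ℤ] Ch Γ) = 0 := by
        apply lin_ext
        intro l
        simp [bd_dl]
      rw [this, lx_apply _ _ hl]
      have h0 : ∀ l', mt (0 : Ch Γ →ₗ[ℤ] Ch Γ) l' l = 0 := by
        intro l'
        simp [mt]
      simp [h0]
    · obtain ⟨x, t, rfl⟩ := List.exists_cons_of_ne_nil hl
      refine ((finite_ctl hA x q).prod (finite_ctl hA x (q - 1))).subset ?_
      rintro ⟨l₁, l₂⟩ ⟨h1, h2, h3⟩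
      have e1 := mt_bd h2
      have e2 := mt_bd h3
      have e3 := h l₁ h1
      refine ⟨⟨e3.1, e3.2.1, e1.1 (e2.1 (by simp))⟩, ⟨SubC_Ctl A l₁ e3.1 l₂ e1.1, ?_,
        e2.1 (by simp)⟩⟩
      have := e3.2.1
      have := e1.2
      simp only at *
      omega

/-- translation -/
def tr (g : Γ) (c : LC Γ) : LC Γ := fun l => c (l.map (g⁻¹ * ·))

theorem tr_one (c : LC Γ) : tr 1 c = c := by
  funext l
  unfold tr
  congr 1
  simp

theorem tr_tr (g h : Γ) (c : LC Γ) : tr g (tr h c) = tr (g * h) c := by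
  funext l
  unfold tr
  rw [List.map_map]
  congr 1
  apply List.map_congr_left
  intro x _
  simp [mul_assoc]

theorem tr_add (g : Γ) (c c' : LC Γ) : tr g (c + c') = tr g c + tr g c' := rfl
theorem tr_zero (g : Γ) : tr g (0 : LC Γ) = 0 := rfl

theorem Cd.tr {A V : Set Γ} {q : ℕ} {c : LC Γ} (h : Cd A V q c) (g : Γ) :
    Cd A (g • V) q (tr g c) := by
  intro l hl
  obtain ⟨h1, h2, h3⟩ := h _ hl
  have e : (l.map (g⁻¹ * ·)).map (g * ·) = l := by
    rw [List.map_map]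
    conv_rhs => rw [← List.map_id l]
    apply List.map_congr_left
    intro x _
    simp
  refine ⟨?_, by rwa [List.length_map] at h2, ?_⟩
  · rw [← e]
    exact Ctl_map_mul g h1
  · intro x hx
    rw [Set.mem_smul_set_iff_inv_smul_mem]
    exact h3 _ (List.mem_map_of_mem hx)

theorem mt_bd_map {f : X → Y} (hf : Function.Injective f) (l l' : List X) :
    mt bd (l.map f) (l'.map f) = mt bd l l' := by
  unfold mt
  congr 1
  have h := bd_pf f (single l 1)
  rw [pf_single] at h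
  rw [h]
  exact Finsupp.mapDomain_apply (List.map_injective_iff.2 hf) _ _

theorem db_tr (g : Γ) (c : LC Γ) : db (tr g c) = tr g (db c) := by
  funext l
  by_cases hl : l = []
  · subst hl
    rw [db, lx_nil, tr, List.map_nil, db, lx_nil]
  · have hl' : l.map (g⁻¹ * ·) ≠ [] := by simpa using hl
    unfold tr db
    rw [lx_apply _ _ hl, lx_apply _ _ hl']
    let e : List Γ ≃ List Γ := ⟨List.map (g⁻¹ * ·), List.map (g * ·), fun l => by
      rw [List.map_map]
      conv_rhs => rw [← List.map_id l]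
      apply List.map_congr_left
      intro x _
      simp, fun l => by
      rw [List.map_map]
      conv_rhs => rw [← List.map_id l]
      apply List.map_congr_left
      intro x _
      simp⟩
    have h1 : ∑ᶠ l₁, c l₁ * mt bd l₁ (l.map (g⁻¹ * ·)) =
        ∑ᶠ l₁, c (e l₁) * mt bd (e l₁) (l.map (g⁻¹ * ·)) :=
      (finsum_comp_equiv (f := fun l₁ => c l₁ * mt bd l₁ (l.map (g⁻¹ * ·))) e).symm
    rw [h1]
    congr 1
    funext l₁
    congr 1
    exact (mt_bd_map (mul_right_injective g⁻¹) l₁ l).symm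

/-- vertices of the support -/
def Sv (c : LC X) : Set X := {x | ∃ l, c l ≠ 0 ∧ x ∈ l}

theorem Cd.Sv_sub {A V : Set Γ} {q : ℕ} {c : LC Γ} (h : Cd A V q c) : Sv c ⊆ V := by
  rintro x ⟨l, h1, h2⟩
  exact (h l h1).2.2 x h2

theorem Cd.Sv {A V : Set Γ} {q : ℕ} {c : LC Γ} (h : Cd A V q c) : Cd A (Sv c) q c :=
  fun l hl => ⟨(h l hl).1, (h l hl).2.1, fun x hx => ⟨l, hl, hx⟩⟩

theorem Sv_db (c : LC X) : Sv (db c) ⊆ Sv c := by
  rintro x ⟨l, h1, h2⟩
  obtain ⟨_, l', h3, h4⟩ := lx_ne h1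
  exact ⟨l', h3, (mt_bd h4).1 h2⟩

theorem Sv_add (c c' : LC X) : Sv (c + c') ⊆ Sv c ∪ Sv c' := by
  rintro x ⟨l, h1, h2⟩
  by_cases hc : c l = 0
  · refine Or.inr ⟨l, fun h0 => h1 ?_, h2⟩
    rw [Pi.add_apply, hc, h0, add_zero]
  · exact Or.inl ⟨l, hc, h2⟩

theorem Sv_tr (g : Γ) (c : LC Γ) : Sv (tr g c) = g • Sv c := by
  ext x
  rw [Set.mem_smul_set_iff_inv_smul_mem]
  constructor
  · rintro ⟨l, h1, h2⟩
    exact ⟨_, h1, List.mem_map_of_mem h2⟩
  · rintro ⟨l, h1, h2⟩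
    refine ⟨l.map (g * ·), ?_, ?_⟩
    · have e : (l.map (g * ·)).map (g⁻¹ * ·) = l := by
        rw [List.map_map]
        conv_rhs => rw [← List.map_id l]
        apply List.map_congr_left
        intro x _
        simp
      unfold tr
      rw [e]
      exact h1
    · rw [List.mem_map]
      exact ⟨_, h2, by simp⟩

theorem add_self' (c : LC X) : c + c = 0 := by
  funext l
  exact CharTwo.add_self_eq_zero _

end group

end Vale.Agent.P188.H269.T
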