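import Vale.Agent.P188.H269.Rep

/-!
Weights (logarithms of moduli of eigencharacters) and a separating element.
-/

namespace Vale.Agent.P188.H269

open Module
open scoped commutatorElement

universe u v

section wei

variable {G : Type u} [Group G] {V : Type v} [AddCommGroup V] [Module ℝ V]

/-- `(l, χ)` is an eigenfunctional on the invariant subspace `A` -/
structure EigOn (ρ : G →* Module.End ℝ V) (A : Submodule ℝ V) (l : V →ₗ[ℝ] ℂ) (χ : G → ℂ) :
    Prop where
  inv : ∀ g, ∀ x ∈ A, ρ g x ∈ A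
  ne : ∃ x ∈ A, l x ≠ 0
  eig : ∀ g, ∀ x ∈ A, l (ρ g x) = χ g * l x

variable {ρ : G →* Module.End ℝ V} {A : Submodule ℝ V} {l : V →ₗ[ℝ] ℂ} {χ : G → ℂ}

theorem EigOn.mul (h : EigOn ρ A l χ) (g k : G) : χ (g * k) = χ g * χ k := by
  obtain ⟨x, hx, hx0⟩ := h.ne
  have h1 := h.eig (g * k) x hx
  rw [map_mul, Module.End.mul_apply, h.eig g _ (h.inv k x hx), h.eig k x hx, ← mul_assoc] at h1
  exact (mul_right_cancel₀ hx0 h1).symm

theorem EigOn.one (h : EigOn ρ A l χ) : χ 1 = 1 := by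
  obtain ⟨x, hx, hx0⟩ := h.ne
  have h1 := h.eig 1 x hx
  rw [map_one, Module.End.one_apply] at h1
  have h2 : (1 : ℂ) * l x = χ 1 * l x := by rw [one_mul]; exact h1
  exact (mul_right_cancel₀ hx0 h2).symm

theorem EigOn.ne_zero (h : EigOn ρ A l χ) (g : G) : χ g ≠ 0 := by
  intro h0
  have h1 := h.mul g g⁻¹
  rw [mul_inv_cancel, h.one, h0, zero_mul] at h1
  exact one_ne_zero h1

theorem EigOn.inv' (h : EigOn ρ A l χ) (g : G) : χ g⁻¹ = (χ g)⁻¹ := by
  have h1 := h.mul g⁻¹ g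
  rw [inv_mul_cancel, h.one] at h1
  exact eq_inv_of_mul_eq_one_left h1.symm

theorem EigOn.pow (h : EigOn ρ A l χ) (g : G) (n : ℕ) {x : V} (hx : x ∈ A) :
    (ρ g ^ n) x ∈ A ∧ l ((ρ g ^ n) x) = χ g ^ n * l x := by
  induction n with
  | zero => simpa using hx
  | succ n ih =>
    rw [pow_succ', Module.End.mul_apply]
    refine ⟨h.inv g _ ih.1, ?_⟩
    rw [h.eig g _ ih.1, ih.2, pow_succ']; ring

theorem EigOn.log_le (h : EigOn ρ A l χ) {g : G} {r : ℝ} {x : V} (hx : x ∈ A)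
    (hr : x ∈ Gr (ρ g) r) (hx0 : l x ≠ 0) : Real.log ‖χ g‖ ≤ r :=
  log_le_of_mem_Gr l (h.ne_zero g) hx0 (fun n => (h.pow g n hx).2) hr

theorem EigOn.log_eq (h : EigOn ρ A l χ) {g : G} {r : ℝ} {x : V} (hx : x ∈ A)
    (hr : x ∈ Wt (ρ g) (ρ g⁻¹) r) (hx0 : l x ≠ 0) : Real.log ‖χ g‖ = r := by
  refine le_antisymm (h.log_le hx hr.1 hx0) ?_
  have h1 := h.log_le hx hr.2 hx0
  rw [h.inv', norm_inv, Real.log_inv] at h1
  linarith

/-- the weight of an eigenfunctional is additive -/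
theorem EigOn.log_mul (h : EigOn ρ A l χ) (g k : G) :
    Real.log ‖χ (g * k)‖ = Real.log ‖χ g‖ + Real.log ‖χ k‖ := by
  rw [h.mul, norm_mul, Real.log_mul (norm_ne_zero_iff.2 (h.ne_zero g))
    (norm_ne_zero_iff.2 (h.ne_zero k))]

/-- some component of a vector detects the eigenfunctional -/
theorem EigOn.exists_comp [FiniteDimensional ℝ V] (h : EigOn ρ A l χ) (g : G) {x : V} (hx : x ∈ A)
    (_hx0 : l x ≠ 0) : ∃ y ∈ A, y ∈ Wt (ρ g) (ρ g⁻¹) (Real.log ‖χ g‖) ∧ l y = l x := by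
  classical
  obtain ⟨f, hf, hfA, hsum⟩ := exists_decomp ρ A h.inv g hx
  refine ⟨f (Real.log ‖χ g‖), hfA _, hf _, ?_⟩
  rw [← hsum, Finsupp.sum, map_sum]
  rw [Finset.sum_eq_single (Real.log ‖χ g‖)]
  · intro r _ hr
    by_contra hne
    exact hr (h.log_eq (hfA r) (hf r) hne).symm
  · intro hr
    rw [Finsupp.notMem_support_iff] at hr
    rw [hr, map_zero]

/-- the weights of a representation (on invariant subspaces of `D`) -/
def Wts (ρ : G →* Module.End ℝ V) (D : Submodule ℝ V) : Set (G → ℝ) :=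
  {b | ∃ A ≤ D, ∃ l χ, EigOn ρ A l χ ∧ ∀ g, b g = Real.log ‖χ g‖}

/-- kernel of an eigenfunctional -/
theorem EigOn.ker_inv (h : EigOn ρ A l χ) : ∀ g, ∀ x ∈ A ⊓ LinearMap.ker l,
    ρ g x ∈ A ⊓ LinearMap.ker l := by
  intro g x hx
  refine ⟨h.inv g x hx.1, ?_⟩
  change l (ρ g x) = 0
  rw [h.eig g x hx.1]
  have : l x = 0 := hx.2
  rw [this, mul_zero]

theorem EigOn.ker_lt (h : EigOn ρ A l χ) : A ⊓ LinearMap.ker l < A := by
  refine lt_of_le_of_ne inf_le_left fun he => ?_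
  obtain ⟨x, hx, hx0⟩ := h.ne
  rw [← he] at hx
  exact hx0 hx.2

theorem exists_eigOn [FiniteDimensional ℝ V] {N : Subgroup G} [hNn : N.Normal]
    (hcomm : ∀ a b : G, ⁅a, b⁆ ∈ N) (ρ : G →* Module.End ℝ V) (hU : UnipOn N ρ)
    (A B : Submodule ℝ V) (hA : ∀ g, ∀ x ∈ A, ρ g x ∈ A) (hB : ∀ g, ∀ x ∈ B, ρ g x ∈ B)
    (hBA : B < A) : ∃ (l : V →ₗ[ℝ] ℂ) (χ : G → ℂ), EigOn ρ A l χ ∧ ∀ x ∈ B, l x = 0 := by
  obtain ⟨l, χ, h1, h2, h3⟩ := exists_step hcomm ρ hU A B hA hB hBA
  exact ⟨l, χ, ⟨hA, h1, h3⟩, h2⟩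

theorem finite_Wts [FiniteDimensional ℝ V] {N : Subgroup G} [hNn : N.Normal]
    (hcomm : ∀ a b : G, ⁅a, b⁆ ∈ N) (ρ : G →* Module.End ℝ V) (hU : UnipOn N ρ)
    (D : Submodule ℝ V) (hD : ∀ g, ∀ x ∈ D, ρ g x ∈ D) : (Wts ρ D).Finite := by
  classical
  generalize hn : finrank ℝ D = n
  induction n using Nat.strong_induction_on generalizing D with
  | _ n ih =>
  by_cases hD0 : D = ⊥
  · have : Wts ρ D = ∅ := by
      rw [Set.eq_empty_iff_forall_notMem]
      rintro b ⟨A, hA, l, χ, h, _⟩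
      obtain ⟨x, hx, hx0⟩ := h.ne
      have h1 : x ∈ D := hA hx
      rw [hD0, Submodule.mem_bot] at h1
      rw [h1, map_zero] at hx0
      exact hx0 rfl
    rw [this]; exact Set.finite_empty
  · obtain ⟨l0, χ0, h0, _⟩ := exists_eigOn hcomm ρ hU D ⊥ hD (by
      intro g x hx
      rw [Submodule.mem_bot] at hx ⊢
      rw [hx, map_zero]) (bot_lt_iff_ne_bot.2 hD0)
    have hlt : finrank ℝ (D ⊓ LinearMap.ker l0 : Submodule ℝ V) < n :=
      hn ▸ Submodule.finrank_lt_finrank_of_lt h0.ker_lt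
    have hfin := ih _ hlt (D ⊓ LinearMap.ker l0) h0.ker_inv rfl
    refine (hfin.union (Set.finite_singleton (fun g => Real.log ‖χ0 g‖))).subset ?_
    rintro b ⟨A, hA, l, χ, h, hb⟩
    by_cases hcase : ∃ x ∈ A ⊓ (D ⊓ LinearMap.ker l0), l x ≠ 0
    · left
      refine ⟨A ⊓ (D ⊓ LinearMap.ker l0), inf_le_right, l, χ, ⟨?_, hcase, ?_⟩, hb⟩
      · intro g x hx
        exact ⟨h.inv g x hx.1, h0.ker_inv g x hx.2⟩
      · intro g x hx
        exact h.eig g x hx.1
    · right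
      push Not at hcase
      rw [Set.mem_singleton_iff]
      funext g
      rw [hb g]
      obtain ⟨x, hx, hx0⟩ := h.ne
      obtain ⟨y, hyA, hy, hly⟩ := h.exists_comp g hx hx0
      have hl0y : l0 y ≠ 0 := by
        intro hcon
        apply hx0
        rw [← hly]
        exact hcase y ⟨hyA, hA hyA, hcon⟩
      exact (h0.log_eq (hA hyA) hy hl0y).symm

/-- an element separating finitely many additive functions from zero -/
theorem exists_sep (S : Finset (G → ℝ)) (hadd : ∀ b ∈ S, ∀ g k, b (g * k) = b g + b k)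
    (hne : ∀ b ∈ S, ∃ g, b g ≠ 0) : ∃ t : G, ∀ b ∈ S, b t ≠ 0 := by
  classical
  induction S using Finset.induction_on with
  | empty => exact ⟨1, by simp⟩
  | insert b0 S hb0 ih =>
    obtain ⟨t, ht⟩ := ih (fun b hb => hadd b (Finset.mem_insert_of_mem hb))
      (fun b hb => hne b (Finset.mem_insert_of_mem hb))
    by_cases h0 : b0 t = 0
    · obtain ⟨w, hw⟩ := hne b0 (Finset.mem_insert_self _ _)
      have hpow : ∀ b : G → ℝ, (∀ g k, b (g * k) = b g + b k) → ∀ n : ℕ, b (t ^ n) = n * b t := by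
        intro b hb n
        have h1 : b 1 = 0 := by
          have := hb 1 1
          rw [mul_one] at this
          linarith
        induction n with
        | zero => simp [h1]
        | succ n ihn => rw [pow_succ, hb, ihn]; push_cast; ring
      -- choose a large power
      obtain ⟨M, hM⟩ : ∃ M : ℕ, ∀ b ∈ S, |b w| < M * |b t| := by
        have h1 : ∀ b ∈ S, ∃ M : ℕ, |b w| < M * |b t| := by
          intro b hb
          obtain ⟨M, hM⟩ := exists_nat_gt (|b w| / |b t|)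
          refine ⟨M, ?_⟩
          rwa [div_lt_iff₀ (abs_pos.2 (ht b hb))] at hM
        choose! m hm using h1
        refine ⟨∑ b ∈ S, m b, fun b hb => (hm b hb).trans_le ?_⟩
        apply mul_le_mul_of_nonneg_right _ (abs_nonneg _)
        exact_mod_cast Finset.single_le_sum (f := m) (fun _ _ => Nat.zero_le _) hb
      refine ⟨t ^ M * w, ?_⟩
      intro b hb
      rw [Finset.mem_insert] at hb
      rcases hb with rfl | hb
      · rw [hadd b (Finset.mem_insert_self _ _), hpow b (hadd b (Finset.mem_insert_self _ _)), h0,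
          mul_zero, zero_add]
        exact hw
      · have hb' : b ∈ insert b0 S := Finset.mem_insert_of_mem hb
        rw [hadd b hb', hpow b (hadd b hb')]
        intro hcon
        have h2 := hM b hb
        have h3 : b w = - (M * b t) := by linarith
        rw [h3, abs_neg, abs_mul, Nat.abs_cast] at h2
        exact lt_irrefl _ h2
    · refine ⟨t, ?_⟩
      intro b hb
      rw [Finset.mem_insert] at hb
      rcases hb with rfl | hb
      · exact h0
      · exact ht b hb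

/-- a separating element for all the weights -/
theorem exists_sep_Wts [FiniteDimensional ℝ V] {N : Subgroup G} [hNn : N.Normal]
    (hcomm : ∀ a b : G, ⁅a, b⁆ ∈ N) (ρ : G →* Module.End ℝ V) (hU : UnipOn N ρ) :
    ∃ t : G, (∀ b ∈ Wts ρ ⊤, b t = 0 → b = 0) ∧
      ∀ b ∈ Wts ρ ⊤, ∀ b' ∈ Wts ρ ⊤, b t = b' t → b = b' := by
  classical
  have hfin := finite_Wts hcomm ρ hU ⊤ (fun _ _ _ => trivial)
  have hadd : ∀ b ∈ Wts ρ ⊤, ∀ g k, b (g * k) = b g + b k := by
    rintro b ⟨A, _, l, χ, h, hb⟩ g k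
    rw [hb, hb, hb]
    exact h.log_mul g k
  let S1 : Finset (G → ℝ) := hfin.toFinset
  let S2 : Finset (G → ℝ) := (S1 ×ˢ S1).image fun p => p.1 - p.2
  obtain ⟨t, ht⟩ := exists_sep ((S1 ∪ S2).filter fun b => ∃ g, b g ≠ 0) (by
    intro b hb g k
    rw [Finset.mem_filter, Finset.mem_union] at hb
    rcases hb.1 with hb | hb
    · exact hadd b (hfin.mem_toFinset.1 hb) g k
    · obtain ⟨p, hp, rfl⟩ := Finset.mem_image.1 hb
      rw [Finset.mem_product] at hp
      simp only [Pi.sub_apply]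
      rw [hadd p.1 (hfin.mem_toFinset.1 hp.1), hadd p.2 (hfin.mem_toFinset.1 hp.2)]
      ring) (by
    intro b hb
    exact (Finset.mem_filter.1 hb).2)
  refine ⟨t, ?_, ?_⟩
  · intro b hb hbt
    by_contra hne
    have hex : ∃ g, b g ≠ 0 := by
      by_contra hcon
      push Not at hcon
      exact hne (funext hcon)
    exact ht b (Finset.mem_filter.2 ⟨Finset.mem_union_left _ (hfin.mem_toFinset.2 hb), hex⟩) hbt
  · intro b hb b' hb' hbt
    by_contra hne
    have hex : ∃ g, (b - b') g ≠ 0 := by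
      by_contra hcon
      push Not at hcon
      apply hne
      funext g
      have := hcon g
      rw [Pi.sub_apply] at this
      linarith
    have hmem : b - b' ∈ S1 ∪ S2 := by
      apply Finset.mem_union_right
      exact Finset.mem_image.2 ⟨(b, b'), Finset.mem_product.2
        ⟨hfin.mem_toFinset.2 hb, hfin.mem_toFinset.2 hb'⟩, rfl⟩
    apply ht _ (Finset.mem_filter.2 ⟨hmem, hex⟩)
    rw [Pi.sub_apply, hbt, sub_self]

end wei

end Vale.Agent.P188.H269
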